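import Vale.Agent.P330.Bohr.Stm
import Mathlib.NumberTheory.PrimesCongruentOne

/-!
P330, inner system: the assembly of the parts.
-/

namespace Vale.Agent.P330.Bohr

open Vale.Agent.Lib.PolyTime hiding C P
open Vale.Agent.Lib.Dep

/-- a prime `r` with a nontrivial character of `ZMod q` in `ZMod r` -/
theorem exists_char (q : ℕ) [hq : Fact q.Prime] : ∃ (r : ℕ) (_ : Fact r.Prime)
    (ψ : AddChar (ZMod q) (ZMod r)), ψ ≠ 1 ∧ (q : ZMod r) ≠ 0 := by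
  obtain ⟨r, hr, hlt, hmod⟩ := Nat.exists_prime_gt_modEq_one q hq.out.ne_zero
  have : Fact r.Prime := ⟨hr⟩
  have hd : q ∣ Fintype.card (ZMod r)ˣ := by
    rw [ZMod.card_units]
    exact (Nat.modEq_iff_dvd' hr.one_le).1 hmod.symm
  obtain ⟨ζ, hζ⟩ := exists_prime_orderOf_dvd_card q hd
  have h1 : (ζ : ZMod r) ^ q = 1 := by
    rw [← Units.val_pow_eq_pow_val, ← hζ, pow_orderOf_eq_one, Units.val_one]
  refine ⟨r, ⟨hr⟩, AddChar.zmodChar q h1, fun h => ?_, fun h => ?_⟩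
  · have h2 := DFunLike.congr_fun h ((1 : ℕ) : ZMod q)
    rw [AddChar.zmodChar_apply', pow_one, AddChar.one_apply] at h2
    have h3 : ζ = 1 := Units.ext h2
    rw [h3, orderOf_one] at hζ
    exact hq.out.one_lt.ne hζ
  · rw [ZMod.natCast_eq_zero_iff] at h
    exact absurd (Nat.le_of_dvd hq.out.pos h) (not_le.2 hlt)

/-- all parts for single instances -/
def AllInst : Prop :=
  ∀ (q r m n Cw c ℓ D : ℕ) (X : Type) [Fact q.Prime] [Fact r.Prime] [Fintype X] [DecidableEq X]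
    (ψ : AddChar (ZMod q) (ZMod r)) (Γ : Geo q m n Cw (Idx X ℓ)) (M : LBL c ℓ D X) (s : ℕ)
    (lam : ℝ), Cx ψ Γ M s lam → TabP ψ Γ M s ∧ LiftP ψ Γ M s ∧ Sound0P ψ Γ M s ∧
      Sound1P ψ Γ M s ∧ ConsP ψ Γ M ∧ CompP ψ Γ M ∧ GraphP ψ Γ M s

/-- all parts on polynomial time -/
def AllPT : Prop :=
  ∀ (q r Cw c D : ℕ) [Fact q.Prime] [Fact r.Prime] (α : Type) [Enc α] (ℓ m n : α → ℕ) (X : TF α)
    (ψ : AddChar (ZMod q) (ZMod r)) (Γ : ∀ a, Geo q (m a) (n a) Cw (Idx (X.T a) (ℓ a)))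
    (M : ∀ a, LBL c (ℓ a) D (X.T a)), PTx Γ M → PT1 Γ r c D ∧ PT3 ψ Γ M ∧ PT4 ψ Γ M

theorem s2_eq (D s : ℕ) : 4 * s2 D s = 4 * ((D + 2) * (2 * (D + 2) + 1) + (D + 3)) * s := by
  simp only [s2, s1]
  ring

theorem bohr_of_parts (hG : GeoStmt) (hg : GoodStmt) (hI : AllInst) (hP : AllPT) : BohrStmt := by
  intro c D
  obtain ⟨lam, hl0, hl1, hg⟩ := hg
  obtain ⟨q, s, Cw, hq, hCw, hs, hG⟩ :=
    hG (D + 2) (4 * ((D + 2) * (2 * (D + 2) + 1) + (D + 3))) lam hl0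
  obtain ⟨r, hr, ψ, hψ, hqr⟩ := exists_char q
  obtain ⟨θ, h, hθ, hh, hg⟩ := hg q r c D
  refine ⟨CT.zmod r, kk q c D, 1, 1 / 5, θ, h, by norm_num, hθ, hh, ?_⟩
  intro α _ ℓ X M hl hlb hM hwf
  let I : TF α :=
    { T := fun a => Idx (X.T a) (ℓ a)
      pt := dpt_elems_option (dpt_elems_sum X.pt (dpt_elems_fin hl hlb)) }
  obtain ⟨m, n, Γ, hm, hn, hpw, hok, hga, hgw, hgal⟩ := hG α I
  have hx : PTx (X := X) Γ M := ⟨hl, hlb, hM, hm, hn, hpw, fun a => (hok a).dim, hga, hgw, hgal⟩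
  obtain ⟨h1, h3, h4⟩ := hP q r Cw c D α ℓ m n X ψ Γ M hx
  have hC : ∀ a, Cx ψ (Γ a) (M a) s lam := fun a =>
    ⟨hψ, hqr, hCw, hok a, hl1, hwf a, by rw [s2_eq]; exact hs⟩
  have : Nonempty (Fin Cw) := ⟨⟨0, hCw⟩⟩
  let P : TF α := { T := fun a => Pos q (m a) c D ((D + 2) * n a) r, pt := h1.ePos }
  let S : TF α :=
    { T := fun a => Seed q (m a) (n a) Cw c D ((D + 2) * n a) r
      deq := fun _ => Classical.decEq _
      pt := h1.eSeed }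
  have hA := fun a => hI q r (m a) (n a) Cw c (ℓ a) D (X.T a) ψ (Γ a) (M a) s lam (hC a)
  have hO : ∀ a, GoodP ψ (Γ a) (M a) s θ h := fun a =>
    hg (m a) (n a) Cw (ℓ a) s (X.T a) ψ (Γ a) (M a) (hC a) (hA a).1 (hA a).2.1 (hA a).2.2.1
      (hA a).2.2.2.1 (hA a).2.2.2.2.1 (hA a).2.2.2.2.2.1
  have hR := fun a σ (hw : (M a).WF σ) => (hA a).2.2.2.2.2.2 σ hw ((hO a).validL σ hw)
  exact ⟨P, S, fun a => sysL ψ (Γ a) (M a) (s1 D s), fun a => codeE ψ (Γ a) (M a) (s1 D s),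
    fun a => symW ψ (Γ a) (M a), fun a => decL ψ (Γ a), fun a => decS ψ (Γ a),
    { ptL := h3.ptL _
      ptE := h3.ptE _
      ptSym := h4.sym
      ptDec := h4.decL
      ptDecE := h4.decS
      balL := fun a => (hA a).2.1.balL
      balE := fun a => (hA a).2.1.balE
      goodE := fun a => (hO a).goodE
      validE := fun a => (hO a).validE
      decE_sym := fun a => (hA a).2.2.2.2.2.1.decS
      good := fun a => (hO a).goodL
      start := fun a σ hw => (hR a σ hw).1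
      ends := fun a σ hw => (hR a σ hw).2.1
      evals := fun a σ hw => (hR a σ hw).2.2 }⟩

end Vale.Agent.P330.Bohr
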