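import Vale.Agent.P330.Bohr.Line

/-!
P330, inner system: algebra of the companion map and of the slots.
-/

namespace Vale.Agent.P330.Bohr

/-! ### Vectors -/

section VecAlg

variable {V T : Type} [AddCommGroup T]

theorem vadd_ap (f g : Vec V T) (v : V) : (f + g) v = f v + g v := rfl
theorem vsub_ap (f g : Vec V T) (v : V) : (f - g) v = f v - g v := rfl
theorem vneg_ap (f : Vec V T) (v : V) : (-f) v = -f v := rfl
theorem vzero_ap (v : V) : (0 : Vec V T) v = 0 := rfl
theorem vsmul_ap {R : Type} [Semiring R] [Module R T] (c : R) (f : Vec V T) (v : V) :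
    (c • f) v = c • f v := rfl
theorem vsum_ap {ι : Type} (s : Finset ι) (f : ι → Vec V T) (v : V) :
    (∑ i ∈ s, f i) v = ∑ i ∈ s, f i v := Finset.sum_apply (M := fun _ : V => T) v s f

/-- the unit vectors -/
def unitV {V R : Type} [DecidableEq V] [Zero R] [One R] (i : V) : Vec V R :=
  fun k => if k = i then 1 else 0

theorem vec_eq_sum {V R : Type} [Fintype V] [DecidableEq V] [CommRing R] (p : Vec V R) :
    p = ∑ i, p i • (unitV i : Vec V R) := by
  funext k
  rw [vsum_ap, Finset.sum_eq_single k]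
  · simp [vsmul_ap, unitV]
  · intro i _ hi
    simp [vsmul_ap, unitV, hi.symm]
  · simp

/-- A linear form on vectors is given by its values on the unit vectors. -/
theorem form_eq_sum {V R : Type} [Fintype V] [DecidableEq V] [CommRing R] (φ : Vec V R →ₗ[R] R)
    (p : Vec V R) : φ p = ∑ i, φ (unitV i) * p i := by
  conv_lhs => rw [vec_eq_sum p]
  rw [map_sum]
  exact Finset.sum_congr rfl fun i _ => by rw [map_smul, smul_eq_mul, mul_comm]

/-- the linear form with the coefficient vector `c` -/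
def dotL {V R : Type} [Fintype V] [CommRing R] (c : Vec V R) : Vec V R →ₗ[R] R where
  toFun p := ∑ i, c i * p i
  map_add' p p' := by simp [vadd_ap, mul_add, Finset.sum_add_distrib]
  map_smul' r p := by simp [vsmul_ap, Finset.mul_sum, mul_left_comm]

theorem dotL_apply {V R : Type} [Fintype V] [CommRing R] (c p : Vec V R) :
    dotL c p = ∑ i, c i * p i := rfl

theorem dotL_unitV {V R : Type} [Fintype V] [DecidableEq V] [CommRing R] (c : Vec V R) (i : V) :
    dotL c (unitV i) = c i := by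
  rw [dotL_apply, Finset.sum_eq_single i]
  · simp [unitV]
  · intro k _ hk
    simp [unitV, hk]
  · simp

theorem dotL_eq_zero {V R : Type} [Fintype V] [DecidableEq V] [CommRing R] {c : Vec V R} :
    dotL c = 0 ↔ c = 0 := by
  refine ⟨fun h => funext fun i => ?_, fun h => ?_⟩
  · rw [← dotL_unitV c i, h]; rfl
  · ext p
    simp [h, dotL_apply, vzero_ap]

theorem form_eq_dotL {V R : Type} [Fintype V] [DecidableEq V] [CommRing R]
    (φ : Vec V R →ₗ[R] R) : φ = dotL fun i => φ (unitV i) :=
  LinearMap.ext fun p => form_eq_sum φ p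

theorem dotL_add {V R : Type} [Fintype V] [CommRing R] (c c' p : Vec V R) :
    dotL (c + c') p = dotL c p + dotL c' p := by
  simp [dotL_apply, vadd_ap, add_mul, Finset.sum_add_distrib]

theorem dotL_sub {V R : Type} [Fintype V] [CommRing R] (c c' p : Vec V R) :
    dotL (c - c') p = dotL c p - dotL c' p := by
  simp [dotL_apply, vsub_ap, sub_mul, Finset.sum_sub_distrib]

end VecAlg

/-! ### The companion map -/

section Comp

variable {q m : ℕ}

theorem comp_at_zero (a p : Vec (Fin (m + 1)) (ZMod q)) : comp a p 0 = a 0 * p (Fin.last m) := by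
  simp [comp]

theorem comp_at_succ (a p : Vec (Fin (m + 1)) (ZMod q)) (k : Fin m) :
    comp a p k.succ = p k.castSucc + a k.succ * p (Fin.last m) := by
  simp [comp]

/-- the companion map as a linear map -/
def compL (a : Vec (Fin (m + 1)) (ZMod q)) :
    Vec (Fin (m + 1)) (ZMod q) →ₗ[ZMod q] Vec (Fin (m + 1)) (ZMod q) where
  toFun := comp a
  map_add' p p' := by
    funext i
    refine Fin.cases ?_ (fun k => ?_) i
    · simp only [vadd_ap, comp_at_zero]; ring
    · simp only [vadd_ap, comp_at_succ]; ring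
  map_smul' r p := by
    funext i
    refine Fin.cases ?_ (fun k => ?_) i
    · simp only [vsmul_ap, comp_at_zero, smul_eq_mul, RingHom.id_apply]; ring
    · simp only [vsmul_ap, comp_at_succ, smul_eq_mul, RingHom.id_apply]; ring

theorem compL_apply (a p : Vec (Fin (m + 1)) (ZMod q)) : compL a p = comp a p := rfl

theorem coe_compL (a : Vec (Fin (m + 1)) (ZMod q)) : ⇑(compL a) = comp a := rfl

theorem comp_add (a p p' : Vec (Fin (m + 1)) (ZMod q)) : comp a (p + p') = comp a p + comp a p' :=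
  (compL a).map_add p p'

theorem comp_sub (a p p' : Vec (Fin (m + 1)) (ZMod q)) : comp a (p - p') = comp a p - comp a p' :=
  (compL a).map_sub p p'

theorem comp_smul (a : Vec (Fin (m + 1)) (ZMod q)) (t : ZMod q) (p : Vec (Fin (m + 1)) (ZMod q)) :
    comp a (t • p) = t • comp a p := (compL a).map_smul t p

theorem comp_zero (a : Vec (Fin (m + 1)) (ZMod q)) : comp a 0 = 0 := (compL a).map_zero

theorem compL_pow_apply (a : Vec (Fin (m + 1)) (ZMod q)) (i : ℕ) (p : Vec (Fin (m + 1)) (ZMod q)) :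
    (compL a ^ i) p = (comp a)^[i] p := Module.End.pow_apply _ _ _

theorem comp_iter_add (a : Vec (Fin (m + 1)) (ZMod q)) (i : ℕ) (p p' : Vec (Fin (m + 1)) (ZMod q)) :
    (comp a)^[i] (p + p') = (comp a)^[i] p + (comp a)^[i] p' := by
  simp only [← compL_pow_apply, map_add]

theorem comp_iter_sub (a : Vec (Fin (m + 1)) (ZMod q)) (i : ℕ) (p p' : Vec (Fin (m + 1)) (ZMod q)) :
    (comp a)^[i] (p - p') = (comp a)^[i] p - (comp a)^[i] p' := by
  simp only [← compL_pow_apply, map_sub]

theorem comp_iter_smul (a : Vec (Fin (m + 1)) (ZMod q)) (i : ℕ) (t : ZMod q)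
    (p : Vec (Fin (m + 1)) (ZMod q)) : (comp a)^[i] (t • p) = t • (comp a)^[i] p := by
  simp only [← compL_pow_apply, map_smul]

theorem comp_iter_zero (a : Vec (Fin (m + 1)) (ZMod q)) (i : ℕ) : (comp a)^[i] 0 = 0 := by
  simp only [← compL_pow_apply, map_zero]

theorem comp_iter_sum {ι : Type} (a : Vec (Fin (m + 1)) (ZMod q)) (i : ℕ) (s : Finset ι)
    (f : ι → Vec (Fin (m + 1)) (ZMod q)) :
    (comp a)^[i] (∑ k ∈ s, f k) = ∑ k ∈ s, (comp a)^[i] (f k) := by
  simp only [← compL_pow_apply, map_sum]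

theorem comp_unitV (a : Vec (Fin (m + 1)) (ZMod q)) (k : Fin m) :
    comp a (unitV k.castSucc) = unitV k.succ := by
  have h : Fin.last m ≠ k.castSucc := (Fin.castSucc_lt_last k).ne'
  funext i
  refine Fin.cases ?_ (fun j => ?_) i
  · simp [comp_at_zero, unitV, h, (Fin.succ_ne_zero k).symm]
  · simp [comp_at_succ, unitV, h]

theorem comp_unitV_last (a : Vec (Fin (m + 1)) (ZMod q)) : comp a (unitV (Fin.last m)) = a := by
  funext i
  refine Fin.cases ?_ (fun j => ?_) i
  · simp [comp_at_zero, unitV]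
  · simp [comp_at_succ, unitV, (Fin.castSucc_lt_last j).ne]

theorem comp_iter_unitV (a : Vec (Fin (m + 1)) (ZMod q)) (i : ℕ) (h : i < m + 1) :
    (comp a)^[i] (unitV 0) = unitV ⟨i, h⟩ := by
  induction i with
  | zero => rfl
  | succ i ih =>
    rw [Function.iterate_succ_apply', ih (by omega)]
    exact comp_unitV a ⟨i, by omega⟩

theorem comp_iter_unitV' (a : Vec (Fin (m + 1)) (ZMod q)) (i : Fin (m + 1)) :
    (comp a)^[i] (unitV 0) = unitV i := comp_iter_unitV a i i.2

/-- the inverse of the companion map -/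
def compInv (a p : Vec (Fin (m + 1)) (ZMod q)) : Vec (Fin (m + 1)) (ZMod q) :=
  fun i => if h : (i : ℕ) < m then
      p ⟨i + 1, by omega⟩ - a ⟨i + 1, by omega⟩ * ((a 0)⁻¹ * p 0)
    else (a 0)⁻¹ * p 0

theorem compInv_at_last (a p : Vec (Fin (m + 1)) (ZMod q)) :
    compInv a p (Fin.last m) = (a 0)⁻¹ * p 0 := by
  simp [compInv]

theorem compInv_at_castSucc (a p : Vec (Fin (m + 1)) (ZMod q)) (k : Fin m) :
    compInv a p k.castSucc = p k.succ - a k.succ * ((a 0)⁻¹ * p 0) := by
  have h : (k.castSucc : ℕ) < m := k.2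
  unfold compInv
  rw [dif_pos h]
  rfl

variable [Fact q.Prime]

theorem comp_compInv {a : Vec (Fin (m + 1)) (ZMod q)} (ha : a 0 ≠ 0)
    (p : Vec (Fin (m + 1)) (ZMod q)) : comp a (compInv a p) = p := by
  funext i
  refine Fin.cases ?_ (fun j => ?_) i
  · rw [comp_at_zero, compInv_at_last, mul_inv_cancel_left₀ ha]
  · rw [comp_at_succ, compInv_at_last, compInv_at_castSucc, sub_add_cancel]

theorem compInv_comp {a : Vec (Fin (m + 1)) (ZMod q)} (ha : a 0 ≠ 0)
    (p : Vec (Fin (m + 1)) (ZMod q)) : compInv a (comp a p) = p := by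
  funext i
  refine Fin.lastCases ?_ (fun j => ?_) i
  · rw [compInv_at_last, comp_at_zero, inv_mul_cancel_left₀ ha]
  · rw [compInv_at_castSucc, comp_at_succ, comp_at_zero, inv_mul_cancel_left₀ ha,
      add_sub_cancel_right]

/-- the companion map as a linear equivalence -/
def compE {a : Vec (Fin (m + 1)) (ZMod q)} (ha : a 0 ≠ 0) :
    Vec (Fin (m + 1)) (ZMod q) ≃ₗ[ZMod q] Vec (Fin (m + 1)) (ZMod q) :=
  { compL a with
    invFun := compInv a
    left_inv := compInv_comp ha
    right_inv := comp_compInv ha }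

theorem compE_apply {a : Vec (Fin (m + 1)) (ZMod q)} (ha : a 0 ≠ 0)
    (p : Vec (Fin (m + 1)) (ZMod q)) : compE ha p = comp a p := rfl

theorem compE_symm_apply {a : Vec (Fin (m + 1)) (ZMod q)} (ha : a 0 ≠ 0)
    (p : Vec (Fin (m + 1)) (ZMod q)) : (compE ha).symm p = compInv a p := rfl

theorem comp_bijective {a : Vec (Fin (m + 1)) (ZMod q)} (ha : a 0 ≠ 0) :
    Function.Bijective (comp a) := (compE ha).bijective

theorem compInv_bijective {a : Vec (Fin (m + 1)) (ZMod q)} (ha : a 0 ≠ 0) :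
    Function.Bijective (compInv a) := (compE ha).symm.bijective

theorem comp_iter_compInv {a : Vec (Fin (m + 1)) (ZMod q)} (ha : a 0 ≠ 0) (i : ℕ)
    (p : Vec (Fin (m + 1)) (ZMod q)) : (comp a)^[i] ((compInv a)^[i] p) = p :=
  (Function.LeftInverse.iterate (g := comp a) (comp_compInv ha) i) p

theorem compInv_iter_comp {a : Vec (Fin (m + 1)) (ZMod q)} (ha : a 0 ≠ 0) (i : ℕ)
    (p : Vec (Fin (m + 1)) (ZMod q)) : (compInv a)^[i] ((comp a)^[i] p) = p :=
  (Function.LeftInverse.iterate (g := compInv a) (compInv_comp ha) i) p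

/-- the inverse of the companion map is linear (for every `a`) -/
def compInvL (a : Vec (Fin (m + 1)) (ZMod q)) :
    Vec (Fin (m + 1)) (ZMod q) →ₗ[ZMod q] Vec (Fin (m + 1)) (ZMod q) where
  toFun := compInv a
  map_add' p p' := by
    funext i
    refine Fin.lastCases ?_ (fun k => ?_) i
    · simp only [vadd_ap, compInv_at_last]; ring
    · simp only [vadd_ap, compInv_at_castSucc]; ring
  map_smul' r p := by
    funext i
    refine Fin.lastCases ?_ (fun k => ?_) i
    · simp only [vsmul_ap, compInv_at_last, smul_eq_mul, RingHom.id_apply]; ring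
    · simp only [vsmul_ap, compInv_at_castSucc, smul_eq_mul, RingHom.id_apply]; ring

theorem compInvL_apply (a p : Vec (Fin (m + 1)) (ZMod q)) : compInvL a p = compInv a p := rfl

theorem compInvL_pow_apply (a : Vec (Fin (m + 1)) (ZMod q)) (i : ℕ)
    (p : Vec (Fin (m + 1)) (ZMod q)) : (compInvL a ^ i) p = (compInv a)^[i] p :=
  Module.End.pow_apply _ _ _

theorem compInv_iter_add (a : Vec (Fin (m + 1)) (ZMod q)) (i : ℕ)
    (p p' : Vec (Fin (m + 1)) (ZMod q)) :
    (compInv a)^[i] (p + p') = (compInv a)^[i] p + (compInv a)^[i] p' := by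
  simp only [← compInvL_pow_apply, map_add]

theorem compInv_iter_smul (a : Vec (Fin (m + 1)) (ZMod q)) (i : ℕ) (t : ZMod q)
    (p : Vec (Fin (m + 1)) (ZMod q)) : (compInv a)^[i] (t • p) = t • (compInv a)^[i] p := by
  simp only [← compInvL_pow_apply, map_smul]

/-- the iterated companion map as a linear equivalence -/
def compIterE {a : Vec (Fin (m + 1)) (ZMod q)} (ha : a 0 ≠ 0) (i : ℕ) :
    Vec (Fin (m + 1)) (ZMod q) ≃ₗ[ZMod q] Vec (Fin (m + 1)) (ZMod q) :=
  { compL a ^ i with
    toFun := (comp a)^[i]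
    map_add' := comp_iter_add a i
    map_smul' := comp_iter_smul a i
    invFun := (compInv a)^[i]
    left_inv := compInv_iter_comp ha i
    right_inv := comp_iter_compInv ha i }

theorem compIterE_apply {a : Vec (Fin (m + 1)) (ZMod q)} (ha : a 0 ≠ 0) (i : ℕ)
    (p : Vec (Fin (m + 1)) (ZMod q)) : compIterE ha i p = (comp a)^[i] p := rfl

theorem compIterE_symm_apply {a : Vec (Fin (m + 1)) (ZMod q)} (ha : a 0 ≠ 0) (i : ℕ)
    (p : Vec (Fin (m + 1)) (ZMod q)) : (compIterE ha i).symm p = (compInv a)^[i] p := rfl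

theorem compInv_iter_comp_add {a : Vec (Fin (m + 1)) (ZMod q)} (ha : a 0 ≠ 0) (i k : ℕ)
    (p : Vec (Fin (m + 1)) (ZMod q)) :
    (compInv a)^[i] ((comp a)^[i + k] p) = (comp a)^[k] p := by
  rw [Function.iterate_add_apply, compInv_iter_comp ha]

end Comp

/-! ### Slots -/

section Slot

variable {q m : ℕ}

/-- the slot as a linear map -/
def slotL (n e : ℕ) : Vec (Fin (m + 1)) (ZMod q) →ₗ[ZMod q] Vec (Fin n) (ZMod q) where
  toFun := slot n e
  map_add' p p' := by
    funext i
    simp only [slot, vadd_ap]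
    split_ifs <;> simp
  map_smul' r p := by
    funext i
    simp only [slot, vsmul_ap]
    split_ifs <;> simp

theorem slotL_apply (n e : ℕ) (p : Vec (Fin (m + 1)) (ZMod q)) : slotL n e p = slot n e p := rfl

theorem slot_add (n e : ℕ) (p p' : Vec (Fin (m + 1)) (ZMod q)) :
    slot n e (p + p') = slot n e p + slot n e p' := (slotL n e).map_add p p'

theorem slot_sub (n e : ℕ) (p p' : Vec (Fin (m + 1)) (ZMod q)) :
    slot n e (p - p') = slot n e p - slot n e p' := (slotL n e).map_sub p p'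

theorem slot_smul (n e : ℕ) (t : ZMod q) (p : Vec (Fin (m + 1)) (ZMod q)) :
    slot n e (t • p) = t • slot n e p := (slotL n e).map_smul t p

theorem slot_zero (n e : ℕ) : slot n e (0 : Vec (Fin (m + 1)) (ZMod q)) = 0 :=
  (slotL n e).map_zero

theorem slot_index_lt {D n e : ℕ} (h : m + 1 = (D + 1) * n) (he : e ≤ D) (i : Fin n) :
    e * n + i < m + 1 := by
  have h1 : (e + 1) * n ≤ (D + 1) * n := Nat.mul_le_mul_right _ (by omega)
  have h2 := i.2
  rw [h]
  nlinarith

theorem slot_ap {D n e : ℕ} (h : m + 1 = (D + 1) * n) (he : e ≤ D) (p : Vec (Fin (m + 1)) (ZMod q))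
    (i : Fin n) : slot n e p i = p ⟨e * n + i, slot_index_lt h he i⟩ :=
  dif_pos (slot_index_lt h he i)

theorem slot_pos {D n : ℕ} (h : m + 1 = (D + 1) * n) : 0 < n := by
  rcases Nat.eq_zero_or_pos n with h0 | h0
  · rw [h0] at h; omega
  · exact h0

theorem slot_div_le {D n : ℕ} (h : m + 1 = (D + 1) * n) (k : Fin (m + 1)) : (k : ℕ) / n ≤ D := by
  have h1 : (k : ℕ) / n < D + 1 := (Nat.div_lt_iff_lt_mul (slot_pos h)).2 (h ▸ k.2)
  omega

/-- the point with the given slots -/
def unslot (m : ℕ) {n : ℕ} (z : ℕ → Vec (Fin n) (ZMod q)) : Vec (Fin (m + 1)) (ZMod q) :=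
  fun k => if h : (k : ℕ) % n < n then z (k / n) ⟨k % n, h⟩ else 0

theorem slot_unslot {D n e : ℕ} (h : m + 1 = (D + 1) * n) (he : e ≤ D)
    (z : ℕ → Vec (Fin n) (ZMod q)) : slot n e (unslot m z) = z e := by
  have hn := slot_pos h
  funext i
  have h1 : (e * n + i) / n = e := by
    rw [add_comm, Nat.add_mul_div_right _ _ hn, Nat.div_eq_of_lt i.2, zero_add]
  have h2 : (e * n + i) % n = i := by
    rw [add_comm, Nat.add_mul_mod_self_right, Nat.mod_eq_of_lt i.2]
  rw [slot_ap h he]
  simp only [unslot, h1, h2, i.2, dif_pos]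

theorem slot_ext {D n : ℕ} (h : m + 1 = (D + 1) * n) {p p' : Vec (Fin (m + 1)) (ZMod q)}
    (hp : ∀ e ≤ D, slot n e p = slot n e p') : p = p' := by
  funext k
  have h1 := congrFun (hp _ (slot_div_le h k)) ⟨k % n, Nat.mod_lt _ (slot_pos h)⟩
  rw [slot_ap h (slot_div_le h k), slot_ap h (slot_div_le h k)] at h1
  have h2 : (⟨k / n * n + k % n, slot_index_lt h (slot_div_le h k)
      ⟨k % n, Nat.mod_lt _ (slot_pos h)⟩⟩ : Fin (m + 1)) = k :=
    Fin.ext (Nat.div_add_mod' _ _)
  rwa [h2] at h1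

theorem unslot_slot {D n : ℕ} (h : m + 1 = (D + 1) * n) (p : Vec (Fin (m + 1)) (ZMod q)) :
    unslot m (fun e => slot n e p) = p :=
  slot_ext h fun _ he => slot_unslot h he _

/-- A point is the tuple of its slots. -/
def slotE {D n : ℕ} (h : m + 1 = (D + 1) * n) :
    Vec (Fin (m + 1)) (ZMod q) ≃ₗ[ZMod q] (Fin (D + 1) → Vec (Fin n) (ZMod q)) where
  toFun p e := slot n e p
  map_add' p p' := funext fun e => slot_add n e p p'
  map_smul' t p := funext fun e => slot_smul n e t p
  invFun z := unslot m fun e => if he : e < D + 1 then z ⟨e, he⟩ else 0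
  left_inv p := slot_ext h fun e he => by
    rw [slot_unslot h he, dif_pos (Nat.lt_succ_of_le he)]
  right_inv z := funext fun e =>
    (slot_unslot h (Nat.le_of_lt_succ e.2) _).trans (dif_pos e.2)

theorem slotE_apply {D n : ℕ} (h : m + 1 = (D + 1) * n) (p : Vec (Fin (m + 1)) (ZMod q))
    (e : Fin (D + 1)) : slotE h p e = slot n e p := rfl

theorem slot_slotE_symm {D n : ℕ} (h : m + 1 = (D + 1) * n)
    (z : Fin (D + 1) → Vec (Fin n) (ZMod q)) (e : Fin (D + 1)) :
    slot n e ((slotE h).symm z) = z e :=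
  congrFun ((slotE h).apply_symm_apply z) e

/-- the point with `z` in the slot `e` and zero in the other slots -/
def inSlot (m : ℕ) {n : ℕ} (e : ℕ) (z : Vec (Fin n) (ZMod q)) : Vec (Fin (m + 1)) (ZMod q) :=
  unslot m fun e' => if e' = e then z else 0

theorem slot_inSlot {D n e' : ℕ} (h : m + 1 = (D + 1) * n) (he : e' ≤ D) (e : ℕ)
    (z : Vec (Fin n) (ZMod q)) : slot n e' (inSlot m e z) = if e' = e then z else 0 :=
  slot_unslot h he _

/-- the embedding of a slot as a linear map -/
def inSlotL (m n e : ℕ) : Vec (Fin n) (ZMod q) →ₗ[ZMod q] Vec (Fin (m + 1)) (ZMod q) where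
  toFun := inSlot m e
  map_add' z z' := by
    funext k
    simp only [inSlot, unslot, vadd_ap]
    split_ifs <;> simp [vadd_ap, vzero_ap]
  map_smul' t z := by
    funext k
    simp only [inSlot, unslot, vsmul_ap]
    split_ifs <;> simp [vsmul_ap, vzero_ap]

theorem inSlotL_apply (m n e : ℕ) (z : Vec (Fin n) (ZMod q)) : inSlotL m n e z = inSlot m e z :=
  rfl

/-- exchange of the numbers `d` and `d'` -/
def swapN (d d' e : ℕ) : ℕ := if e = d then d' else if e = d' then d else e

theorem swapN_swapN (d d' e : ℕ) : swapN d d' (swapN d d' e) = e := by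
  unfold swapN
  split_ifs <;> omega

theorem swapN_le {D d d' e : ℕ} (hd : d ≤ D) (hd' : d' ≤ D) (he : e ≤ D) : swapN d d' e ≤ D := by
  unfold swapN
  split_ifs <;> omega

theorem swapN_left (d d' : ℕ) : swapN d d' d = d' := by simp [swapN]

theorem swapN_right (d d' : ℕ) : swapN d d' d' = d := by
  unfold swapN
  split_ifs <;> omega

theorem swapN_of_ne {d d' e : ℕ} (h : e ≠ d) (h' : e ≠ d') : swapN d d' e = e := by
  simp [swapN, h, h']

/-- exchange of the slots `d` and `d'` -/
def swapSlot (n d d' : ℕ) (p : Vec (Fin (m + 1)) (ZMod q)) : Vec (Fin (m + 1)) (ZMod q) :=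
  unslot m fun e => slot n (swapN d d' e) p

theorem slot_swapSlot {D n e : ℕ} (h : m + 1 = (D + 1) * n) (he : e ≤ D) (d d' : ℕ)
    (p : Vec (Fin (m + 1)) (ZMod q)) :
    slot n e (swapSlot n d d' p) = slot n (swapN d d' e) p := slot_unslot h he _

theorem swapSlot_swapSlot {D n d d' : ℕ} (h : m + 1 = (D + 1) * n) (hd : d ≤ D) (hd' : d' ≤ D)
    (p : Vec (Fin (m + 1)) (ZMod q)) : swapSlot n d d' (swapSlot n d d' p) = p :=
  slot_ext h fun e he => by
    rw [slot_swapSlot h he, slot_swapSlot h (swapN_le hd hd' he), swapN_swapN]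

/-- the exchange of two slots as a linear map -/
def swapSlotL (n d d' : ℕ) : Vec (Fin (m + 1)) (ZMod q) →ₗ[ZMod q] Vec (Fin (m + 1)) (ZMod q) where
  toFun := swapSlot n d d'
  map_add' p p' := by
    funext k
    simp only [swapSlot, unslot, vadd_ap, slot_add]
    split_ifs <;> simp
  map_smul' t p := by
    funext k
    simp only [swapSlot, unslot, vsmul_ap, slot_smul]
    split_ifs <;> simp

theorem swapSlotL_apply (n d d' : ℕ) (p : Vec (Fin (m + 1)) (ZMod q)) :
    swapSlotL n d d' p = swapSlot n d d' p := rfl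

/-- the exchange of two slots as a linear equivalence -/
def swapSlotE {D n d d' : ℕ} (h : m + 1 = (D + 1) * n) (hd : d ≤ D) (hd' : d' ≤ D) :
    Vec (Fin (m + 1)) (ZMod q) ≃ₗ[ZMod q] Vec (Fin (m + 1)) (ZMod q) :=
  { swapSlotL n d d' with
    invFun := swapSlot n d d'
    left_inv := swapSlot_swapSlot h hd hd'
    right_inv := swapSlot_swapSlot h hd hd' }

theorem swapSlot_bijective {D n d d' : ℕ} (h : m + 1 = (D + 1) * n) (hd : d ≤ D) (hd' : d' ≤ D) :
    Function.Bijective (swapSlot (q := q) (m := m) n d d') := (swapSlotE h hd hd').bijective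

theorem slot_surjective {D n e : ℕ} (h : m + 1 = (D + 1) * n) (he : e ≤ D) :
    Function.Surjective (slot (q := q) (m := m) n e) :=
  fun z => ⟨inSlot m e z, by rw [slot_inSlot h he, if_pos rfl]⟩

/-- The unit vectors with index below `D * n` vanish in the last slot. -/
theorem slot_last_unitV {D n : ℕ} (k : Fin (m + 1)) (hk : (k : ℕ) < D * n) :
    slot n D (unitV k : Vec (Fin (m + 1)) (ZMod q)) = 0 := by
  funext i
  simp only [slot, unitV, vzero_ap]
  split_ifs with h1 h2
  · have := congrArg Fin.val h2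
    simp only at this
    omega
  · rfl
  · rfl

/-- A point vanishes in the last slot iff its coordinates from `D * n` on vanish. -/
theorem slot_last_eq_zero {D n : ℕ} (h : m + 1 = (D + 1) * n) (p : Vec (Fin (m + 1)) (ZMod q)) :
    slot n D p = 0 ↔ ∀ k : Fin (m + 1), D * n ≤ k → p k = 0 := by
  refine ⟨fun h0 k hk => ?_, fun h0 => funext fun i => ?_⟩
  · have h1 : (k : ℕ) - D * n < n := by
      have := k.2
      have h2 : (D + 1) * n = D * n + n := by ring
      omega
    have h2 := congrFun h0 ⟨k - D * n, h1⟩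
    rw [slot_ap h le_rfl] at h2
    have h3 : (⟨D * n + (k - D * n), slot_index_lt h le_rfl ⟨k - D * n, h1⟩⟩ : Fin (m + 1)) = k :=
      Fin.ext (by simp only; omega)
    rwa [h3] at h2
  · rw [slot_ap h le_rfl]
    exact h0 _ (Nat.le_add_right _ _)

end Slot

end Vale.Agent.P330.Bohr
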