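import Vale.Agent.P330.Bohr.Comp

/-!
P330, inner system: vectors over `ZMod q`, the companion map and the slots in polynomial time.
-/

namespace Vale.Agent.P330.Bohr

open Vale.Agent.Lib.PolyTime hiding C P
open Vale.Agent.Lib.Dep

variable {α : Type} [Enc α]

/-! ### Vectors indexed by `Fin n` -/

section FinVec

variable {n : α → ℕ} {R : α → Type} [∀ a, Enc (R a)]

@[fun_prop]
theorem fv_val {f : ∀ a, Fin (n a)} (h : DPT f) : DPT fun a => (f a : ℕ) := h.of_enc fun _ => rfl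

@[fun_prop]
theorem fv_mkFin {f : α → ℕ} {h : ∀ a, f a < n a} (hf : DPT f) :
    DPT fun a => (⟨f a, h a⟩ : Fin (n a)) := hf.of_enc fun _ => rfl

theorem fv_pbd_val {f : ∀ a, Fin (n a)} (hn : PBd n) : PBd fun a => (f a : ℕ) :=
  hn.mono fun a => (f a).2.le

@[fun_prop]
theorem fv_finRange (hn : DPT n) (hb : PBd n) : DPT fun a => List.finRange (n a) :=
  (DPT.range hn hb).of_enc fun a => by
    rw [← List.map_coe_finRange_eq_range, ← enc_map_raw, List.map_map,
      ← enc_map_raw (List.finRange _)]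
    rfl

theorem fv_list {p : ∀ a, Vec (Fin (n a)) (R a)} (hp : DPT p) :
    DPT fun a => (List.finRange (n a)).map fun i => p a i := hp.of_enc fun _ => rfl

/-- The dimension of a computed vector is computed. -/
theorem fv_dim {p : ∀ a, Vec (Fin (n a)) (R a)} (hp : DPT p) : DPT n :=
  (fv_list hp).length.congr fun _ => by simp

theorem fv_dimb {p : ∀ a, Vec (Fin (n a)) (R a)} (hp : DPT p) : PBd n :=
  (pbd_length (fv_list hp)).mono fun _ => by simp

/-- a vector from its entries -/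
theorem fv_mk {p : ∀ a, Vec (Fin (n a)) (R a)} (hn : DPT n) (hb : PBd n)
    (hp : DPT fun x : Σ a, Fin (n a) => p x.1 x.2) : DPT p := by
  have h1 : DPT fun a => (List.finRange (n a)).map fun i => p a i :=
    DPT.map (fv_finRange hn hb) (DPT.fn _ hp DPT.id.sfst DPT.ssnd.val)
  exact h1.of_enc fun _ => rfl

/-- the entry with a default value -/
def vget {T : Type} {k : ℕ} (p : Vec (Fin k) T) (i : ℕ) (d : T) : T :=
  if h : i < k then p ⟨i, h⟩ else d

theorem vget_lt {T : Type} {k : ℕ} (p : Vec (Fin k) T) {i : ℕ} (h : i < k) (d : T) :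
    vget p i d = p ⟨i, h⟩ := dif_pos h

theorem vget_val {T : Type} {k : ℕ} (p : Vec (Fin k) T) (i : Fin k) (d : T) :
    vget p i d = p i := dif_pos i.2

@[fun_prop]
theorem fv_get {p : ∀ a, Vec (Fin (n a)) (R a)} {i : α → ℕ} {d : ∀ a, R a} (hp : DPT p)
    (hi : DPT i) (hd : DPT d) : DPT fun a => vget (p a) (i a) (d a) :=
  ((fv_list hp).getD hi hd).congr fun a => by
    unfold vget
    split_ifs with h
    · rw [List.getD_eq_getElem _ _ (by simpa using h)]
      simp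
    · rw [List.getD_eq_default _ _ (by simpa using h)]

/-- the entry of a vector -/
theorem fv_ap {p : ∀ a, Vec (Fin (n a)) (R a)} {i : ∀ a, Fin (n a)} (hp : DPT p) (hi : DPT i) :
    DPT fun a => p a (i a) := by
  have h1 : DPT fun a => raw ((((List.finRange (n a)).map fun i => p a i).map raw).getD (i a) ⟨[]⟩) :=
    DPT.ofPT (PT.getD (fv_list hp).listPT (fv_val hi) (PT.const _))
  refine h1.of_enc fun a => ?_
  rw [List.getD_eq_getElem _ _ (by simp)]
  simp [enc_raw']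

end FinVec

/-! ### Vectors over `ZMod q` -/

section ZVec

variable {q : ℕ} [NeZero q] {n : α → ℕ}

@[fun_prop]
theorem ptRing_zc : PTRing fun _ : α => ZMod q := PTRing.zmod (p := fun _ => q) (DPT.const q)

theorem esize_zvec {k : ℕ} (p : Vec (Fin k) (ZMod q)) : esize p ≤ k * (2 * q + 1) := by
  have h1 := esize_list_le (l := (List.finRange k).map fun i => p i) (B := q) fun x _ =>
    (esize_nat_le_self x.val).trans (ZMod.val_lt x).le
  rw [List.length_map, List.length_finRange] at h1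
  exact h1

/-- iteration of a map on vectors -/
theorem fv_iterate {k : α → ℕ} {s : ∀ a, Vec (Fin (n a)) (ZMod q)}
    {f : ∀ a, Vec (Fin (n a)) (ZMod q) → Vec (Fin (n a)) (ZMod q)} (hk : DPT k) (hkb : PBd k)
    (hs : DPT s) (hf : DPT fun x : Σ a, Vec (Fin (n a)) (ZMod q) => f x.1 x.2) :
    DPT fun a => (f a)^[k a] (s a) :=
  DPT.iterate hk hkb hs hf ((fv_dimb hs).mul (PBd.const (2 * q + 1))) fun _ _ _ => esize_zvec _

variable {p p' : ∀ a, Vec (Fin (n a)) (ZMod q)}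

theorem fv_ent (hp : DPT p) : DPT fun x : Σ a, Fin (n a) => p x.1 x.2 :=
  fv_ap (hp.comp DPT.id.sfst) DPT.ssnd

@[fun_prop]
theorem fv_add (hp : DPT p) (hp' : DPT p') : DPT fun a => p a + p' a :=
  fv_mk (fv_dim hp) (fv_dimb hp) (DPT.add ptRing_zc (fv_ent hp) (fv_ent hp'))

@[fun_prop]
theorem fv_sub (hp : DPT p) (hp' : DPT p') : DPT fun a => p a - p' a :=
  fv_mk (fv_dim hp) (fv_dimb hp) (DPT.sub ptRing_zc (fv_ent hp) (fv_ent hp'))

@[fun_prop]
theorem fv_neg (hp : DPT p) : DPT fun a => -p a :=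
  fv_mk (fv_dim hp) (fv_dimb hp) (DPT.neg ptRing_zc (fv_ent hp))

@[fun_prop]
theorem fv_smul {t : α → ZMod q} (ht : DPT t) (hp : DPT p) : DPT fun a => t a • p a :=
  fv_mk (fv_dim hp) (fv_dimb hp) (DPT.mul ptRing_zc (ht.comp DPT.id.sfst) (fv_ent hp))

@[fun_prop]
theorem fv_zero (hn : DPT n) (hb : PBd n) : DPT fun a => (0 : Vec (Fin (n a)) (ZMod q)) :=
  fv_mk hn hb (DPT.const (0 : ZMod q))

@[fun_prop]
theorem fv_unitV {i : ∀ a, Fin (n a)} (hn : DPT n) (hb : PBd n) (hi : DPT i) :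
    DPT fun a => (unitV (i a) : Vec (Fin (n a)) (ZMod q)) :=
  fv_mk hn hb (DPT.ite (DPr.eq DPT.ssnd (hi.comp DPT.id.sfst)) (DPT.const 1) (DPT.const 0))

/-- sums over `Fin n` -/
theorem fv_sum {f : ∀ a, Fin (n a) → ZMod q} (hn : DPT n) (hb : PBd n)
    (hf : DPT fun x : Σ a, Fin (n a) => f x.1 x.2) : DPT fun a => ∑ i, f a i :=
  (DPT.sum ptRing_zc (fv_list (fv_mk (p := f) hn hb hf))).congr fun _ =>
    (Fin.sum_univ_def _).symm

@[fun_prop]
theorem fv_dot (hp : DPT p) (hp' : DPT p') : DPT fun a => dotL (p a) (p' a) :=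
  fv_sum (fv_dim hp) (fv_dimb hp) (DPT.mul ptRing_zc (fv_ent hp) (fv_ent hp'))

theorem fv_dot' (hp : DPT p) (hp' : DPT p') : DPT fun a => ∑ i, p a i * p' a i := fv_dot hp hp'

end ZVec

/-! ### The companion map and the slots -/

section Comp

variable {q : ℕ} [NeZero q] {m n : α → ℕ} {c p : ∀ a, Vec (Fin (m a + 1)) (ZMod q)}

theorem fv_dim' (hp : DPT p) : DPT m := ((fv_dim hp).natSub (DPT.const 1)).congr fun _ => rfl

theorem fv_dimb' (hp : DPT p) : PBd m := (fv_dimb hp).mono fun _ => Nat.le_succ _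

@[fun_prop]
theorem fv_comp (hc : DPT c) (hp : DPT p) : DPT fun a => comp (c a) (p a) := by
  have hm := fv_dim' hp
  have h1 : DPT fun x : Σ a, Fin (m a + 1) =>
      (if (x.2 : ℕ) = 0 then 0 else vget (p x.1) (x.2 - 1) 0) +
        vget (c x.1) x.2 0 * vget (p x.1) (m x.1) 0 := by fun_prop
  refine fv_mk (fv_dim hp) (fv_dimb hp) (h1.congr fun x => ?_)
  obtain ⟨a, i⟩ := x
  refine Fin.cases ?_ (fun k => ?_) i
  · rw [comp_at_zero, vget_val, vget_lt _ (Nat.lt_succ_self _)]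
    simp [Fin.last]
  · rw [comp_at_succ, vget_val, vget_lt _ (Nat.lt_succ_self _), if_neg (by simp),
      vget_lt _ (by simp only [Fin.val_succ]; omega)]
    rfl

@[fun_prop]
theorem fv_compIter {k : α → ℕ} (hc : DPT c) (hk : DPT k) (hb : PBd k) (hp : DPT p) :
    DPT fun a => (comp (c a))^[k a] (p a) :=
  fv_iterate hk hb hp (fv_comp (hc.comp DPT.id.sfst) DPT.ssnd)

@[fun_prop]
theorem fv_slot {e : α → ℕ} (hn : DPT n) (hb : PBd n) (he : DPT e) (hp : DPT p) :
    DPT fun a => slot (n a) (e a) (p a) := by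
  have h1 : DPT fun x : Σ a, Fin (n a) => vget (p x.1) (e x.1 * n x.1 + x.2) 0 := by fun_prop
  exact fv_mk hn hb h1

theorem fv_unslot {z : ∀ a, ℕ → Vec (Fin (n a)) (ZMod q)} (hm : DPT m) (hb : PBd m) (hn : DPT n)
    (hz : DPT fun x : Σ a, Fin (m a + 1) => z x.1 (x.2 / n x.1)) :
    DPT fun a => unslot (m a) (z a) := by
  have h1 : DPT fun x : Σ a, Fin (m a + 1) => vget (z x.1 (x.2 / n x.1)) (x.2 % n x.1) 0 :=
    fv_get hz (by fun_prop) (DPT.const 0)
  exact fv_mk (by fun_prop) (by fun_prop) h1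

@[fun_prop]
theorem fv_inSlot {e : α → ℕ} {z : ∀ a, Vec (Fin (n a)) (ZMod q)} (hm : DPT m) (hb : PBd m)
    (he : DPT e) (hz : DPT z) : DPT fun a => inSlot (m a) (e a) (z a) := by
  have hn := fv_dim hz
  have hnb := fv_dimb hz
  exact fv_unslot hm hb hn (by fun_prop)

@[fun_prop]
theorem fv_swapN {d d' e : α → ℕ} (hd : DPT d) (hd' : DPT d') (he : DPT e) :
    DPT fun a => swapN (d a) (d' a) (e a) := by
  unfold swapN
  fun_prop

@[fun_prop]
theorem fv_swapSlot {d d' : α → ℕ} (hn : DPT n) (hb : PBd n) (hd : DPT d) (hd' : DPT d')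
    (hp : DPT p) : DPT fun a => swapSlot (n a) (d a) (d' a) (p a) := by
  have hm := fv_dim' hp
  have hmb := fv_dimb' hp
  exact fv_unslot hm hmb hn (by fun_prop)

end Comp

section Inv

variable {q : ℕ} [Fact q.Prime] {m : α → ℕ} {c p : ∀ a, Vec (Fin (m a + 1)) (ZMod q)}

@[fun_prop]
theorem fv_compInv (hc : DPT c) (hp : DPT p) : DPT fun a => compInv (c a) (p a) := by
  have hm := fv_dim' hp
  have h0 : DPT fun a => (vget (c a) 0 0)⁻¹ :=
    DPT.zmodInv (p := fun _ => q) (DPT.const q) (by fun_prop)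
  have h1 : DPT fun x : Σ a, Fin (m a + 1) =>
      if (x.2 : ℕ) < m x.1 then vget (p x.1) (x.2 + 1) 0 -
        vget (c x.1) (x.2 + 1) 0 * ((vget (c x.1) 0 0)⁻¹ * vget (p x.1) 0 0)
      else (vget (c x.1) 0 0)⁻¹ * vget (p x.1) 0 0 := by
    have h2 : DPT fun x : Σ a, Fin (m a + 1) => (vget (c x.1) 0 0)⁻¹ * vget (p x.1) 0 0 :=
      DPT.mul ptRing_zc (h0.comp DPT.id.sfst) (by fun_prop)
    exact DPT.ite (by fun_prop) (DPT.sub ptRing_zc (by fun_prop)
      (DPT.mul ptRing_zc (by fun_prop) h2)) h2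
  refine fv_mk (fv_dim hp) (fv_dimb hp) (h1.congr fun x => ?_)
  unfold compInv
  rw [vget_lt _ (Nat.succ_pos _), vget_lt _ (Nat.succ_pos _)]
  split_ifs with h
  · rw [vget_lt _ (by omega), vget_lt _ (by omega)]
    rfl
  · rfl

@[fun_prop]
theorem fv_compInvIter {k : α → ℕ} (hc : DPT c) (hk : DPT k) (hb : PBd k) (hp : DPT p) :
    DPT fun a => (compInv (c a))^[k a] (p a) :=
  fv_iterate hk hb hp (fv_compInv (hc.comp DPT.id.sfst) DPT.ssnd)

end Inv

end Vale.Agent.P330.Bohr
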