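import Vale.Agent.P330.Bohr.Stm

/-!
P330, inner system: completeness of the equations, injectivity of the tables, decoding.
-/

namespace Vale.Agent.P330.Bohr

open Finset

namespace Cpl

section Word

variable {G : Type} {c D N r : ℕ} [Fact r.Prime]

theorem w_unit {H K : Type} [Fintype H] [DecidableEq H] [CommRing K] (g : G → H → K) (p : G)
    (i : H) : word g (p, unitV i) = g p i := by
  unfold word
  rw [sum_eq_single i]
  · simp [unitV]
  · intro k _ hk
    simp [unitV, hk]
  · simp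

theorem w_mkY (g : G → Hx c D N → ZMod r) (p : G) (b : Fin 2) (f : Ch c → ℕ → ZMod r)
    (u : Fin (D + 2) → ZMod r) (k : Ck N → ZMod r) :
    word g (p, mkY b f u k) =
      (∑ ch, ∑ l : Fin (N + 1), f ch l * g p (.inl (b, .inl (ch, l)))) +
        ∑ d, u d * g p (hF b d) + ∑ τ, k τ * g p (.inr τ) := by
  unfold word
  rw [Fintype.sum_sum_type, Fintype.sum_prod_type, sum_eq_single b]
  · rw [Fintype.sum_sum_type, Fintype.sum_prod_type]
    simp only [mkY, if_true, hF]
  · intro b' _ hb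
    refine sum_eq_zero fun i _ => ?_
    rcases i with ⟨ch, l⟩ | d <;> simp [mkY, hb]
  · simp

theorem w_ckY (g : G → Hx c D N → ZMod r) (p : G) (k : Ck N → ZMod r) :
    word g (p, ckY k) = ∑ τ, k τ * g p (.inr τ) := by
  rw [ckY, w_mkY]
  simp

theorem w_clock {g : G → Hx c D N → ZMod r} {τ : Option (Ck N)}
    (h : ∀ p τ', g p (.inr τ') = if τ = some τ' then 1 else 0) (p : G) (k : Ck N → ZMod r) :
    word g (p, ckY k) = τ.elim 0 k := by
  rw [w_ckY]
  simp only [h]
  cases τ with
  | none => simp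
  | some τ0 =>
    rw [sum_eq_single τ0]
    · simp
    · intro k _ hk
      simp [hk.symm]
    · simp

theorem sum_cDn (y : Yv c D N r) (b : Fin 2) (ch : Ch c) (a : ℕ → ZMod r) (ha : a (N + 1) = 0) :
    ∑ l : Fin (N + 1), cDn y b ch l * a l = ∑ l : Fin (N + 1), cf y b ch l * a (l + 1) := by
  rw [Fin.sum_univ_eq_sum_range (fun l => cDn y b ch l * a l),
    Fin.sum_univ_eq_sum_range (fun l => cf y b ch l * a (l + 1)), sum_range_succ',
    sum_range_succ, ha]
  simp [cDn]

theorem sum_top (y : Yv c D N r) (b : Fin 2) (ch : Ch c) (j : ℕ) (a : ZMod r) :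
    (∑ l : Fin (N + 1), cf y b ch l * if (l : ℕ) + 1 = j then a else 0) = cDn y b ch j * a := by
  rcases j with _ | j
  · simp [cDn]
  · by_cases h : j < N + 1
    · rw [sum_eq_single ⟨j, h⟩]
      · simp [cDn]
      · intro l _ hl
        rw [if_neg (fun h' => hl (Fin.ext (by simpa using h'))), mul_zero]
      · simp
    · rw [sum_eq_zero]
      · simp [cDn, cf, h]
      · intro l _
        rw [if_neg (by have := l.2; omega), mul_zero]

end Word

section Inst

variable {q r m n Cw c ℓ D : ℕ} {X : Type} [Fact q.Prime] [Fact r.Prime] [Fintype X]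
  [DecidableEq X] {ψ : AddChar (ZMod q) (ZMod r)} {Γ : Geo q m n Cw (Idx X ℓ)} {M : LBL c ℓ D X}

theorem hc_iv {g : Pt q m → Hx c D ((D + 2) * n) → ZMod r} {τ : Option (Ck ((D + 2) * n))}
    (h : ∀ p τ', g p (.inr τ') = if τ = some τ' then 1 else 0) (ι : Fin c → Pt q m → ZMod r)
    (x : Pos q m c D ((D + 2) * n) r) (sd : Seed q m n Cw c D ((D + 2) * n) r) (i : CI c) :
    Hc x.2 (iv Γ g ι x sd) i = cv x.2 i τ := by
  have h1 : iv Γ g ι x sd (.ck i) =
      word g (x.1, ckY fun τ => cv x.2 i (some τ) - cv x.2 i none) := rfl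
  rw [Hc, h1, w_clock h]
  cases τ <;> simp

theorem svv_iv (g : Pt q m → Hx c D ((D + 2) * n) → ZMod r) (ι : Fin c → Pt q m → ZMod r)
    (x : Pos q m c D ((D + 2) * n) r) (sd : Seed q m n Cw c D ((D + 2) * n) r) (d : Fin (D + 2))
    (sr : Src c) :
    svv ψ Γ M x.1 (iv Γ g ι x sd) d sr = srcF ψ Γ M g ι (some sr) (piD Γ D d x.1) := by
  rcases sr with _ | ⟨b, ch⟩
  · rfl
  · exact w_unit g _ _

theorem lay_eq (g : Pt q m → Hx c D ((D + 2) * n) → ZMod r) (b : Fin 2) (ch : Ch c)
    (l : Fin ((D + 2) * n + 1)) (p : Pt q m) : g p (.inl (b, .inl (ch, l))) = lay g b ch l p := by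
  rw [lay, dif_pos l.2]

theorem lay_top (g : Pt q m → Hx c D ((D + 2) * n) → ZMod r) (b : Fin 2) (ch : Ch c)
    (p : Pt q m) : lay g b ch ((D + 2) * n + 1) p = 0 := by
  rw [lay, dif_neg (lt_irrefl _)]

theorem tests {md : Bool} {ι : Fin c → Pt q m → ZMod r} {τ : Option (Ck ((D + 2) * n))}
    {g : Pt q m → Hx c D ((D + 2) * n) → ZMod r} (ha : allowed md τ = true)
    (h : Cons ψ Γ M ι τ g) (x : Pos q m c D ((D + 2) * n) r)
    (sd : Seed q m n Cw c D ((D + 2) * n) r) (e : EI c D) :
    eqn ψ Γ M md x (iv Γ g ι x sd) e = 0 := by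
  have hF' : ∀ b d, iv Γ g ι x sd (.lin (.F b d)) = g x.1 (hF b d) := fun b d => w_unit g _ _
  cases e with
  | const =>
    change word g (x.1, ckY _) - word g (x.1 + sd.2.2.2.1, ckY _) = 0
    rw [w_clock h.clock, w_clock h.clock, sub_self]
  | mul =>
    change word g (x.1, ckY _) * word g (x.1, ckY _) - word g (x.1, ckY _) = 0
    rw [w_clock h.clock, w_clock h.clock, w_clock h.clock]
    cases τ <;> simp
  | alw =>
    rw [eqn, hc_iv h.clock, cv, ha]
    rfl
  | F b d =>
    rw [eqn, hF', h.fac]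
    simp only [hc_iv h.clock, svv_iv, cv]
    rcases src c b τ with _ | sr
    · simp [srcF]
    · rw [sum_eq_single sr]
      · simp
      · intro k _ hk
        simp [hk.symm]
      · simp
  | zinv b d =>
    have h1 : iv Γ g ι x sd (.zi b d) = g (ziP Γ D x.1 sd.2.2.2.2) (hF b d) := w_unit g _ _
    rw [eqn, hF', h1, h.zinv, sub_self]
  | rc b =>
    have h1 : iv Γ g ι x sd (.lin (.regs b)) =
        ∑ ch, ∑ l : Fin ((D + 2) * n + 1), cf x.2 b ch l * lay g b ch l x.1 := by
      change word g (x.1, mkY b (cf x.2 b) (fun _ => 0) fun _ => 0) = _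
      rw [w_mkY]
      simp [lay_eq]
    have h2 : ∀ t, iv Γ g ι x sd (.av t b false) =
        ∑ ch, ∑ l : Fin ((D + 2) * n + 1),
          cf x.2 b ch l * lay g b ch (l + 1) (avP Γ D x.1 t) := by
      intro t
      change word g (avP Γ D x.1 t, mkY b (cDn x.2 b) (fun _ => 0) fun _ => 0) = _
      rw [w_mkY]
      simp only [lay_eq, zero_mul, sum_const_zero, add_zero]
      exact sum_congr rfl fun ch _ =>
        sum_cDn x.2 b ch (fun l => lay g b ch l (avP Γ D x.1 t)) (lay_top g b ch _)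
    have h3 : ∀ ch, ∑ l : Fin ((D + 2) * n + 1), cf x.2 b ch l * lay g b ch l x.1 =
        (q : ZMod r)⁻¹ * (∑ t, ∑ l : Fin ((D + 2) * n + 1),
          cf x.2 b ch l * lay g b ch (l + 1) (avP Γ D x.1 t)) +
        cDn x.2 b ch (stage b τ) * kap ψ Γ M ch (sgI Γ D x.1) * ∏ d, g x.1 (hF b d) := by
      intro ch
      rw [sum_congr rfl fun (l : Fin ((D + 2) * n + 1)) _ =>
        congrArg (cf x.2 b ch l * ·) (h.rc b ch l x.1 l.2)]
      simp only [mul_add, sum_add_distrib, sum_top]
      congr 1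
      · rw [sum_comm, mul_sum]
        refine sum_congr rfl fun l _ => ?_
        rw [Aop, ← mul_sum]
        ring
      · rw [topF, mul_assoc]
    rw [eqn, h1]
    simp only [hc_iv h.clock, hF', h2, h3, cv]
    rw [sum_add_distrib, ← mul_sum, sum_comm, sum_mul]
    ring
  | chk b ch β =>
    have h1 : iv Γ g ι x sd (.lin (.V b ch)) = g x.1 (hV b ch) := w_unit g _ _
    rw [eqn, hc_iv h.clock, cv, h1]
    split_ifs with h2 h3
    · subst h3
      rw [h.chk1 b ch x.1 h2]
      rcases ch with i | ⟨β, j⟩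
      · exact mul_eq_zero_of_right _ (sub_self _)
      · exact mul_eq_zero_of_right _ (sub_self _)
    · rw [Bool.not_eq_true] at h3
      subst h3
      rw [h.chk0 b ch x.1 h2, sub_self, mul_zero]
    · exact zero_mul _
    · exact zero_mul _

theorem tab_zero (x : Idx X ℓ → ZMod r) (p : Pt q m) (i : TI c D ((D + 2) * n)) :
    Tab ψ Γ M x 0 p i = 0 := by
  rcases i with ⟨ch, l⟩ | d <;> simp [Tab]

theorem spec_tabs {s : ℕ} {lam : ℝ} (hC : Cx ψ Γ M s lam) (hT : TabP ψ Γ M s)
    (τ : Option (Ck ((D + 2) * n))) (x : Fin 2 → Idx X ℓ → ZMod r) (b : Fin 2)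
    (hb : stage b τ = (D + 2) * n + 1) (k : Idx X ℓ) :
    spec ψ Γ (word (tabs ψ Γ M τ x)) b k = Oc M (.inl 0) (x b) k := by
  rw [spec, ← hT.coef_encv (Oc M (.inl 0) (x b)) k]
  congr 1
  funext z
  rw [w_unit, hV, tabs, hb, Tab, if_pos (by simp)]
  simp only [Fin.val_zero, Nat.add_sub_cancel, Nat.sub_zero]
  rw [hT.res, slot_inSlot hC.geo.dim le_rfl, if_pos rfl]

theorem dec_bK (b : Bool) : decide ((bK b : ZMod r) = 1) = b := by
  cases b <;> simp [bK]

end Inst

end Cpl

variable {q r m n Cw c ℓ D : ℕ} {X : Type} [Fact q.Prime] [Fact r.Prime] [Fintype X]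
  [DecidableEq X] {ψ : AddChar (ZMod q) (ZMod r)} {Γ : Geo q m n Cw (Idx X ℓ)} {M : LBL c ℓ D X}

theorem compP {s : ℕ} {lam : ℝ} (hC : Cx ψ Γ M s lam) (hT : TabP ψ Γ M s)
    (hO : OcP M (ZMod r)) : CompP ψ Γ M where
  tests _ _ _ _ ha h := Cpl.tests ha h
  word_inj g g' h := by
    funext p i
    rw [← Cpl.w_unit g p i, h, Cpl.w_unit]
  inj τ τ' x x' h := by
    have h1 : τ = τ' := by
      have h2 : ∀ t, (if τ = some t then (1 : ZMod r) else 0) = if τ' = some t then 1 else 0 :=
        fun t => congrFun (congrFun h 0) (.inr t)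
      rcases τ with _ | t
      · rcases τ' with _ | t'
        · rfl
        · simpa using h2 t'
      · have h3 := h2 t
        rw [if_pos rfl] at h3
        by_contra hc
        rw [if_neg fun h4 => hc h4.symm] at h3
        exact one_ne_zero h3
    subst h1
    refine ⟨rfl, fun b hb => funext fun k => ?_⟩
    rw [← hT.coef_encv (x b) k, ← hT.coef_encv (x' b) k]
    congr 1
    funext z
    have h2 := congrFun (congrFun h (sgN Γ D (inSlot m 0 z))) (hF b 0)
    simp only [hF, tabs, Tab, hb, if_false, facs, sgI, sgN, compInv_iter_comp hC.geo.unit,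
      Fin.val_zero] at h2
    rwa [slot_inSlot hC.geo.dim (Nat.zero_le _), if_pos rfl] at h2
  congr τ x x' h := by
    funext p i
    rcases i with ⟨b, i⟩ | t
    · by_cases hb : stage b τ = 0
      · simp only [tabs, hb, Cpl.tab_zero]
      · simp only [tabs, h b hb]
    · rfl
  zero x := by
    funext y
    refine sum_eq_zero fun i _ => mul_eq_zero_of_right _ ?_
    rcases i with ⟨b, i⟩ | t
    · exact Cpl.tab_zero _ _ _
    · simp [tabs]
  decL ph j x hph := by
    funext v
    have h1 : word (gS ψ Γ M (some (ph, j)) x)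
        (0, ckY fun τ => if τ.1 = 2 then 1 else 0) = if ph = 2 then 1 else 0 :=
      Cpl.w_clock (τ := some (ph, j)) (fun _ _ => rfl) _ _
    unfold decL
    rw [h1, gS]
    rcases hph with rfl | rfl | rfl
    · rw [if_neg (by simp), Cpl.spec_tabs hC hT _ _ _ (by simp [stage])]
      simp only [vecs, if_true, show ¬(1 : Fin 5) = 2 by decide, if_false, hO.id_hat]
      exact Cpl.dec_bK _
    · rw [if_pos (by simp), Cpl.spec_tabs hC hT _ _ _ (by simp [stage])]
      simp only [vecs, if_true, show ¬(1 : Fin 2) = 0 by decide, if_false, hO.id_hat]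
      exact Cpl.dec_bK _
    · rw [if_neg (by simp), Cpl.spec_tabs hC hT _ _ _ (by simp [stage])]
      simp only [vecs, if_true, show ¬(3 : Fin 5) = 2 by decide, if_false, hO.id_hat]
      exact Cpl.dec_bK _
  decS σ := by
    funext i
    unfold decS
    rw [symW, gSym, Cpl.spec_tabs hC hT _ _ _ (by simp [stage, mkCk]), hO.id_hatS]
    exact Cpl.dec_bK _

end Vale.Agent.P330.Bohr
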