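import Vale.Agent.P330.Bohr.Stm

/-!
P330, inner system: consistent tables are exactly the tables of states.
-/

namespace Vale.Agent.P330.Bohr

open Finset

namespace ConsA

variable {q r m n Cw c ℓ D : ℕ} {X : Type} [Fact q.Prime] [Fact r.Prime] [Fintype X]
  [DecidableEq X] {ψ : AddChar (ZMod q) (ZMod r)} {Γ : Geo q m n Cw (Idx X ℓ)} {M : LBL c ℓ D X}
  {s : ℕ}

omit [Fintype X] [DecidableEq X] in
theorem aop_zero : Aop (r := r) Γ D (fun _ => 0) = fun _ => 0 := by
  funext p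
  simp [Aop]

theorem stage_le {N : ℕ} (b : Fin 2) (τ : Option (Ck N)) : stage b τ ≤ N + 1 := by
  rcases τ with _ | ⟨ph, j⟩
  · simp [stage]
  · have := j.2
    simp only [stage]
    split_ifs <;> omega

omit [DecidableEq X] in
/-- the layers are determined by the factors -/
theorem lay_eq {τ : Option (Ck ((D + 2) * n))} {g : Pt q m → Hx c D ((D + 2) * n) → ZMod r}
    (h : Cons0 ψ Γ M τ g) (b : Fin 2) (ch : Ch c) (l : ℕ) :
    lay g b ch l = if l < stage b τ then
      (Aop Γ D)^[stage b τ - 1 - l] (topF ψ Γ M (fun d p => g p (hF b d)) ch) else fun _ => 0 := by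
  have hs := stage_le b τ
  have key : ∀ k l, l + k = (D + 2) * n + 1 → lay g b ch l = if l < stage b τ then
      (Aop Γ D)^[stage b τ - 1 - l] (topF ψ Γ M (fun d p => g p (hF b d)) ch)
      else fun _ => 0 := by
    intro k
    induction k with
    | zero =>
      intro l hl
      rw [if_neg (by omega)]
      funext p
      simp only [lay]
      rw [dif_neg (by omega)]
    | succ k ih =>
      intro l hl
      have h1 := ih (l + 1) (by omega)
      funext p
      rw [h.rc b ch l p (by omega), h1]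
      by_cases h2 : l + 1 < stage b τ
      · rw [if_pos h2, if_neg (by omega), if_pos (by omega), add_zero]
        have : stage b τ - 1 - l = (stage b τ - 1 - (l + 1)) + 1 := by omega
        rw [this, Function.iterate_succ_apply']
      · rw [if_neg h2, aop_zero]
        by_cases h3 : l + 1 = stage b τ
        · rw [if_pos h3, if_pos (by omega)]
          have : stage b τ - 1 - l = 0 := by omega
          simp [this]
        · rw [if_neg h3, if_neg (by omega)]
          simp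
  by_cases hl : l ≤ (D + 2) * n + 1
  · exact key ((D + 2) * n + 1 - l) l (by omega)
  · rw [if_neg (by omega)]
    funext p
    simp only [lay]
    rw [dif_neg (by omega)]

omit [DecidableEq X] in
/-- the table is determined by the factors -/
theorem tab_eq {τ : Option (Ck ((D + 2) * n))} {g : Pt q m → Hx c D ((D + 2) * n) → ZMod r}
    (h : Cons0 ψ Γ M τ g) (b : Fin 2) (x : Idx X ℓ → ZMod r)
    (hf : ∀ d p, g p (hF b d) = if stage b τ = 0 then 0 else facs ψ Γ D x d p) (p : Pt q m)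
    (i : TI c D ((D + 2) * n)) : g p (.inl (b, i)) = Tab ψ Γ M x (stage b τ) p i := by
  rcases i with ⟨ch, l⟩ | d
  · have h1 := congrFun (lay_eq h b ch l) p
    have h2 : lay g b ch l p = g p (.inl (b, .inl (ch, l))) := by
      simp only [lay]
      rw [dif_pos l.2]
    rw [← h2, h1]
    simp only [Tab]
    by_cases h3 : (l : ℕ) < stage b τ
    · rw [if_pos h3, if_pos h3]
      have : (fun d p => g p (hF b d)) = facs ψ Γ D x := by
        funext d p
        rw [hf, if_neg (by omega)]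
      rw [this]
    · rw [if_neg h3, if_neg h3]
  · exact hf d p

omit [DecidableEq X] in
theorem tabs_F (τ : Option (Ck ((D + 2) * n))) (x : Fin 2 → Idx X ℓ → ZMod r) (b : Fin 2)
    (d : Fin (D + 2)) (p : Pt q m) :
    tabs ψ Γ M τ x p (hF b d) = if stage b τ = 0 then 0 else facs ψ Γ D (x b) d p := rfl

omit [DecidableEq X] in
theorem lay_tabs (τ : Option (Ck ((D + 2) * n))) (x : Fin 2 → Idx X ℓ → ZMod r) (b : Fin 2)
    (ch : Ch c) (l : ℕ) : lay (tabs ψ Γ M τ x) b ch l = if l < stage b τ then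
      (Aop Γ D)^[stage b τ - 1 - l] (topF ψ Γ M (facs ψ Γ D (x b)) ch) else fun _ => 0 := by
  have hs := stage_le b τ
  funext p
  simp only [lay]
  by_cases h : l < (D + 2) * n + 1
  · rw [dif_pos h]
    simp only [tabs, Tab]
    split_ifs <;> rfl
  · rw [dif_neg h, if_neg (by omega)]

/-- tables satisfy the recurrence -/
theorem cons0_tabs (hT : TabP ψ Γ M s) (τ : Option (Ck ((D + 2) * n)))
    (x : Fin 2 → Idx X ℓ → ZMod r) : Cons0 ψ Γ M τ (tabs ψ Γ M τ x) where
  clock _ _ := rfl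
  zinv b d p z := by
    rw [tabs_F, tabs_F, hT.facs_zi]
  rc b ch l p _ := by
    rw [lay_tabs, lay_tabs]
    by_cases h2 : l + 1 < stage b τ
    · rw [if_pos h2, if_neg (show ¬ l + 1 = stage b τ by omega), if_pos (by omega), add_zero]
      have : stage b τ - 1 - l = (stage b τ - 1 - (l + 1)) + 1 := by omega
      rw [this, Function.iterate_succ_apply']
    · rw [if_neg h2, aop_zero]
      by_cases h3 : l + 1 = stage b τ
      · rw [if_pos h3, if_pos (by omega)]
        have h4 : stage b τ - 1 - l = 0 := by omega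
        have h5 : (fun d p => tabs ψ Γ M τ x p (hF b d)) = facs ψ Γ D (x b) := by
          funext d p
          rw [tabs_F, if_neg (by omega)]
        rw [h4, h5]
        simp
      · rw [if_neg h3, if_neg (by omega)]
        simp

/-- the results of the channels of a complete table -/
theorem tab_V (hT : TabP ψ Γ M s) (x : Idx X ℓ → ZMod r) (ch : Ch c) (p : Pt q m) {j : ℕ}
    (hj : j = (D + 2) * n + 1) :
    Tab ψ Γ M x j p (.inl (ch, 0)) = encv ψ Γ (Oc M ch x) (slot n (D + 2) p) := by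
  rw [← hT.res, hj]
  simp [Tab]

theorem tabs_V (hT : TabP ψ Γ M s) {τ : Option (Ck ((D + 2) * n))}
    (x : Fin 2 → Idx X ℓ → ZMod r) {b : Fin 2} (hb : stage b τ = (D + 2) * n + 1) (ch : Ch c)
    (p : Pt q m) : tabs ψ Γ M τ x p (hV b ch) = encv ψ Γ (Oc M ch (x b)) (slot n (D + 2) p) :=
  tab_V hT (x b) ch p hb

theorem src_V (hT : TabP ψ Γ M s) {ι : Fin c → Pt q m → ZMod r}
    {τ : Option (Ck ((D + 2) * n))} {x : Fin 2 → Idx X ℓ → ZMod r} {sr : Src c} (b : Fin 2)
    (ch : Ch c) (hs : sr = some (b, ch)) (hb : stage b τ = (D + 2) * n + 1)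
    {y : Idx X ℓ → ZMod r} (hy : Oc M ch (x b) = y) (p : Pt q m) :
    srcF ψ Γ M (tabs ψ Γ M τ x) ι (some sr) p = encv ψ Γ y (slot n (D + 2) p) := by
  subst hs
  rw [← hy]
  exact tabs_V hT x hb ch p

theorem facs_eq (hT : TabP ψ Γ M s) (x : Idx X ℓ → ZMod r) (d : Fin (D + 2)) (p : Pt q m) :
    encv ψ Γ x (slot n (D + 2) (piD Γ D d p)) = facs ψ Γ D x d p := by
  rw [hT.slot_piD]
  rfl

omit [DecidableEq X] in
theorem encv_zero (z : Zs q n) : encv ψ Γ (0 : Idx X ℓ → ZMod r) z = 0 := by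
  simp [encv]

theorem encv_delta (k : Idx X ℓ) (z : Zs q n) :
    encv ψ Γ (fun k' => if k' = k then (1 : ZMod r) else 0) z = chi ψ Γ k z := by
  simp [encv]

theorem encv_start (hO : OcP M (ZMod r)) (σ : Fin c → Sym ℓ) (p : Pt q m) :
    chi ψ Γ none (slot n (D + 2) p) + chi ψ Γ (some (.inl M.first)) (slot n (D + 2) p) +
      ∑ j, inpF ψ Γ M σ j p = encv ψ Γ (hat (M.start σ)) (slot n (D + 2) p) := by
  rw [← encv_delta, ← encv_delta]
  simp only [encv, inpF, hO.start, add_mul, sum_add_distrib, sum_mul]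
  rw [sum_comm]

section Cons

variable {ι : Fin c → Pt q m → ZMod r} {τ : Option (Ck ((D + 2) * n))}
  {g : Pt q m → Hx c D ((D + 2) * n) → ZMod r}

omit [DecidableEq X] in
/-- an empty table -/
theorem empty_tab (h : Cons ψ Γ M ι τ g) {b : Fin 2} (hb : stage b τ = 0) (x : Idx X ℓ → ZMod r)
    (p : Pt q m) (i : TI c D ((D + 2) * n)) :
    g p (.inl (b, i)) = Tab ψ Γ M x (stage b τ) p i := by
  refine tab_eq h.toCons0 b x (fun d p => ?_) p i
  rw [h.fac, if_pos hb]
  simp [src, hb, srcF]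

/-- a table whose source is the encoding of `x` -/
theorem src_tab (hT : TabP ψ Γ M s) (h : Cons ψ Γ M ι τ g) {b : Fin 2} (x : Idx X ℓ → ZMod r)
    (hx : stage b τ ≠ 0 → ∀ p, srcF ψ Γ M g ι (src c b τ) p = encv ψ Γ x (slot n (D + 2) p))
    (p : Pt q m) (i : TI c D ((D + 2) * n)) :
    g p (.inl (b, i)) = Tab ψ Γ M x (stage b τ) p i := by
  by_cases hb : stage b τ = 0
  · exact empty_tab h hb x p i
  · refine tab_eq h.toCons0 b x (fun d p => ?_) p i
    rw [h.fac, if_neg hb, hx hb, facs_eq hT]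

/-- a complete table which is its own source -/
theorem self_tab (hT : TabP ψ Γ M s) (h : Cons ψ Γ M ι τ g) {b : Fin 2}
    (hb : stage b τ = (D + 2) * n + 1) (hs : src c b τ = some (some (b, .inl 0))) :
    ∃ x : Idx X ℓ → ZMod r, (∀ p i, g p (.inl (b, i)) = Tab ψ Γ M x (stage b τ) p i) ∧
      (∀ ch p, g p (hV b ch) = encv ψ Γ (Oc M ch x) (slot n (D + 2) p)) ∧
      Oc M (.inl 0) x = x := by
  obtain ⟨x, hx⟩ := hT.key (fun d p => g p (hF b d)) (fun d p z => h.zinv b d p z) (.inl 0)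
  have h0 : ∀ p, g p (hV b (.inl 0)) = encv ψ Γ x (slot n (D + 2) p) := by
    intro p
    have h1 := congrFun (lay_eq h.toCons0 b (.inl 0) 0) p
    rw [hb, if_pos (by omega)] at h1
    rw [← hx]
    exact h1
  have h1 : ∀ p i, g p (.inl (b, i)) = Tab ψ Γ M x (stage b τ) p i :=
    src_tab hT h x fun _ p => by rw [hs]; exact h0 p
  have h2 : ∀ ch p, g p (hV b ch) = encv ψ Γ (Oc M ch x) (slot n (D + 2) p) := by
    intro ch p
    rw [← tab_V hT x ch p hb]
    exact h1 p _
  exact ⟨x, h1, h2, hT.encv_inj _ _ fun p => by rw [← h2, h0]⟩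

theorem oc_zero (hT : TabP ψ Γ M s) (h : Cons ψ Γ M ι τ g) {b : Fin 2} {x : Idx X ℓ → ZMod r}
    (hx : ∀ ch p, g p (hV b ch) = encv ψ Γ (Oc M ch x) (slot n (D + 2) p)) {ch : Ch c}
    (hr : req b ch τ = some false) : Oc M ch x = 0 :=
  hT.encv_inj _ _ fun p => by rw [← hx, h.chk0 b ch p hr, encv_zero]

theorem oc_one (hT : TabP ψ Γ M s) (h : Cons ψ Γ M ι τ g) {b : Fin 2} {x : Idx X ℓ → ZMod r}
    (hx : ∀ ch p, g p (hV b ch) = encv ψ Γ (Oc M ch x) (slot n (D + 2) p)) {i : Fin 10}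
    (hr : req (c := c) b (.inl i) τ = some true) : Oc M (.inl i) x none = 1 := by
  have : Oc M (.inl i) x = fun k' => if k' = none then (1 : ZMod r) else 0 :=
    hT.encv_inj _ _ fun p => by rw [← hx, h.chk1 b _ p hr, encv_delta]; rfl
  rw [this]
  simp

omit [DecidableEq X] in
theorem eq_tabs (h : Cons ψ Γ M ι τ g) {x : Fin 2 → Idx X ℓ → ZMod r}
    (h0 : ∀ p i, g p (.inl (0, i)) = Tab ψ Γ M (x 0) (stage 0 τ) p i)
    (h1 : ∀ p i, g p (.inl (1, i)) = Tab ψ Γ M (x 1) (stage 1 τ) p i) :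
    g = tabs ψ Γ M τ x := by
  funext p i
  rcases i with ⟨b, i⟩ | τ'
  · fin_cases b
    · exact h0 p i
    · exact h1 p i
  · exact h.clock p τ'

end Cons

theorem bK_zero {b : Bool} (h : (bK b : ZMod r) = 0) : b = false := by
  cases b
  · rfl
  · simp [bK] at h

theorem bK_one {b : Bool} (h : (bK b : ZMod r) = 1) : b = true := by
  cases b
  · simp [bK] at h
  · rfl

/-- the complete table of a phase of the line system holds a valid state -/
theorem self_state (hT : TabP ψ Γ M s) (hO : OcP M (ZMod r)) {σ : Fin c → Sym ℓ}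
    {τ : Option (Ck ((D + 2) * n))} {g : Pt q m → Hx c D ((D + 2) * n) → ZMod r}
    (h : Cons ψ Γ M (inpF ψ Γ M σ) τ g) {b : Fin 2}
    (hb : stage b τ = (D + 2) * n + 1) (hs : src c b τ = some (some (b, .inl 0)))
    (r1 : req (c := c) b (.inl 1) τ = some false) (r8 : req (c := c) b (.inl 8) τ = some true)
    (r2 : req (c := c) b (.inl 2) τ = some false)
    (ri : ∀ j : Fin c, req b (.inr (false, j)) τ = some true) :
    ∃ x : X → Bool, M.Valid σ x ∧
      (∀ p i, g p (.inl (b, i)) = Tab ψ Γ M (hat x) (stage b τ) p i) ∧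
      ∀ ch p, g p (hV b ch) = encv ψ Γ (Oc M ch (hat x)) (slot n (D + 2) p) := by
  obtain ⟨y, h1, h2, h3⟩ := self_tab hT h hb hs
  have hv := oc_zero hT h h2 r2
  obtain ⟨x, rfl⟩ := hO.shapeL y h3 (oc_zero hT h h2 r1) (oc_one hT h h2 r8) hv
  refine ⟨x, ⟨(hO.val x).1 hv, fun j i => ?_⟩, h1, h2⟩
  have h4 : Oc M (.inr (false, j)) (hat x : Idx X ℓ → ZMod r) = inpV M j (σ j) :=
    hT.encv_inj _ _ fun p => by rw [← h2, h.chk1 b _ p (ri j)]; rfl
  rw [hO.inp] at h4
  exact congrFun (hO.inpV_inj j _ _ h4) i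

theorem stL (hT : TabP ψ Γ M s) (hO : OcP M (ZMod r)) (σ : Fin c → Sym ℓ) (hW : M.WF σ)
    (τ : Option (Ck ((D + 2) * n))) (g : Pt q m → Hx c D ((D + 2) * n) → ZMod r)
    (ha : allowed false τ = true) (h : Cons ψ Γ M (inpF ψ Γ M σ) τ g) :
    ∃ x, LSt M σ τ x ∧ g = gS ψ Γ M τ x := by
  rcases τ with _ | ⟨ph, j⟩
  · exact ⟨M.start σ, ⟨ha, hW.valid, rfl⟩,
      eq_tabs h (empty_tab h rfl _) (empty_tab h rfl _)⟩
  have h5 : ph = 0 ∨ ph = 1 ∨ ph = 2 ∨ ph = 3 ∨ ph = 4 := by omega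
  rcases h5 with rfl | rfl | rfl | rfl | rfl
  · refine ⟨M.start σ, ⟨ha, hW.valid, by simp⟩, eq_tabs h (src_tab hT h _ fun hb p => ?_)
      (empty_tab h (by simp [stage]) _)⟩
    have : src c 0 (some ((0 : Fin 5), j)) = some none := by
      simp only [src, if_neg hb]
      simp [src0]
    rw [this]
    exact encv_start hO σ p
  · obtain ⟨x, hv, h1, h2⟩ := self_state hT hO h (b := 0) (by simp [stage])
      (by simp [src, stage, src0]) (by simp [req]) (by simp [req]) (by simp [req])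
      (by simp [req])
    refine ⟨x, ⟨ha, hv, by simp, fun _ hj => ?_, by simp, by simp⟩,
      eq_tabs h h1 (src_tab hT h _ fun hb p => ?_)⟩
    · have h3 := congrFun (oc_zero hT h h2 (ch := .inl 7) (by simp [req, hj])) none
      rw [hO.last] at h3
      exact bK_zero (r := r) (by simpa using h3)
    · have : src c 1 (some ((1 : Fin 5), j)) = some (some (0, .inl 3)) := by
        simp only [src, if_neg hb]
        simp [src0]
      rw [this]
      simp only [srcF]
      rw [h2, hO.suc]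
      rfl
  · obtain ⟨x, hv, h1, h2⟩ := self_state hT hO h (b := 1) (by simp [stage])
      (by simp [src, stage, src0]) (by simp [req]) (by simp [req]) (by simp [req])
      (by simp [req])
    refine ⟨x, ⟨ha, hv, by simp, by simp, fun _ => ?_, by simp⟩,
      eq_tabs h (src_tab hT h _ fun hb p => ?_) h1⟩
    · have h3 := congrFun (oc_zero hT h h2 (ch := .inl 6) (by simp [req])) none
      rw [hO.first] at h3
      exact bK_zero (r := r) (by simpa using h3)
    · have : src c 0 (some ((2 : Fin 5), j)) = some (some (1, .inl 4)) := by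
        simp only [src, if_neg hb]
        simp [src0]
      rw [this]
      simp only [srcF]
      rw [h2, hO.pre]
      rfl
  · obtain ⟨x, hv, h1, h2⟩ := self_state hT hO h (b := 0) (by simp [stage])
      (by simp [src, stage, src0]) (by simp [req]) (by simp [req]) (by simp [req])
      (by simp [req])
    refine ⟨x, ⟨ha, hv, by simp, by simp, by simp, fun _ => ?_⟩,
      eq_tabs h h1 (src_tab hT h _ fun hb p => ?_)⟩
    · have h3 := oc_one hT h h2 (i := 7) (by simp [req])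
      rw [hO.last] at h3
      exact bK_one (r := r) (by simpa using h3)
    · have : src c 1 (some ((3 : Fin 5), j)) = some (some (0, .inl 5)) := by
        simp only [src, if_neg hb]
        simp [src0]
      rw [this]
      simp only [srcF]
      rw [h2, hO.out]
      rfl
  · simp [allowed] at ha

theorem stE (hT : TabP ψ Γ M s) (hO : OcP M (ZMod r))
    (τ : Option (Ck ((D + 2) * n))) (g : Pt q m → Hx c D ((D + 2) * n) → ZMod r)
    (ha : allowed true τ = true) (h : Cons ψ Γ M (fun _ _ => 0) τ g) :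
    ∃ σ, g = gSym ψ Γ M σ := by
  have hτ : τ = some (mkCk _ 4 0) := by
    rcases τ with _ | ⟨ph, j⟩
    · simp [allowed] at ha
    · simp only [allowed, if_true, decide_eq_true_eq] at ha
      obtain ⟨rfl, hj⟩ := ha
      simp only [mkCk, Option.some.injEq, Prod.mk.injEq, true_and]
      exact Fin.ext (by simpa using hj)
  subst hτ
  obtain ⟨y, h1, h2, h3⟩ := self_tab hT h (b := 1) (by simp [stage, mkCk])
    (by simp [src, stage, src0, mkCk])
  obtain ⟨σ, rfl⟩ := hO.shapeS y h3 (oc_zero hT h h2 (by simp [req, mkCk]))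
    (oc_one hT h h2 (by simp [req, mkCk])) (oc_zero hT h h2 (by simp [req, mkCk]))
  exact ⟨σ, eq_tabs h (empty_tab h (by simp [stage, mkCk]) _) h1⟩

/-- sufficient conditions for consistency of tables -/
theorem cons_tabs (hT : TabP ψ Γ M s) {ι : Fin c → Pt q m → ZMod r}
    {τ : Option (Ck ((D + 2) * n))} {x : Fin 2 → Idx X ℓ → ZMod r}
    (hs : ∀ b, stage b τ ≠ 0 → ∀ p,
      srcF ψ Γ M (tabs ψ Γ M τ x) ι (src c b τ) p = encv ψ Γ (x b) (slot n (D + 2) p))
    (hr : ∀ b (ch : Ch c) β, req b ch τ = some β → stage b τ = (D + 2) * n + 1)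
    (h0 : ∀ b ch, req b ch τ = some false → Oc M ch (x b) = 0)
    (h1 : ∀ b i, req (c := c) b (.inl i) τ = some true →
      Oc M (.inl i) (x b) = fun k => if k = none then 1 else 0)
    (h2 : ∀ b (j : Bool × Fin c), req b (.inr j) τ = some true → ∀ p,
      encv ψ Γ (Oc M (.inr j) (x b)) (slot n (D + 2) p) = ι j.2 p) :
    Cons ψ Γ M ι τ (tabs ψ Γ M τ x) where
  toCons0 := cons0_tabs hT τ x
  fac b d p := by
    rw [tabs_F]
    by_cases hb : stage b τ = 0
    · rw [if_pos hb]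
      simp [src, hb, srcF]
    · rw [if_neg hb, hs b hb, facs_eq hT]
  chk0 b ch p h := by
    rw [tabs_V hT x (hr b ch _ h), h0 b ch h, encv_zero]
  chk1 b ch p h := by
    rw [tabs_V hT x (hr b ch _ h)]
    rcases ch with i | j
    · rw [h1 b i h, encv_delta]
      rfl
    · exact h2 b j h p

theorem req_stage {N : ℕ} (b : Fin 2) (ch : Ch c) (β : Bool) (τ : Option (Ck N))
    (h : req b ch τ = some β) : stage b τ = N + 1 := by
  rcases τ with _ | ⟨ph, j⟩
  · simp [req] at h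
  have hc : ¬ (ph = 0 ∨ (b = 0 ↔ (ph = 2 ∨ ph = 4))) := by
    intro hc
    simp only [req] at h
    rw [if_pos hc] at h
    exact absurd h (by simp)
  have h5 : ph = 0 ∨ ph = 1 ∨ ph = 2 ∨ ph = 3 ∨ ph = 4 := by omega
  have h2 : b = 0 ∨ b = 1 := by omega
  rcases h5 with rfl | rfl | rfl | rfl | rfl <;> rcases h2 with rfl | rfl <;>
    simp [stage] at hc ⊢

/-- the conditions -/
theorem req_cases {N : ℕ} {b : Fin 2} {ch : Ch c} {β : Bool} {ph : Fin 5} {j : Fin (N + 2)}
    (h : req b ch (some (ph, j)) = some β) :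
    ph ≠ 0 ∧ (b = 0 ↔ ¬ (ph = 2 ∨ ph = 4)) ∧
      ((ch = .inl 1 ∧ β = false) ∨ (ch = .inl 8 ∧ β = true) ∨
        (ch = .inl 2 ∧ ph ≠ 4 ∧ β = false) ∨ (ch = .inl 9 ∧ ph = 4 ∧ β = false) ∨
        (ch = .inl 6 ∧ ph = 2 ∧ β = false) ∨ (ch = .inl 7 ∧ ph = 3 ∧ β = true) ∨
        (ch = .inl 7 ∧ ph = 1 ∧ (j : ℕ) ≠ 0 ∧ β = false) ∨
        ∃ i, ch = .inr (false, i) ∧ ph ≠ 4 ∧ β = true) := by
  have hc : ¬ (ph = 0 ∨ (b = 0 ↔ (ph = 2 ∨ ph = 4))) := by
    intro hc
    simp only [req] at h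
    rw [if_pos hc] at h
    exact absurd h (by simp)
  refine ⟨fun h0 => hc (Or.inl h0), by tauto, ?_⟩
  simp only [req] at h
  rw [if_neg hc] at h
  rcases ch with i | ⟨_ | _, i⟩
  · fin_cases i <;> simp at h ⊢ <;> (try split_ifs at h) <;> simp_all
  · simp at h ⊢
    simp_all
  · simp at h

theorem consL (hT : TabP ψ Γ M s) (hO : OcP M (ZMod r)) (σ : Fin c → Sym ℓ)
    (τ : Option (Ck ((D + 2) * n))) (x : X → Bool) (h : LSt M σ τ x) :
    Cons ψ Γ M (inpF ψ Γ M σ) τ (gS ψ Γ M τ x) := by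
  obtain ⟨ha, hv, hx⟩ := h
  rcases τ with _ | ⟨ph, j⟩
  · exact cons_tabs hT (fun b hb => absurd rfl hb) (fun b ch β h => req_stage b ch β _ h)
      (fun b ch h => by simp [req] at h) (fun b ch h => by simp [req] at h)
      fun b ch h => by simp [req] at h
  obtain ⟨x0, x1, x2, x3⟩ := hx
  have h4 : ph ≠ 4 := by
    rintro rfl
    simp [allowed] at ha
  have hvec : ∀ b : Fin 2, (b = 0 ↔ ¬ (ph = 2 ∨ ph = 4)) →
      (vecs M (some (ph, j)) x b : Idx X ℓ → ZMod r) = hat x := by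
    intro b hb
    have h2 : b = 0 ∨ b = 1 := by omega
    rcases h2 with rfl | rfl
    · have : ph ≠ 2 := by tauto
      simp [vecs, this]
    · have : ph = 2 := by
        have : ¬ ((1 : Fin 2) = 0) := by decide
        tauto
      simp [vecs, this]
  refine cons_tabs hT (fun b hb p => ?_) (fun b ch β h => req_stage b ch β _ h)
    (fun b ch h => ?_) (fun b i h => ?_) fun b i h p => ?_
  · have h5 : ph = 0 ∨ ph = 1 ∨ ph = 2 ∨ ph = 3 := by omega
    have h2 : b = 0 ∨ b = 1 := by omega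
    simp only [src, if_neg hb, Option.map_some]
    rcases h5 with rfl | rfl | rfl | rfl <;> rcases h2 with rfl | rfl
    · have h6 : src0 c 0 0 = none := by simp [src0]
      have h7 : (vecs M (some (0, j)) x 0 : Idx X ℓ → ZMod r) = hat (M.start σ) := by
        simp [vecs, x0 rfl]
      rw [h6, h7]
      exact encv_start hO σ p
    · simp [stage] at hb
    · exact src_V hT 0 (.inl 0) (by simp [src0]) (by simp [stage]) (by simp [vecs, hO.id_hat]) p
    · exact src_V hT 0 (.inl 3) (by simp [src0]) (by simp [stage]) (by simp [vecs, hO.suc]) p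
    · exact src_V hT 1 (.inl 4) (by simp [src0]) (by simp [stage]) (by simp [vecs, hO.pre]) p
    · exact src_V hT 1 (.inl 0) (by simp [src0]) (by simp [stage]) (by simp [vecs, hO.id_hat]) p
    · exact src_V hT 0 (.inl 0) (by simp [src0]) (by simp [stage]) (by simp [vecs, hO.id_hat]) p
    · exact src_V hT 0 (.inl 5) (by simp [src0]) (by simp [stage]) (by simp [vecs, hO.out]) p
  · obtain ⟨-, hb, hc⟩ := req_cases h
    rw [hvec b hb]
    rcases hc with ⟨rfl, -⟩ | ⟨-, hc⟩ | ⟨rfl, -⟩ | ⟨-, hc, -⟩ | ⟨rfl, hc, -⟩ | ⟨-, -, hc⟩ |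
      ⟨rfl, hc, hj, -⟩ | ⟨_, -, -, hc⟩
    · exact hO.bool_hat x
    · exact absurd hc (by simp)
    · exact (hO.val x).2 hv.1
    · exact absurd hc h4
    · funext k
      rw [hO.first, x2 hc]
      simp [bK]
    · exact absurd hc (by simp)
    · funext k
      rw [hO.last, x1 hc hj]
      simp [bK]
    · exact absurd hc (by simp)
  · obtain ⟨-, hb, hc⟩ := req_cases h
    rw [hvec b hb]
    rcases hc with ⟨-, hc⟩ | ⟨hc, -⟩ | ⟨-, -, hc⟩ | ⟨-, -, hc⟩ | ⟨-, -, hc⟩ | ⟨hc, hp, -⟩ |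
      ⟨-, -, -, hc⟩ | ⟨_, hc, -⟩
    · exact absurd hc (by simp)
    · rw [hc]
      funext k
      rw [hO.oc8]
      simp [hat]
    · exact absurd hc (by simp)
    · exact absurd hc (by simp)
    · exact absurd hc (by simp)
    · rw [hc]
      funext k
      rw [hO.last, x3 hp]
      simp [bK]
    · exact absurd hc (by simp)
    · exact absurd hc (by simp)
  · obtain ⟨-, hb, hc⟩ := req_cases h
    rw [hvec b hb]
    rcases hc with ⟨hc, -⟩ | ⟨hc, -⟩ | ⟨hc, -⟩ | ⟨hc, -⟩ | ⟨hc, -⟩ | ⟨hc, -⟩ | ⟨hc, -⟩ |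
      ⟨i', hc, -⟩
    iterate 7 exact absurd hc (by simp)
    obtain rfl : i = (false, i') := Sum.inr.inj hc
    rw [hO.inp]
    have : (fun i => x (M.inp i' i)) = σ i' := funext (hv.2 i')
    rw [this]
    rfl

theorem consE (hT : TabP ψ Γ M s) (hO : OcP M (ZMod r)) (σ : Sym ℓ) :
    Cons ψ Γ M (fun _ _ => 0) (some (mkCk _ 4 0)) (gSym ψ Γ M σ) := by
  refine cons_tabs hT (fun b hb p => ?_) (fun b ch β h => req_stage b ch β _ h)
    (fun b ch h => ?_) (fun b i h => ?_) fun b i h p => ?_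
  · have h2 : b = 0 ∨ b = 1 := by omega
    simp only [src, if_neg hb, Option.map_some]
    rcases h2 with rfl | rfl
    · simp [stage, mkCk] at hb
    · exact src_V hT (x := fun _ => hatS σ) 1 (.inl 0) (by simp [src0, mkCk])
        (by simp [stage, mkCk]) (hO.id_hatS σ) p
  · obtain ⟨-, -, hc⟩ := req_cases h
    rcases hc with ⟨rfl, -⟩ | ⟨-, hc⟩ | ⟨-, hc, -⟩ | ⟨rfl, -⟩ | ⟨-, hc, -⟩ | ⟨-, hc, -⟩ |
      ⟨-, hc, -⟩ | ⟨_, -, hc, -⟩
    · exact hO.bool_hatS σ
    · exact absurd hc (by simp)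
    · exact absurd rfl hc
    · exact hO.symz σ
    · exact absurd hc (by decide)
    · exact absurd hc (by decide)
    · exact absurd hc (by decide)
    · exact absurd rfl hc
  · obtain ⟨-, -, hc⟩ := req_cases h
    rcases hc with ⟨-, hc⟩ | ⟨hc, -⟩ | ⟨-, hc, -⟩ | ⟨-, -, hc⟩ | ⟨-, hc, -⟩ | ⟨-, hc, -⟩ |
      ⟨-, hc, -⟩ | ⟨_, -, hc, -⟩
    · exact absurd hc (by simp)
    · rw [hc]
      funext k
      rw [hO.oc8]
      simp [hatS]
    · exact absurd rfl hc
    · exact absurd hc (by simp)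
    · exact absurd hc (by decide)
    · exact absurd hc (by decide)
    · exact absurd hc (by decide)
    · exact absurd rfl hc
  · obtain ⟨-, -, hc⟩ := req_cases h
    rcases hc with ⟨hc, -⟩ | ⟨hc, -⟩ | ⟨hc, -⟩ | ⟨hc, -⟩ | ⟨hc, -⟩ | ⟨hc, -⟩ | ⟨hc, -⟩ |
      ⟨_, -, hc, -⟩
    iterate 7 exact absurd hc (by simp)
    exact absurd rfl hc

end ConsA

/-- S5: consistent tables are the tables of states. -/
theorem consP {q r m n Cw c ℓ D : ℕ} {X : Type} [Fact q.Prime] [Fact r.Prime] [Fintype X]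
    [DecidableEq X] {ψ : AddChar (ZMod q) (ZMod r)} {Γ : Geo q m n Cw (Idx X ℓ)}
    {M : LBL c ℓ D X} {s : ℕ} {lam : ℝ} (_hC : Cx ψ Γ M s lam) (hT : TabP ψ Γ M s)
    (hO : OcP M (ZMod r)) : ConsP ψ Γ M :=
  ⟨ConsA.stL hT hO, ConsA.stE hT hO, ConsA.consL hT hO, ConsA.consE hT hO⟩

end Vale.Agent.P330.Bohr
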