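import Vale.Agent.P330.Bohr.LineAlg
import Vale.Agent.P330.Bohr.Comp
import Vale.Agent.P330.Stmts
import Vale.Agent.P330.Basic
import Mathlib.Tactic.DeriveFintype

/-!
P330, inner system: the definitions of the construction (channels, tables, clock, probes, rules).
-/

namespace Vale.Agent.P330.Bohr

open Finset
open Vale.Agent.Lib.PolyTime hiding C P
open Vale.Agent.Lib.Dep

noncomputable section

/-! ### Index types -/

/-- coordinates of the encoded vectors: the constant coordinate, the variables, the symbol bits -/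
abbrev Idx (X : Type) (ℓ : ℕ) : Type := Option (X ⊕ Fin ℓ)

/-- Channels: `0` id, `1` bool, `2` val, `3` suc, `4` pre, `5` out, `6` first, `7` last, `8` one,
`9` symz, `(false, j)` inp j, `(true, j)` slot j. -/
abbrev Ch (c : ℕ) : Type := Fin 10 ⊕ Bool × Fin c

/-- registers of a table: the layers of the channels and the factors -/
abbrev TI (c D N : ℕ) : Type := Ch c × Fin (N + 1) ⊕ Fin (D + 2)

/-- clock values: phase (`0` I, `1` A, `2` B, `3` E, `4` S) and counter -/
abbrev Ck (N : ℕ) : Type := Fin 5 × Fin (N + 2)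

/-- coordinates of the vector at a point: two tables and the clock -/
abbrev Hx (c D N : ℕ) : Type := Fin 2 × TI c D N ⊕ Ck N

/-- sources of a table: the start vector (`none`) or a channel of a table -/
abbrev Src (c : ℕ) : Type := Option (Fin 2 × Ch c)

/-- Operations on a table: `0` keep, `1` zero, `2` swap, `3` up, `4` down, or create from a
source. -/
abbrev Op (c : ℕ) : Type := Fin 5 ⊕ Src c

instance instDecCh {c : ℕ} : DecidableEq (Ch c) := inferInstance
instance instFinCh {c : ℕ} : Fintype (Ch c) := inferInstance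
instance instEncCh {c : ℕ} : Enc (Ch c) := inferInstance
instance instInjCh {c : ℕ} : EncInj (Ch c) := inferInstance
instance instEnCh {c : ℕ} : En (Ch c) := inferInstance
instance instDecTI {c D N : ℕ} : DecidableEq (TI c D N) := inferInstance
instance instFinTI {c D N : ℕ} : Fintype (TI c D N) := inferInstance
instance instEncTI {c D N : ℕ} : Enc (TI c D N) := inferInstance
instance instInjTI {c D N : ℕ} : EncInj (TI c D N) := inferInstance
instance instEnTI {c D N : ℕ} : En (TI c D N) := inferInstance
instance instDecHx {c D N : ℕ} : DecidableEq (Hx c D N) := inferInstance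
instance instFinHx {c D N : ℕ} : Fintype (Hx c D N) := inferInstance
instance instEncHx {c D N : ℕ} : Enc (Hx c D N) := inferInstance
instance instInjHx {c D N : ℕ} : EncInj (Hx c D N) := inferInstance
instance instEnHx {c D N : ℕ} : En (Hx c D N) := inferInstance
instance instDecSrc {c : ℕ} : DecidableEq (Src c) := inferInstance
instance instFinSrc {c : ℕ} : Fintype (Src c) := inferInstance
instance instEncSrc {c : ℕ} : Enc (Src c) := inferInstance
instance instInjSrc {c : ℕ} : EncInj (Src c) := inferInstance
instance instDecOp {c : ℕ} : DecidableEq (Op c) := inferInstance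
instance instFinOp {c : ℕ} : Fintype (Op c) := inferInstance
instance instEncOp {c : ℕ} : Enc (Op c) := inferInstance
instance instInjOp {c : ℕ} : EncInj (Op c) := inferInstance

/-- points -/
abbrev Pt (q m : ℕ) : Type := Vec (Fin (m + 1)) (ZMod q)

/-- contents of a slot -/
abbrev Zs (q n : ℕ) : Type := Vec (Fin n) (ZMod q)

/-- coefficient vectors -/
abbrev Yv (c D N r : ℕ) : Type := Vec (Hx c D N) (ZMod r)

/-- positions -/
abbrev Pos (q m c D N r : ℕ) : Type := Pt q m × Yv c D N r

/-- seeds: direction, shift `u`, second vector `y'`, translation, slot translation -/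
abbrev Seed (q m n Cw c D N r : ℕ) : Type :=
  (Fin Cw × Fin (m + 1)) × Yv c D N r × Yv c D N r × Pt q m × Zs q n

/-! ### Channels -/

/-- A term reads `D + 2` coordinates, applies a Boolean function and writes to a coordinate. -/
structure Term (D : ℕ) (I : Type) where
  /-- the coordinates which are read -/
  rd : Fin (D + 2) → I
  /-- the function -/
  fn : (Fin (D + 2) → Bool) → Bool
  /-- the coordinate of the result -/
  tg : I

section Terms

variable {c ℓ D : ℕ} {X : Type}

/-- constant term -/
def tConst (b : Bool) (k : Idx X ℓ) : Term D (Idx X ℓ) := ⟨fun _ => none, fun _ => b, k⟩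

/-- copy of the coordinate `i` to the coordinate `k` -/
def tCopy (i k : Idx X ℓ) : Term D (Idx X ℓ) := ⟨fun _ => i, fun y => y 0, k⟩

/-- the term `x k * (x 0 - x k)` -/
def tBool (k : Idx X ℓ) : Term D (Idx X ℓ) := ⟨fun _ => k, fun y => y 0 && !y 1, k⟩

/-- the term of a rule (negated if `ng`) -/
def tRule (ρ : Rule 0 D X Bool Bool) (ng : Bool) (k : Idx X ℓ) : Term D (Idx X ℓ) :=
  ⟨fun d => if h : (d : ℕ) < D then some (Sum.inl (ρ.rd ⟨d, h⟩).2) else none,
    fun y => xor ng (ρ.fn fun d => y (Fin.castAdd 2 d)), k⟩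

/-- the term number `k` of the channel -/
def term (M : LBL c ℓ D X) : Ch c → Idx X ℓ → Term D (Idx X ℓ)
  | .inl 0, k => tCopy k k
  | .inl 1, k => tBool k
  | .inl 2, none => tConst false none
  | .inl 2, some (.inl v) => tRule (M.val v) true (some (.inl v))
  | .inl 2, some (.inr i) => tCopy (some (.inr i)) (some (.inr i))
  | .inl 3, none => tConst true none
  | .inl 3, some (.inl v) => tRule (M.suc v) false (some (.inl v))
  | .inl 3, some (.inr i) => tConst false (some (.inr i))
  | .inl 4, none => tConst true none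
  | .inl 4, some (.inl v) => tRule (M.pre v) false (some (.inl v))
  | .inl 4, some (.inr i) => tConst false (some (.inr i))
  | .inl 5, none => tConst true none
  | .inl 5, some (.inl v) => tConst false (some (.inl v))
  | .inl 5, some (.inr i) => tCopy (some (.inl (M.out i))) (some (.inr i))
  | .inl 6, none => tCopy (some (.inl M.first)) none
  | .inl 6, some k => tConst false (some k)
  | .inl 7, none => tCopy (some (.inl M.last)) none
  | .inl 7, some k => tConst false (some k)
  | .inl 8, none => tConst true none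
  | .inl 8, some k => tConst false (some k)
  | .inl 9, none => tConst false none
  | .inl 9, some (.inl v) => tCopy (some (.inl v)) (some (.inl v))
  | .inl 9, some (.inr i) => tConst false (some (.inr i))
  | .inr _, none => tConst false none
  | .inr _, some (.inl v) => tConst false (some (.inl v))
  | .inr (false, j), some (.inr i) => tCopy (some (.inl (M.inp j i))) (some (.inl (M.inp j i)))
  | .inr (true, j), some (.inr i) => tCopy (some (.inr i)) (some (.inl (M.inp j i)))

variable {K : Type} [CommRing K]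

/-- the value of a term on a vector (homogeneous of degree `D + 2`) -/
def tval (x : Idx X ℓ → K) (T : Term D (Idx X ℓ)) : K :=
  ∑ y : Fin (D + 2) → Bool,
    if T.fn y then ∏ d, (if y d then x (T.rd d) else x none - x (T.rd d)) else 0

/-- the result of a channel -/
def Oc [Fintype X] [DecidableEq X] (M : LBL c ℓ D X) (ch : Ch c) (x : Idx X ℓ → K) :
    Idx X ℓ → K :=
  fun k => ∑ k', if (term M ch k').tg = k then tval x (term M ch k') else 0

/-- a bit in the ring -/
def bK (b : Bool) : K := if b then 1 else 0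

/-- the vector of a state -/
def hat (x : X → Bool) : Idx X ℓ → K
  | none => 1
  | some (.inl v) => bK (x v)
  | some (.inr _) => 0

/-- the vector of a symbol -/
def hatS (σ : Sym ℓ) : Idx X ℓ → K
  | none => 1
  | some (.inl _) => 0
  | some (.inr i) => bK (σ i)

/-- the vector of the input `j` at its input variables -/
def inpV [DecidableEq X] (M : LBL c ℓ D X) (j : Fin c) (σ : Sym ℓ) : Idx X ℓ → K :=
  fun k => ∑ i, if some (Sum.inl (M.inp j i)) = k then bK (σ i) else 0

/-- the successor state -/
def sucx (M : LBL c ℓ D X) (x : X → Bool) : X → Bool := fun v => (M.suc v).eval noInp x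

/-- the predecessor state -/
def prex (M : LBL c ℓ D X) (x : X → Bool) : X → Bool := fun v => (M.pre v).eval noInp x

/-- the output of a state -/
def outx (M : LBL c ℓ D X) (x : X → Bool) : Sym ℓ := fun i => x (M.out i)

end Terms

/-! ### The clock -/

section Clock

variable {c N : ℕ}

/-- the clock value with phase `ph` and counter `min j (N + 1)` -/
def mkCk (N : ℕ) (ph : Fin 5) (j : ℕ) : Ck N := (ph, ⟨min j (N + 1), by omega⟩)

/-- the number of the layers of the table `b` -/
def stage (b : Fin 2) : Option (Ck N) → ℕ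
  | none => 0
  | some (ph, j) =>
    if ph = 0 then (if b = 0 then j else 0)
    else if ph = 2 then (if b = 0 then j else N + 1)
    else if ph = 4 then (if b = 0 then 0 else N + 1)
    else (if b = 0 then N + 1 else j)

/-- the source of the table `b` in the phase `ph` -/
def src0 (c : ℕ) (b : Fin 2) (ph : Fin 5) : Src c :=
  if ph = 0 then none
  else if ph = 1 then some (0, .inl (if b = 0 then 0 else 3))
  else if ph = 2 then some (1, .inl (if b = 0 then 4 else 0))
  else if ph = 3 then some (0, .inl (if b = 0 then 0 else 5))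
  else some (1, .inl 0)

/-- the source of the table `b`; `none` if the table is empty -/
def src (c : ℕ) (b : Fin 2) (τ : Option (Ck N)) : Option (Src c) :=
  if stage b τ = 0 then none else τ.map fun τ => src0 c b τ.1

/-- The conditions on the results of the channels: `some false` the result is zero, `some true`
the result is the target. -/
def req (b : Fin 2) (ch : Ch c) : Option (Ck N) → Option Bool
  | none => none
  | some (ph, j) =>
    if ph = 0 ∨ (b = 0 ↔ (ph = 2 ∨ ph = 4)) then none
    else match ch with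
      | .inl 1 => some false
      | .inl 8 => some true
      | .inl 2 => if ph = 4 then none else some false
      | .inl 9 => if ph = 4 then some false else none
      | .inl 6 => if ph = 2 then some false else none
      | .inl 7 => if ph = 3 then some true else if ph = 1 ∧ (j : ℕ) ≠ 0 then some false else none
      | .inr (false, _) => if ph = 4 then none else some true
      | _ => none

/-- The allowed clock values: `md = false` for the line system, `md = true` for the symbols. -/
def allowed (md : Bool) : Option (Ck N) → Bool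
  | none => !md
  | some (ph, j) =>
    if md then decide (ph = 4 ∧ (j : ℕ) = 0)
    else decide (ph ≠ 4 ∧ ((ph = 0 ∨ ph = 3) → (j : ℕ) ≠ 0))

/-- the next clock value; `fl` is the flag `last` -/
def nxt (fl : Bool) : Option (Ck N) → Option (Ck N)
  | none => some (mkCk N 0 1)
  | some (ph, j) =>
    if ph = 0 then (if (j : ℕ) = N + 1 then some (mkCk N 1 0) else some (mkCk N 0 (j + 1)))
    else if ph = 1 then
      (if (j : ℕ) = 0 ∧ fl then some (mkCk N 3 1)
        else if (j : ℕ) = N + 1 then some (mkCk N 2 (N + 1)) else some (mkCk N 1 (j + 1)))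
    else if ph = 2 then (if (j : ℕ) = 0 then some (mkCk N 1 0) else some (mkCk N 2 (j - 1)))
    else some (mkCk N ph (j + 1))

/-- the previous clock value; `fl` is the flag `first` -/
def prv (fl : Bool) : Option (Ck N) → Option (Ck N)
  | none => none
  | some (ph, j) =>
    if ph = 0 then (if (j : ℕ) ≤ 1 then none else some (mkCk N 0 (j - 1)))
    else if ph = 1 then
      (if (j : ℕ) = 0 then (if fl then some (mkCk N 0 (N + 1)) else some (mkCk N 2 0))
        else some (mkCk N 1 (j - 1)))
    else if ph = 2 then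
      (if (j : ℕ) = N + 1 then some (mkCk N 1 (N + 1)) else some (mkCk N 2 (j + 1)))
    else if (j : ℕ) ≤ 1 then some (mkCk N 1 0) else some (mkCk N ph (j - 1))

/-- the operation of the successor on the table `b` -/
def opS (c : ℕ) (fl : Bool) (b : Fin 2) : Option (Ck N) → Op c
  | none => if b = 0 then .inr none else .inl 0
  | some (ph, j) =>
    if ph = 0 then (if b = 0 ∧ (j : ℕ) ≠ N + 1 then .inl 3 else .inl 0)
    else if ph = 2 then
      (if (j : ℕ) = 0 then .inl 2
        else if b = 0 then (if (j : ℕ) = 1 then .inl 1 else .inl 4) else .inl 0)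
    else if b = 0 ∨ (j : ℕ) = N + 1 then .inl 0
    else if (j : ℕ) = 0 then .inr (some (0, .inl (if fl then 5 else 3)))
    else .inl 3

/-- the operation of the predecessor on the table `b` -/
def opP (c : ℕ) (fl : Bool) (b : Fin 2) : Option (Ck N) → Op c
  | none => .inl 0
  | some (ph, j) =>
    if ph = 0 then (if b = 0 then (if (j : ℕ) ≤ 1 then .inl 1 else .inl 4) else .inl 0)
    else if ph = 2 then
      (if b = 1 ∨ (j : ℕ) = N + 1 then .inl 0
        else if (j : ℕ) = 0 then .inr (some (1, .inl 4)) else .inl 3)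
    else if (j : ℕ) = 0 then (if fl then .inl 0 else .inl 2)
    else if b = 0 then .inl 0
    else if (j : ℕ) = 1 then .inl 1 else .inl 4

/-- the neighbour clock value in the direction `dr` (`true`: successor) -/
def nx (dr fl : Bool) (τ : Option (Ck N)) : Option (Ck N) := if dr then nxt fl τ else prv fl τ

/-- the operation in the direction `dr` -/
def opD (c : ℕ) (dr fl : Bool) (b : Fin 2) (τ : Option (Ck N)) : Op c :=
  if dr then opS c fl b τ else opP c fl b τ

end Clock

/-! ### Coefficient vectors -/

section Coef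

variable {c D N r : ℕ}

/-- the coefficient of the layer `l` of the channel `ch` of the table `b` (zero if there is no
such layer) -/
def cf (y : Yv c D N r) (b : Fin 2) (ch : Ch c) (l : ℕ) : ZMod r :=
  if h : l < N + 1 then y (.inl (b, .inl (ch, ⟨l, h⟩))) else 0

/-- the vector with layers `f`, factors `g` in the table `b`, and clock part `k` -/
def mkY (b : Fin 2) (f : Ch c → ℕ → ZMod r) (g : Fin (D + 2) → ZMod r) (k : Ck N → ZMod r) :
    Yv c D N r
  | .inl (b', .inl (ch, l)) => if b' = b then f ch l else 0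
  | .inl (b', .inr d) => if b' = b then g d else 0
  | .inr τ => k τ

/-- the vector with only a clock part -/
def ckY (k : Ck N → ZMod r) : Yv c D N r := mkY 0 (fun _ _ => 0) (fun _ => 0) k

/-- the coefficients of the factors -/
def cF (y : Yv c D N r) (b : Fin 2) (d : Fin (D + 2)) : ZMod r := y (.inl (b, .inr d))

/-- the coefficient of the layer below -/
def cDn (y : Yv c D N r) (b : Fin 2) (ch : Ch c) (l : ℕ) : ZMod r :=
  if l = 0 then 0 else cf y b ch (l - 1)

/-- the coordinate of the factor `d` of the table `b` -/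
def hF (b : Fin 2) (d : Fin (D + 2)) : Hx c D N := .inl (b, .inr d)

/-- the coordinate of the result of the channel `ch` of the table `b` -/
def hV (b : Fin 2) (ch : Ch c) : Hx c D N := .inl (b, .inl (ch, 0))

end Coef

/-! ### Probes -/

/-- functions of the clock which are read -/
inductive CI (c : ℕ) where
  | alw (md : Bool)
  | src (b : Fin 2) (sr : Src c)
  | top (b : Fin 2) (ch : Ch c)
  | req (b : Fin 2) (ch : Ch c) (β : Bool)
  | op (dr fl : Bool) (b : Fin 2) (o : Op c)
  | nx (dr fl : Bool)

instance {c : ℕ} : Fintype (CI c) := derive_fintype% _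

/-- linear forms which are read at the point itself -/
inductive LI (c D : ℕ) where
  | ck0
  | ck1
  | ck2
  | regs (b : Fin 2)
  | blk (b : Fin 2)
  | swp (b : Fin 2)
  | upA (b : Fin 2)
  | dn (b : Fin 2)
  | F (b : Fin 2) (d : Fin (D + 2))
  | V (b : Fin 2) (ch : Ch c)

instance {c D : ℕ} : Fintype (LI c D) := derive_fintype% _

/-- the probes -/
inductive RI (q c D : ℕ) where
  | ck (i : CI c)
  | lin (i : LI c D)
  | far
  | av (t : ZMod q) (b : Fin 2) (β : Bool)
  | zi (b : Fin 2) (d : Fin (D + 2))
  | sv (d : Fin (D + 2)) (b : Fin 2) (ch : Ch c)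
  | inP (j : Fin c)
  | inS (j : Fin c) (d : Fin (D + 2))

instance {q c D : ℕ} [NeZero q] : Fintype (RI q c D) := derive_fintype% _

/-- the direct reads: linearity test, line test, correction -/
inductive RR (q : ℕ) where
  | bl (i : Fin 3)
  | line (t : ZMod q)
  | cor (t : ZMod q) (β : Bool)

instance {q : ℕ} [NeZero q] : Fintype (RR q) := derive_fintype% _

/-- the equations of the test -/
inductive EI (c D : ℕ) where
  | const
  | mul
  | alw
  | F (b : Fin 2) (d : Fin (D + 2))
  | zinv (b : Fin 2) (d : Fin (D + 2))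
  | rc (b : Fin 2)
  | chk (b : Fin 2) (ch : Ch c) (β : Bool)

instance {c D : ℕ} : Fintype (EI c D) := derive_fintype% _

/-- the number of the reads of a rule -/
def kk (q c D : ℕ) [NeZero q] : ℕ := Fintype.card (RR q ⊕ RI q c D × Bool)

/-- numbering of the reads -/
def rdE (q c D : ℕ) [NeZero q] : RR q ⊕ RI q c D × Bool ≃ Fin (kk q c D) := Fintype.equivFin _

/-- the input word which a probe reads -/
def RI.inp {q c D : ℕ} : RI q c D → Option (Fin c)
  | .inP j => some j
  | .inS j _ => some j
  | _ => none

section Vectors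

variable {q c D N r : ℕ}

/-- the function of the clock of a clock probe -/
def cv (y : Yv c D N r) : CI c → Option (Ck N) → ZMod r
  | .alw md, τ => bK (!allowed md τ)
  | .src b sr, τ => if src c b τ = some sr then 1 else 0
  | .top b ch, τ => cDn y b ch (stage b τ)
  | .req b ch β, τ => if req b ch τ = some β then 1 else 0
  | .op dr fl b o, τ => if opD c dr fl b τ = o then 1 else 0
  | .nx dr fl, τ => (nx dr fl τ).elim 0 fun τ' => y (.inr τ')

/-- the linear forms at the point -/
def lv (y y' : Yv c D N r) : LI c D → Yv c D N r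
  | .ck0 => ckY fun τ => y (.inr τ)
  | .ck1 => ckY fun τ => y' (.inr τ)
  | .ck2 => ckY fun τ => y (.inr τ) * y' (.inr τ)
  | .regs b => mkY b (cf y b) (fun _ => 0) fun _ => 0
  | .blk b => mkY b (cf y b) (cF y b) fun _ => 0
  | .swp b => mkY (b + 1) (cf y b) (cF y b) fun _ => 0
  | .upA b => mkY b (fun ch l => cf y b ch (l + 1)) (cF y b) fun _ => 0
  | .dn b => mkY b (cDn y b) (cF y b) fun _ => 0
  | .F b d => unitV (hF b d)
  | .V b ch => unitV (hV b ch)

/-- the coefficient vector of a probe -/
def co (y y' : Yv c D N r) : RI q c D → Yv c D N r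
  | .ck i => ckY fun τ => cv y i (some τ) - cv y i none
  | .lin i => lv y y' i
  | .far => ckY fun τ => y (.inr τ)
  | .av _ b false => mkY b (cDn y b) (fun _ => 0) fun _ => 0
  | .av _ b true => mkY b (fun ch l => if l = 0 then cf y b ch 0 else 0) (fun _ => 0) fun _ => 0
  | .zi b d => unitV (hF b d)
  | .sv _ b ch => unitV (hV b ch)
  | .inP j => unitV (hV 1 (.inr (true, j)))
  | .inS j _ => unitV (hV 1 (.inr (true, j)))

/-- the value of a function of the clock -/
def Hc (y : Yv c D N r) (v : RI q c D → ZMod r) (i : CI c) : ZMod r := cv y i none + v (.ck i)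

end Vectors

/-! ### Geometry: characters, kernels, tables -/

section Tables

variable {q r m n Cw c ℓ D : ℕ} {X : Type} [NeZero q] [Fact r.Prime]
  (ψ : AddChar (ZMod q) (ZMod r)) (Γ : Geo q m n Cw (Idx X ℓ)) (M : LBL c ℓ D X)

/-- the characters -/
def chi (k : Idx X ℓ) (z : Zs q n) : ZMod r := ψ (∑ i, Γ.al k i * z i)

/-- the inverse characters -/
def chib (k : Idx X ℓ) (z : Zs q n) : ZMod r := ψ (-∑ i, Γ.al k i * z i)

/-- the function with the spectrum `x` -/
def encv [Fintype X] (x : Idx X ℓ → ZMod r) (z : Zs q n) : ZMod r := ∑ k, x k * chi ψ Γ k z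

/-- the Fourier coefficients -/
def coef (f : Zs q n → ZMod r) (k : Idx X ℓ) : ZMod r :=
  ((q : ZMod r) ^ n)⁻¹ * ∑ z, f z * chib ψ Γ k z

/-- the factors of the kernel -/
def phi (i : Idx X ℓ) (b : Bool) (z : Zs q n) : ZMod r :=
  if b then chib ψ Γ i z else chib ψ Γ none z - chib ψ Γ i z

/-- the kernel of a channel -/
def kap [Fintype X] (ch : Ch c) (p : Pt q m) : ZMod r :=
  ∑ k, ∑ y : Fin (D + 2) → Bool,
    if (term M ch k).fn y then
      (∏ d, phi ψ Γ ((term M ch k).rd d) (y d) (slot n d p)) *
        chi ψ Γ (term M ch k).tg (slot n (D + 2) p)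
    else 0

/-- the map `σ ^ (-N)` -/
def sgI (D : ℕ) (p : Pt q m) : Pt q m := (compInv Γ.a)^[(D + 2) * n] p

/-- the map `σ ^ N` -/
def sgN (D : ℕ) (p : Pt q m) : Pt q m := (comp Γ.a)^[(D + 2) * n] p

/-- the points of the average -/
def avP (D : ℕ) (p : Pt q m) (t : ZMod q) : Pt q m := comp Γ.a p + t • sgN Γ D (unitV 0)

/-- the point whose last slot is the slot `d` of `σ ^ (-N) p` -/
def piD (D : ℕ) (d : ℕ) (p : Pt q m) : Pt q m := swapSlot n d (D + 2) (sgI Γ D p)

/-- translation in the last slot -/
def ziP (D : ℕ) (p : Pt q m) (z : Zs q n) : Pt q m := p + sgN Γ D (inSlot m (D + 2) z)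

/-- the average along one line -/
def Aop (D : ℕ) (f : Pt q m → ZMod r) : Pt q m → ZMod r :=
  fun p => (q : ZMod r)⁻¹ * ∑ t, f (avP Γ D p t)

/-- the top layer for given factors -/
def topF [Fintype X] (F : Fin (D + 2) → Pt q m → ZMod r) (ch : Ch c) : Pt q m → ZMod r :=
  fun p => kap ψ Γ M ch (sgI Γ D p) * ∏ d, F d p

/-- the factors of the vector `x` -/
def facs [Fintype X] (D : ℕ) (x : Idx X ℓ → ZMod r) (d : Fin (D + 2)) : Pt q m → ZMod r :=
  fun p => encv ψ Γ x (slot n d (sgI Γ D p))

/-- the table of the vector `x` with `j` layers -/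
def Tab [Fintype X] (x : Idx X ℓ → ZMod r) (j : ℕ) (p : Pt q m) : TI c D ((D + 2) * n) → ZMod r
  | .inl (ch, l) =>
    if (l : ℕ) < j then (Aop Γ D)^[j - 1 - l] (topF ψ Γ M (facs ψ Γ D x) ch) p else 0
  | .inr d => if j = 0 then 0 else facs ψ Γ D x d p

/-- two tables and the clock -/
def tabs [Fintype X] (τ : Option (Ck ((D + 2) * n))) (x : Fin 2 → Idx X ℓ → ZMod r) (p : Pt q m) :
    Hx c D ((D + 2) * n) → ZMod r
  | .inl (b, i) => Tab ψ Γ M (x b) (stage b τ) p i
  | .inr τ' => if τ = some τ' then 1 else 0

/-- the vectors of the two tables in the state with clock `τ` and assignment `x` -/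
def vecs (τ : Option (Ck ((D + 2) * n))) (x : X → Bool) (b : Fin 2) : Idx X ℓ → ZMod r :=
  match τ with
  | none => hat x
  | some (ph, _) =>
    if ph = 2 then (if b = 0 then hat (prex M x) else hat x)
    else if b = 0 then hat x
    else if ph = 3 then hatS (outx M x) else hat (sucx M x)

/-- the tables of a state -/
def gS [Fintype X] (τ : Option (Ck ((D + 2) * n))) (x : X → Bool) :
    Pt q m → Hx c D ((D + 2) * n) → ZMod r :=
  tabs ψ Γ M τ (vecs M τ x)

/-- the tables of a symbol -/
def gSym [Fintype X] (σ : Sym ℓ) : Pt q m → Hx c D ((D + 2) * n) → ZMod r :=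
  tabs ψ Γ M (some (mkCk _ 4 0)) fun _ => hatS σ

/-- the logical states of the line system -/
def LSt (σ : Fin c → Sym ℓ) (τ : Option (Ck ((D + 2) * n))) (x : X → Bool) : Prop :=
  allowed false τ = true ∧ M.Valid σ x ∧
    match τ with
    | none => x = M.start σ
    | some (ph, j) =>
      (ph = 0 → x = M.start σ) ∧ (ph = 1 → (j : ℕ) ≠ 0 → x M.last = false) ∧
        (ph = 2 → x M.first = false) ∧ (ph = 3 → x M.last = true)

/-- the function which is read from the input `j` -/
def inpF [Fintype X] [DecidableEq X] (σ : Fin c → Sym ℓ) (j : Fin c) (p : Pt q m) : ZMod r :=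
  encv ψ Γ (inpV M j (σ j)) (slot n (D + 2) p)

/-! ### Ideal rules -/

/-- the point of a probe -/
def pt (p : Pt q m) (δ : Pt q m) (z : Zs q n) : RI q c D → Pt q m
  | .ck _ => p
  | .lin _ => p
  | .far => p + δ
  | .av t _ _ => avP Γ D p t
  | .zi _ _ => ziP Γ D p z
  | .sv d _ _ => piD Γ D d p
  | .inP _ => p
  | .inS _ d => piD Γ D d p

/-- the ideal values of the probes for the tables `g` and the input functions `ι` -/
def iv (g : Pt q m → Hx c D ((D + 2) * n) → ZMod r) (ι : Fin c → Pt q m → ZMod r)
    (x : Pos q m c D ((D + 2) * n) r) (s : Seed q m n Cw c D ((D + 2) * n) r) (i : RI q c D) :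
    ZMod r :=
  (i.inp).elim (word g (pt Γ x.1 s.2.2.2.1 s.2.2.2.2 i, co x.2 s.2.2.1 i))
    fun j => ι j (pt Γ x.1 s.2.2.2.1 s.2.2.2.2 i)

/-- the value of a source at the point `piD d p` -/
def svv (p : Pt q m) (v : RI q c D → ZMod r) (d : Fin (D + 2)) : Src c → ZMod r
  | none => chi ψ Γ none (slot n (D + 2) (piD Γ D d p)) +
      chi ψ Γ (some (.inl M.first)) (slot n (D + 2) (piD Γ D d p)) + ∑ j, v (.inS j d)
  | some (b, ch) => v (.sv d b ch)

/-- the targets of the conditions -/
def tgt (p : Pt q m) (v : RI q c D → ZMod r) : Ch c → ZMod r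
  | .inl _ => chi ψ Γ none (slot n (D + 2) p)
  | .inr (_, j) => v (.inP j)

/-- the equations of the test: these values have to be zero -/
def eqn [Fintype X] (md : Bool) (x : Pos q m c D ((D + 2) * n) r) (v : RI q c D → ZMod r) :
    EI c D → ZMod r
  | .const => v (.lin .ck0) - v .far
  | .mul => v (.lin .ck0) * v (.lin .ck1) - v (.lin .ck2)
  | .alw => Hc x.2 v (.alw md)
  | .F b d => v (.lin (.F b d)) - ∑ sr, Hc x.2 v (.src b sr) * svv ψ Γ M x.1 v d sr
  | .zinv b d => v (.lin (.F b d)) - v (.zi b d)
  | .rc b => v (.lin (.regs b)) - (q : ZMod r)⁻¹ * ∑ t, v (.av t b false) -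
      (∑ ch, Hc x.2 v (.top b ch) * kap ψ Γ M ch (sgI Γ D x.1)) * ∏ d, v (.lin (.F b d))
  | .chk b ch β =>
      Hc x.2 v (.req b ch β) * (v (.lin (.V b ch)) - if β then tgt ψ Γ x.1 v ch else 0)

/-- the value of the new table `b` for an operation -/
def opv [Fintype X] (x : Pos q m c D ((D + 2) * n) r) (v : RI q c D → ZMod r) (b : Fin 2) :
    Op c → ZMod r
  | .inl 0 => v (.lin (.blk b))
  | .inl 1 => 0
  | .inl 2 => v (.lin (.swp b))
  | .inl 3 => v (.lin (.upA b)) + (q : ZMod r)⁻¹ * ∑ t, v (.av t b true)
  | .inl 4 => v (.lin (.dn b))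
  | .inr sr => ∑ d, cF x.2 b d * svv ψ Γ M x.1 v d sr +
      (∑ ch, cf x.2 b ch 0 * kap ψ Γ M ch (sgI Γ D x.1)) * ∏ d, svv ψ Γ M x.1 v d sr

/-- the flag which is used in the direction `dr` -/
def flag (dr : Bool) (v : RI q c D → ZMod r) : Bool :=
  decide (v (.lin (.V 0 (.inl (if dr then 7 else 6)))) ≠ 0)

/-- the value of the successor (`dr = true`) or predecessor -/
def stepv [Fintype X] (dr : Bool) (x : Pos q m c D ((D + 2) * n) r) (v : RI q c D → ZMod r) :
    ZMod r :=
  (∑ b, ∑ o, Hc x.2 v (.op dr (flag dr v) b o) * opv ψ Γ M x v b o) +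
    Hc x.2 v (.nx dr (flag dr v))

/-- the value of the output -/
def outv (x : Pos q m c D ((D + 2) * n) r) (v : RI q c D → ZMod r) : ZMod r :=
  v (.lin (.blk 1)) + x.2 (.inr (mkCk _ 4 0))

/-! ### The rules -/

/-- the positions of the direct reads -/
def rawP (x : Pos q m c D ((D + 2) * n) r) (s : Seed q m n Cw c D ((D + 2) * n) r) :
    RR q → Pos q m c D ((D + 2) * n) r
  | .bl 0 => x
  | .bl 1 => (x.1, s.2.2.1)
  | .bl 2 => (x.1, x.2 + s.2.2.1)
  | .line t => (x.1 + t • Γ.dir (D + 2) s.1, x.2)
  | .cor t β => (x.1 + t • Γ.dir (D + 2) s.1, if β then x.2 + s.2.1 else s.2.1)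

/-- the positions of all reads -/
def rdP (x : Pos q m c D ((D + 2) * n) r) (s : Seed q m n Cw c D ((D + 2) * n) r) :
    RR q ⊕ RI q c D × Bool → Pos q m c D ((D + 2) * n) r
  | .inl i => rawP Γ x s i
  | .inr (i, β) =>
    (pt Γ x.1 s.2.2.2.1 s.2.2.2.2 i, if β then co x.2 s.2.2.1 i + s.2.1 else s.2.1)

/-- The rule with the common reads; `sr` gives the word which a probe reads. -/
def mkRule {c' : ℕ} {B : Type} (sr : RI q c D → Option (Fin c'))
    (F : (RR q → ZMod r) → (RI q c D → ZMod r) → B)
    (x : Pos q m c D ((D + 2) * n) r) (s : Seed q m n Cw c D ((D + 2) * n) r) :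
    Rule c' (kk q c D) (Pos q m c D ((D + 2) * n) r) (ZMod r) B where
  rd j := (((rdE q c D).symm j).elim (fun _ => none) (fun i => sr i.1),
    rdP Γ x s ((rdE q c D).symm j))
  fn w := F (fun i => w (rdE q c D (.inl i)))
    fun i => w (rdE q c D (.inr (i, true))) - w (rdE q c D (.inr (i, false)))

/-- the values with zero for the input probes -/
def noIn (v : RI q c D → ZMod r) : RI q c D → ZMod r := fun i => (i.inp).elim (v i) fun _ => 0

open Classical in
/-- the test -/
def tstF [Fintype X] (s1 : ℕ) (md : Bool) (x : Pos q m c D ((D + 2) * n) r) (w : RR q → ZMod r)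
    (v : RI q c D → ZMod r) : Bool :=
  decide (w (.bl 2) = w (.bl 0) + w (.bl 1) ∧ LineCode ψ s1 (fun t => w (.line t)) ∧
    ∀ e, eqn ψ Γ M md x v e = 0)

/-- the correction rule -/
def corR (c : ℕ) (D : ℕ) (s1 : ℕ) (x : Pos q m c D ((D + 2) * n) r)
    (s : Seed q m n Cw c D ((D + 2) * n) r) :
    Rule 0 (kk q c D) (Pos q m c D ((D + 2) * n) r) (ZMod r) (ZMod r) :=
  mkRule Γ (fun _ => none) (fun w _ => dec0 ψ s1 fun t => w (.cor t true) - w (.cor t false)) x s

/-- the line system -/
def sysL [Fintype X] (s1 : ℕ) : LRLS c (kk q c D) (Pos q m c D ((D + 2) * n) r)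
    (Seed q m n Cw c D ((D + 2) * n) r) (ZMod r) where
  tst x s := mkRule Γ RI.inp (tstF ψ Γ M s1 false x) x s
  cor := corR ψ Γ c D s1
  suc x s := mkRule Γ RI.inp (fun _ v => stepv ψ Γ M true x v) x s
  pre x s := mkRule Γ RI.inp (fun _ v => stepv ψ Γ M false x v) x s
  out x s := mkRule Γ RI.inp (fun _ v => outv x v) x s
  st _ := 0

/-- the code of the symbols -/
def codeE [Fintype X] (s1 : ℕ) : LCode 0 (kk q c D) (Pos q m c D ((D + 2) * n) r)
    (Seed q m n Cw c D ((D + 2) * n) r) (ZMod r) where
  tst x s := mkRule Γ (fun _ => none) (fun w v => tstF ψ Γ M s1 true x w (noIn v)) x s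
  cor := corR ψ Γ c D s1

/-- the word of a symbol -/
def symW [Fintype X] (σ : Sym ℓ) : Pos q m c D ((D + 2) * n) r → ZMod r := word (gSym ψ Γ M σ)

/-- the spectrum of the channel id of the table `b` of a word -/
def spec (W : Pos q m c D ((D + 2) * n) r → ZMod r) (b : Fin 2) (k : Idx X ℓ) : ZMod r :=
  coef ψ Γ (fun z => W (inSlot m (D + 2) z, unitV (hV b (.inl 0)))) k

/-- decoding of the state -/
def decL (W : Vec (Pos q m c D ((D + 2) * n) r) (ZMod r)) : Vec X Bool := fun v =>
  decide (spec ψ Γ W (if W (0, ckY fun τ => if τ.1 = 2 then 1 else 0) = 1 then 1 else 0)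
    (some (.inl v)) = 1)

/-- decoding of the symbol -/
def decS (W : Vec (Pos q m c D ((D + 2) * n) r) (ZMod r)) : Sym ℓ := fun i =>
  decide (spec ψ Γ W 1 (some (.inr i)) = 1)

/-! ### Consistent tables -/

/-- the function of a source -/
def srcF (g : Pt q m → Hx c D ((D + 2) * n) → ZMod r) (ι : Fin c → Pt q m → ZMod r) :
    Option (Src c) → Pt q m → ZMod r
  | none, _ => 0
  | some none, p => chi ψ Γ none (slot n (D + 2) p) +
      chi ψ Γ (some (.inl M.first)) (slot n (D + 2) p) + ∑ j, ι j p
  | some (some (b, ch)), p => g p (hV b ch)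

/-- the layer `l` of a channel (zero if there is no such layer) -/
def lay (g : Pt q m → Hx c D ((D + 2) * n) → ZMod r) (b : Fin 2) (ch : Ch c) (l : ℕ) :
    Pt q m → ZMod r :=
  fun p => if h : l < (D + 2) * n + 1 then g p (.inl (b, .inl (ch, ⟨l, h⟩))) else 0

/-- The clock part is the indicator of `τ`, the factors do not depend on the last slot and the
layers satisfy the recurrence. -/
structure Cons0 [Fintype X] (τ : Option (Ck ((D + 2) * n)))
    (g : Pt q m → Hx c D ((D + 2) * n) → ZMod r) : Prop where
  clock : ∀ p τ', g p (.inr τ') = if τ = some τ' then 1 else 0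
  zinv : ∀ b d p z, g (ziP Γ D p z) (hF b d) = g p (hF b d)
  rc : ∀ b ch l p, l < (D + 2) * n + 1 → lay g b ch l p = Aop Γ D (lay g b ch (l + 1)) p +
    if l + 1 = stage b τ then topF ψ Γ M (fun d p => g p (hF b d)) ch p else 0

/-- All equations hold. -/
structure Cons [Fintype X] (ι : Fin c → Pt q m → ZMod r) (τ : Option (Ck ((D + 2) * n)))
    (g : Pt q m → Hx c D ((D + 2) * n) → ZMod r) : Prop extends Cons0 ψ Γ M τ g where
  fac : ∀ b (d : Fin (D + 2)) p, g p (hF b d) = srcF ψ Γ M g ι (src c b τ) (piD Γ D d p)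
  chk0 : ∀ b ch p, req b ch τ = some false → g p (hV b ch) = 0
  chk1 : ∀ b ch p, req b ch τ = some true →
    g p (hV b ch) = ch.elim (fun _ => chi ψ Γ none (slot n (D + 2) p)) fun j => ι j.2 p

end Tables

end

end Vale.Agent.P330.Bohr
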