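import Vale.Agent.P330.Bohr.GeoMath
import Vale.Agent.P330.Bohr.CompPT
import Vale.Agent.P330.TC

/-!
P330, inner system: the geometry is found in polynomial time by exhaustive search.
-/

namespace Vale.Agent.P330.Bohr

open Vale.Agent.Lib.PolyTime hiding C P
open Vale.Agent.Lib.Dep
open Finset

namespace GeoP

/-! ### Digits -/

/-- the digit number `k` of `N` in base `q` -/
def dig (q N k : ℕ) : ZMod q := ((N / q ^ k : ℕ) : ZMod q)

theorem dig_succ (q N k : ℕ) : dig q N (k + 1) = dig q (N / q) k := by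
  rw [dig, dig, Nat.div_div_eq_div_mul, ← pow_succ']

theorem dig_zero (q N : ℕ) : dig q N 0 = (N : ZMod q) := by simp [dig]

theorem exists_dig {q : ℕ} [NeZero q] (l : ℕ) (z : ℕ → ZMod q) :
    ∃ N < q ^ l, ∀ k < l, dig q N k = z k := by
  have hq : 0 < q := Nat.pos_of_ne_zero (NeZero.ne q)
  induction l generalizing z with
  | zero => exact ⟨0, by simp, by simp⟩
  | succ l ih =>
    obtain ⟨N, hN, h⟩ := ih fun k => z (k + 1)
    have h0 := ZMod.val_lt (z 0)
    refine ⟨(z 0).val + q * N, ?_, fun k hk => ?_⟩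
    · have h1 : q * (N + 1) ≤ q * q ^ l := Nat.mul_le_mul_left _ hN
      rw [pow_succ']
      nlinarith
    · cases k with
      | zero => simp [dig_zero]
      | succ k =>
        rw [dig_succ, Nat.add_mul_div_left _ _ hq, Nat.div_eq_of_lt h0, zero_add]
        exact h k (by omega)

theorem dig_inj {q : ℕ} [NeZero q] (l : ℕ) {N N' : ℕ} (hN : N < q ^ l) (hN' : N' < q ^ l)
    (h : ∀ k < l, dig q N k = dig q N' k) : N = N' := by
  have hq : 0 < q := Nat.pos_of_ne_zero (NeZero.ne q)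
  induction l generalizing N N' with
  | zero => simp at hN hN'; omega
  | succ l ih =>
    have h1 : N / q = N' / q :=
      ih ((Nat.div_lt_iff_lt_mul hq).2 (by rwa [← pow_succ]))
        ((Nat.div_lt_iff_lt_mul hq).2 (by rwa [← pow_succ]))
        fun k hk => by rw [← dig_succ, ← dig_succ, h _ (by omega)]
    have h2 : N % q = N' % q := by
      have h3 := h 0 (Nat.succ_pos l)
      rw [dig_zero, dig_zero] at h3
      exact (ZMod.natCast_eq_natCast_iff' _ _ _).1 h3
    rw [← Nat.div_add_mod N q, ← Nat.div_add_mod N' q, h1, h2]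

/-- the block number `e` of `n` digits -/
def blk (q n N e : ℕ) : Vec (Fin n) (ZMod q) := fun i => dig q N (e * n + i)

theorem exists_blk {q : ℕ} [NeZero q] {n : ℕ} (l : ℕ) (z : ℕ → Vec (Fin n) (ZMod q)) :
    ∃ N < q ^ (l * n), ∀ e < l, blk q n N e = z e := by
  obtain ⟨N, hN, h⟩ := exists_dig (l * n) fun k => vget (z (k / n)) (k % n) 0
  refine ⟨N, hN, fun e he => funext fun i => ?_⟩
  have hn : 0 < n := i.pos
  have h1 : (e * n + i) / n = e := by
    rw [add_comm, Nat.add_mul_div_right _ _ hn, Nat.div_eq_of_lt i.2, zero_add]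
  have h2 : (e * n + i) % n = i := by
    rw [add_comm, Nat.add_mul_mod_self_right, Nat.mod_eq_of_lt i.2]
  have h3 : e * n + i < l * n := by
    have h4 : (e + 1) * n ≤ l * n := Nat.mul_le_mul_right _ he
    have h5 := i.2
    nlinarith
  rw [blk, h _ h3, h1, h2, vget_val]

theorem exists_blk0 {q : ℕ} [NeZero q] {n : ℕ} (c : Vec (Fin n) (ZMod q)) :
    ∃ N < q ^ n, blk q n N 0 = c := by
  obtain ⟨N, hN, h⟩ := exists_blk 1 fun _ => c
  exact ⟨N, by simpa using hN, h 0 one_pos⟩

theorem blk_inj {q : ℕ} [NeZero q] {n N N' : ℕ} (hN : N < q ^ n) (hN' : N' < q ^ n)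
    (h : blk q n N 0 = blk q n N' 0) : N = N' :=
  dig_inj n hN hN' fun k hk => by simpa [blk] using congrFun h ⟨k, hk⟩

variable {α : Type} [Enc α]

@[fun_prop]
theorem dpt_blk {q : ℕ} [NeZero q] {n N e : α → ℕ} (hn : DPT n) (hb : PBd n) (hN : DPT N)
    (he : DPT e) (heb : PBd e) : DPT fun a => blk q (n a) (N a) (e a) := by
  have h1 : PBd fun x : Σ a, Fin (n a) => e x.1 * n x.1 + x.2 :=
    PBd.add (by fun_prop) (fv_pbd_val (n := fun x : Σ a, Fin (n a) => n x.1) (by fun_prop))
  have h2 : DPT fun x : Σ a, Fin (n a) => N x.1 / q ^ (e x.1 * n x.1 + x.2) :=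
    DPT.natDiv (by fun_prop) (DPT.natPow (by fun_prop) (by fun_prop) h1)
  exact fv_mk hn hb (DPT.natCast ptRing_zc h2)

/-! ### The search for the companion vector and the directions -/

/-- the number of zeros as an iterated sum -/
def zcN (q m Cw M N c : ℕ) : ℕ :=
  ∑ j ∈ range Cw, ∑ i ∈ range (m + 1),
    if dotL (blk q (m + 1) c 0) ((comp (blk q (m + 1) N 0))^[M + i] (blk q (m + 1) N (j + 1))) = 0
    then 1 else 0

theorem zcN_eq (q m Cw M N c : ℕ) : zcN q m Cw M N c =
    zc M (blk q (m + 1) N 0) (fun j : Fin Cw => blk q (m + 1) N (j + 1)) (blk q (m + 1) c 0) := by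
  rw [zc, card_filter, Fintype.sum_prod_type, zcN, ← Fin.sum_univ_eq_sum_range
    (fun j => ∑ i ∈ range (m + 1), if dotL (blk q (m + 1) c 0)
      ((comp (blk q (m + 1) N 0))^[M + i] (blk q (m + 1) N (j + 1))) = 0 then 1 else 0)]
  exact sum_congr rfl fun j _ => (Fin.sum_univ_eq_sum_range (fun i =>
    if dotL (blk q (m + 1) c 0)
      ((comp (blk q (m + 1) N 0))^[M + i] (blk q (m + 1) N (j + 1))) = 0 then 1 else 0) _).symm

/-- The number `N` codes a good companion vector and good directions. -/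
def GoodN (q m Cw M N : ℕ) : Prop :=
  dig q N 0 ≠ 0 ∧ ∀ c ∈ List.range (q ^ (m + 1)),
    blk q (m + 1) c 0 = 0 ∨ zcN q m Cw M N c ≤ 2 * (m + 1)

open Classical in
/-- the first good number -/
noncomputable def best (q m Cw M : ℕ) : ℕ :=
  ((List.range (q ^ ((Cw + 1) * (m + 1)))).find? fun N => decide (GoodN q m Cw M N)).getD 0

theorem good_best {q m Cw : ℕ} [Fact q.Prime] (hm : 1 ≤ m) (hq : 2 ^ Cw < q) (M : ℕ) :
    GoodN q m Cw M (best q m Cw M) := by
  classical
  obtain ⟨a, ha⟩ := exists_cyc q m hm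
  obtain ⟨w, hw⟩ := exists_dirs hq M ha
  obtain ⟨N, hN, h⟩ := exists_blk (Cw + 1) fun e =>
    if e = 0 then a else if h : e - 1 < Cw then w ⟨e - 1, h⟩ else 0
  have h0 : blk q (m + 1) N 0 = a := by rw [h 0 (Nat.succ_pos _), if_pos rfl]
  have h1 : (fun j : Fin Cw => blk q (m + 1) N (j + 1)) = w := funext fun j => by
    rw [h _ (Nat.succ_lt_succ j.2), if_neg (Nat.succ_ne_zero _), dif_pos (by simp)]
    rfl
  have hg : GoodN q m Cw M N := by
    refine ⟨?_, fun c _ => ?_⟩
    · have h2 := ha.1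
      rw [← h0] at h2
      simpa [blk] using h2
    · rw [zcN_eq, h0, h1, or_iff_not_imp_left]
      exact hw _
  unfold best
  cases hf : (List.range (q ^ ((Cw + 1) * (m + 1)))).find? fun N => decide (GoodN q m Cw M N) with
  | none => exact absurd (decide_eq_true hg) (List.find?_eq_none.1 hf N (List.mem_range.2 hN))
  | some N' => exact of_decide_eq_true (List.find?_some (p := fun N => decide (GoodN q m Cw M N)) hf)

theorem dpt_zcN {q : ℕ} [NeZero q] (Cw : ℕ) {m M N c : α → ℕ} (hm : DPT m) (hb : PBd m)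
    (hM : DPT M) (hMb : PBd M) (hN : DPT N) (hc : DPT c) :
    DPT fun a => zcN q (m a) Cw (M a) (N a) (c a) := by
  refine DPT.natSum_range (DPT.const Cw) (PBd.const Cw) ?_
  refine DPT.natSum_range (by fun_prop) (by fun_prop) ?_
  refine DPT.ite (DPr.eq (fv_dot (by fun_prop) (fv_compIter ?_ ?_ ?_ ?_)) (DPT.const 0))
    (DPT.const 1) (DPT.const 0) <;> fun_prop

theorem dpr_goodN {q : ℕ} [NeZero q] (Cw : ℕ) {m M N : α → ℕ} (hm : DPT m) (hb : PBd m)
    (hq : PBd fun a => q ^ (m a + 1)) (hM : DPT M) (hMb : PBd M) (hN : DPT N) :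
    DPr fun a => GoodN q (m a) Cw (M a) (N a) := by
  refine DPr.and (DPr.ne ((DPT.natCast ptRing_zc hN).congr fun a => (dig_zero _ _).symm)
    (DPT.const 0)) (DPr.forall_mem (DPT.range (by fun_prop) hq) (DPr.or ?_ ?_))
  · exact DPr.eq (by fun_prop) (by fun_prop)
  · exact DPr.le (dpt_zcN Cw (by fun_prop) (by fun_prop) (by fun_prop) (by fun_prop)
      (by fun_prop) (by fun_prop)) (by fun_prop)

theorem dpt_best {q : ℕ} [NeZero q] (Cw : ℕ) {m M : α → ℕ} (hm : DPT m) (hb : PBd m)
    (hq : PBd fun a => q ^ (m a + 1)) (hM : DPT M) (hMb : PBd M) :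
    DPT fun a => best q (m a) Cw (M a) := by
  classical
  refine DPT.optGetD (DPT.find? (DPT.range (by fun_prop) ?_) (DPT.decide ?_)) (DPT.const 0)
  · exact (hq.pow (Cw + 1)).mono fun a => by rw [← pow_mul, mul_comm]
  · exact dpr_goodN Cw (by fun_prop) (by fun_prop) (pbd_comp (b := fun a => q ^ (m a + 1)) hq DPT.id.sfst) (by fun_prop)
      (by fun_prop) (by fun_prop)

/-! ### The frequencies -/

/-- The number `c` codes a vector which has small products with all slots of all directions. -/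
def SmallN (q m n D Cw s N c : ℕ) : Prop :=
  ∀ e ∈ List.range (D + 1), ∀ j ∈ List.range Cw, ∀ i ∈ List.range (D * n + (m + 1)),
    Small s (dotL (blk q n c 0)
      (slot n e ((comp (blk q (m + 1) N 0))^[i] (blk q (m + 1) N (j + 1)))))

open Classical in
/-- the list of the codes of the small vectors -/
noncomputable def freqs (q m n D Cw s N : ℕ) : List ℕ :=
  (List.range (q ^ n)).filter fun c => decide (SmallN q m n D Cw s N c)

theorem mem_freqs {q m n D Cw s N c : ℕ} :
    c ∈ freqs q m n D Cw s N ↔ c < q ^ n ∧ SmallN q m n D Cw s N c := by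
  simp [freqs]

theorem nodup_freqs (q m n D Cw s N : ℕ) : (freqs q m n D Cw s N).Nodup :=
  List.nodup_range.filter _

theorem le_length_freqs {q m n D Cw s B : ℕ} [NeZero q] (hB : q ≤ B * (s + 1))
    (h : m + 1 = (D + 1) * n) (hq : 2 * B ^ ((D + 1) * (Cw * (2 * D + 1))) ≤ q) (N : ℕ) :
    2 ^ n ≤ (freqs q m n D Cw s N).length := by
  classical
  have h1 := card_small (T := 2 ^ n) hB
    (fun z : Fin (D + 1) × Fin Cw × Fin (D * n + (m + 1)) =>
      slot n z.1 ((comp (blk q (m + 1) N 0))^[z.2.2] (blk q (m + 1) N (z.2.1 + 1)))) (by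
      simp only [Fintype.card_prod, Fintype.card_fin]
      have h2 : (D + 1) * (Cw * (D * n + (m + 1))) = (D + 1) * (Cw * (2 * D + 1)) * n := by
        rw [h]; ring
      rw [h2, pow_mul, ← mul_pow, mul_comm]
      exact Nat.pow_le_pow_left hq n)
  refine h1.trans ?_
  rw [← List.toFinset_card_of_nodup (nodup_freqs q m n D Cw s N)]
  refine card_le_card_of_surjOn (fun c => blk q n c 0) fun c hc => ?_
  obtain ⟨c', hc', rfl⟩ := exists_blk0 c
  refine ⟨c', List.mem_toFinset.2 (mem_freqs.2 ⟨hc', fun e he j hj i hi => ?_⟩), rfl⟩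
  exact (mem_filter.1 (mem_coe.1 hc)).2
    (⟨e, List.mem_range.1 he⟩, ⟨j, List.mem_range.1 hj⟩, ⟨i, List.mem_range.1 hi⟩)

theorem dpr_small {q : ℕ} [NeZero q] (s : ℕ) {x : α → ZMod q} (hx : DPT x) :
    DPr fun a => Small s (x a) := by
  classical
  exact DPr.of_decide (DPT.ofPT (PT.finComp (fun y : ZMod q => decide (Small s y)) hx.toPT))

theorem dpt_freqs {q : ℕ} [NeZero q] (D Cw s : ℕ) {m n N : α → ℕ} (hm : DPT m) (hb : PBd m)
    (hn : DPT n) (hnb : PBd n) (hq : PBd fun a => q ^ n a) (hN : DPT N) :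
    DPT fun a => freqs q (m a) (n a) D Cw s (N a) := by
  classical
  refine DPT.filter (DPT.range (by fun_prop) hq) (DPT.decide ?_)
  refine DPr.forall_mem (by fun_prop) (DPr.forall_mem (by fun_prop)
    (DPr.forall_mem (by fun_prop) (dpr_small s ?_)))
  refine fv_dot (by fun_prop) (fv_slot ?_ ?_ ?_ (fv_compIter ?_ ?_ ?_ ?_)) <;> fun_prop

theorem pbd_pow_size {l : α → ℕ} (hl : PBd l) (b c d : ℕ) :
    PBd fun a => b ^ (c * (Nat.size (l a) + d)) := by
  refine (((hl.add hl).add (PBd.const 1)).pow (Nat.size b * c)).mul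
    (PBd.const (b ^ (c * d))) |>.mono fun a => ?_
  have h1 : 2 ^ Nat.size (l a) ≤ l a + l a + 1 := by
    rcases Nat.eq_zero_or_pos (l a) with h | h
    · simp [h]
    · have h2 : 0 < Nat.size (l a) := Nat.size_pos.2 h
      have h3 : 2 ^ (Nat.size (l a) - 1) ≤ l a := Nat.lt_size.1 (by omega)
      have h4 : 2 ^ Nat.size (l a) = 2 ^ (Nat.size (l a) - 1) * 2 := by
        rw [← pow_succ]; congr 1; omega
      omega
  rw [mul_add, pow_add]
  refine Nat.mul_le_mul_right _ ?_
  calc b ^ (c * Nat.size (l a)) ≤ (2 ^ Nat.size b) ^ (c * Nat.size (l a)) :=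
        Nat.pow_le_pow_left (Nat.lt_size_self b).le _
    _ = (2 ^ Nat.size (l a)) ^ (Nat.size b * c) := by rw [← pow_mul, ← pow_mul]; congr 1; ring
    _ ≤ _ := Nat.pow_le_pow_left h1 _

end GeoP

open GeoP in
/-- B6: the geometry. -/
theorem geoStmt : GeoStmt := by
  intro D L lam hlam
  obtain ⟨N, hN⟩ := exists_nat_one_div_lt hlam
  obtain ⟨q, hq, hp⟩ := Nat.exists_infinite_primes
    (2 ^ (2 * (N + 1)) + 1 + 2 * (L + 1) ^ ((D + 1) * (2 * (N + 1) * (2 * D + 1))))
  have : Fact q.Prime := ⟨hp⟩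
  have hq0 := hp.pos
  refine ⟨q, q / (L + 1), 2 * (N + 1), this, by omega, ?_, fun α _ I => ?_⟩
  · have h1 := Nat.mul_div_le q (L + 1)
    rcases Nat.eq_zero_or_pos (q / (L + 1)) with h | h
    · rw [h]; simpa using hq0
    · nlinarith
  let n : α → ℕ := fun a => Nat.size (elems (I.T a)).length + 101
  let m : α → ℕ := fun a => (D + 1) * n a - 1
  have hdim : ∀ a, m a + 1 = (D + 1) * n a := fun a =>
    Nat.sub_add_cancel (Nat.mul_pos (Nat.succ_pos _) (Nat.succ_pos _))
  have hbig : ∀ a, 100 ≤ m a := fun a => by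
    have h1 := hdim a
    have h2 : 101 ≤ n a := Nat.le_add_left _ _
    have h3 : n a ≤ (D + 1) * n a := Nat.le_mul_of_pos_left _ (Nat.succ_pos _)
    omega
  have hI := I.pt
  have hn : DPT n := by fun_prop
  have hnb : PBd n := by fun_prop
  have hm : DPT m := by fun_prop
  have hmb : PBd m := by fun_prop
  have hpw : ∀ b, PBd fun a => b ^ ((D + 1) * n a) := fun b =>
    pbd_pow_size (pbd_length hI) b (D + 1) 101
  have hqn : PBd fun a => q ^ n a :=
    (pbd_pow_size (pbd_length hI) q 1 101).mono fun a => by rw [one_mul]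
  let N0 : α → ℕ := fun a => best q (m a) (2 * (N + 1)) (D * n a)
  have hN0 : DPT N0 :=
    dpt_best _ hm hmb ((hpw q).mono fun a => by rw [hdim]) (by fun_prop) (by fun_prop)
  have hgood : ∀ a, GoodN q (m a) (2 * (N + 1)) (D * n a) (N0 a) := fun a =>
    good_best (le_trans (by norm_num) (hbig a)) (by omega) _
  let F : α → List ℕ := fun a => freqs q (m a) (n a) D (2 * (N + 1)) (q / (L + 1)) (N0 a)
  have hF : DPT F := dpt_freqs _ _ _ hm hmb hn hnb hqn hN0
  have hlen : ∀ a v, TC.ix I a v < (F a).length := fun a v => by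
    have h1 := le_length_freqs (B := L + 1) (s := q / (L + 1)) (Cw := 2 * (N + 1))
      (Nat.lt_mul_div_succ q (Nat.succ_pos L)).le (hdim a) ((Nat.le_add_left _ _).trans hq) (N0 a)
    have h2 := TC.ix_lt I a v
    have h3 := Nat.lt_size_self (elems (I.T a)).length
    have h4 : 2 ^ Nat.size (elems (I.T a)).length ≤ 2 ^ n a :=
      Nat.pow_le_pow_right (by norm_num) (Nat.le_add_right _ _)
    exact lt_of_lt_of_le (h2.trans h3) (h4.trans h1)
  have hmem : ∀ a v, (F a).getD (TC.ix I a v) 0 ∈ F a := fun a v => by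
    rw [List.getD_eq_getElem _ _ (hlen a v)]
    exact List.getElem_mem _
  refine ⟨m, n, fun a => ⟨blk q (m a + 1) (N0 a) 0, fun j => blk q (m a + 1) (N0 a) (j + 1),
    fun v => blk q (n a) ((F a).getD (TC.ix I a v) 0) 0⟩, hm, hn, fun b => ?_, fun a => ?_,
    by fun_prop, fun j => by fun_prop, ?_⟩
  · refine ((hpw b).add (PBd.const 1)).mono fun a => ?_
    rcases Nat.eq_zero_or_pos b with h | h
    · rw [h]
      exact (zero_pow_le_one _).trans (Nat.le_add_left _ _)
    · exact (Nat.pow_le_pow_right h (Nat.sub_le _ _)).trans (Nat.le_add_right _ _)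
  · refine ⟨hdim a, hbig a, ?_, ?_, fun v v' h => ?_, fun v e j i hi => ?_⟩
    · simpa [blk] using (hgood a).1
    · refine woz_of_zc (Nat.succ_pos N) (by exact_mod_cast hN.le) (D * n a) fun c hc => ?_
      obtain ⟨c', hc', rfl⟩ := exists_blk0 c
      rw [← zcN_eq]
      exact ((hgood a).2 c' (List.mem_range.2 hc')).resolve_left hc
    · have h1 := blk_inj (mem_freqs.1 (hmem a v)).1 (mem_freqs.1 (hmem a v')).1 h
      rw [List.getD_eq_getElem _ _ (hlen a v), List.getD_eq_getElem _ _ (hlen a v')] at h1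
      have h2 := (List.Nodup.getElem_inj_iff (nodup_freqs _ _ _ _ _ _ _)).1 h1
      rw [← TC.vx_ix I a v, ← TC.vx_ix I a v', h2]
    · exact (mem_freqs.1 (hmem a v)).2 e (List.mem_range.2 e.2) j (List.mem_range.2 j.2) i
        (List.mem_range.2 hi)
  · have h1 := TC.dpt_ix I
    exact dpt_blk (by fun_prop) (by fun_prop) (DPT.getD (by fun_prop) h1 (DPT.const 0))
      (DPT.const 0) (PBd.const 0)

end Vale.Agent.P330.Bohr
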