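import Vale.Agent.P330.Bohr.Comp
import Mathlib.FieldTheory.Finite.GaloisField
import Mathlib.FieldTheory.PrimitiveElement

/-!
P330, inner system: existence of the geometry (companion vector, directions, frequencies).
-/

namespace Vale.Agent.P330.Bohr.GeoP

open Finset

/-- Every nonzero vector is cyclic for the companion map, which is invertible. -/
def Cyc {q m : ℕ} (a : Vec (Fin (m + 1)) (ZMod q)) : Prop :=
  a 0 ≠ 0 ∧ ∀ (φ : Vec (Fin (m + 1)) (ZMod q) →ₗ[ZMod q] ZMod q) (u : Vec (Fin (m + 1)) (ZMod q)),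
    (∀ i : Fin (m + 1), φ ((comp a)^[i] u) = 0) → φ = 0 ∨ u = 0

theorem exists_cyc_of_basis {q m : ℕ} [Fact q.Prime] (hm : 1 ≤ m) {K : Type} [Field K]
    [Algebra (ZMod q) K] (θ : K) (B : Module.Basis (Fin (m + 1)) (ZMod q) K)
    (hB : ∀ i, B i = θ ^ (i : ℕ)) : ∃ a : Vec (Fin (m + 1)) (ZMod q), Cyc a := by
  let Φ : Vec (Fin (m + 1)) (ZMod q) ≃ₗ[ZMod q] K := B.equivFun.symm
  have hΦ : ∀ i, Φ (unitV i) = θ ^ (i : ℕ) := fun i => by
    rw [← hB]
    refine B.equivFun.symm_apply_eq.2 (funext fun k => ?_)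
    rw [B.equivFun_self]
    simp [unitV, eq_comm]
  let a : Vec (Fin (m + 1)) (ZMod q) := Φ.symm (θ ^ (m + 1))
  have hθ : θ ≠ 0 := by
    have h1 := B.ne_zero ⟨1, by omega⟩
    rw [hB] at h1
    simpa using h1
  have key : ∀ p, Φ (comp a p) = θ * Φ p := by
    intro p
    have h1 : ∀ i, Φ (comp a (unitV i)) = θ * Φ (unitV i) := fun i => by
      refine Fin.lastCases ?_ (fun k => ?_) i
      · rw [comp_unitV_last, hΦ, Fin.val_last, ← pow_succ']
        exact Φ.apply_symm_apply _
      · rw [comp_unitV, hΦ, hΦ, Fin.val_succ, Fin.val_castSucc, pow_succ']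
    conv_lhs => rw [vec_eq_sum p, ← compL_apply]
    conv_rhs => rw [vec_eq_sum p]
    simp only [map_sum, map_smul, compL_apply, h1, mul_sum, mul_smul_comm]
  have key2 : ∀ (i : ℕ) p, Φ ((comp a)^[i] p) = θ ^ i * Φ p := by
    intro i p
    induction i with
    | zero => simp
    | succ i ih => rw [Function.iterate_succ_apply', key, ih, pow_succ', mul_assoc]
  refine ⟨a, fun h0 => ?_, fun φ u h => ?_⟩
  · have h1 : comp a (Φ.symm θ⁻¹) = unitV 0 := Φ.injective (by
      rw [key, hΦ, Φ.apply_symm_apply, mul_inv_cancel₀ hθ]; simp)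
    have h2 := congrFun h1 0
    rw [comp_at_zero, h0, zero_mul] at h2
    simp [unitV] at h2
  · by_cases hu : u = 0
    · exact Or.inr hu
    have hu' : Φ u ≠ 0 := fun h0 => hu (Φ.map_eq_zero_iff.1 h0)
    have h1 : φ ∘ₗ Φ.symm.toLinearMap ∘ₗ LinearMap.mulRight (ZMod q) (Φ u) = 0 :=
      B.ext fun i => by
        have h2 : Φ.symm (θ ^ (i : ℕ) * Φ u) = (comp a)^[i] u := by
          rw [← key2, Φ.symm_apply_apply]
        simp [hB, h2, h i]
    refine Or.inl (LinearMap.ext fun p => ?_)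
    have h2 := LinearMap.congr_fun h1 (Φ p * (Φ u)⁻¹)
    simpa [hu'] using h2

theorem exists_cyc (q m : ℕ) [Fact q.Prime] (hm : 1 ≤ m) :
    ∃ a : Vec (Fin (m + 1)) (ZMod q), Cyc a := by
  have : Algebra.IsSeparable (ZMod q) (GaloisField q (m + 1)) :=
    IsGalois.to_isSeparable
  let pb := Field.powerBasisOfFiniteOfSeparable (ZMod q) (GaloisField q (m + 1))
  have hd : pb.dim = m + 1 := by
    rw [← pb.finrank, GaloisField.finrank q (Nat.succ_ne_zero m)]
  refine exists_cyc_of_basis hm pb.gen (pb.basis.reindex (finCongr hd)) fun i => ?_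
  rw [Module.Basis.reindex_apply, pb.basis_eq_pow]
  rfl

/-- Few functions have many zeros. -/
theorem card_many_zeros (J F : Type) [Fintype J] [DecidableEq J] [Fintype F] [DecidableEq F]
    [Zero F] (k : ℕ) :
    (univ.filter fun z : J → F => k ≤ (univ.filter fun j => z j = 0).card).card *
        Fintype.card F ^ k ≤ 2 ^ Fintype.card J * Fintype.card F ^ Fintype.card J := by
  let A : Finset J → Finset (J → F) := fun S =>
    Fintype.piFinset fun j => if j ∈ S then {0} else univ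
  have hA : ∀ S : Finset J, k ≤ S.card →
      (A S).card * Fintype.card F ^ k ≤ Fintype.card F ^ Fintype.card J := by
    intro S hS
    have h1 : (A S).card = Fintype.card F ^ Sᶜ.card := by
      rw [Fintype.card_piFinset, ← prod_mul_prod_compl S,
        prod_congr rfl (g := fun _ => 1) fun j hj => by simp [hj],
        prod_congr (s₁ := Sᶜ) rfl (g := fun _ => Fintype.card F) fun j hj => by
          simp [mem_compl.1 hj]]
      simp
    have h2 : Sᶜ.card + S.card = Fintype.card J := card_compl_add_card S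
    rw [h1, ← pow_add]
    exact Nat.pow_le_pow_right (Fintype.card_pos_iff.2 ⟨0⟩) (by omega)
  have hsub : (univ.filter fun z : J → F => k ≤ (univ.filter fun j => z j = 0).card) ⊆
      (univ.filter fun S : Finset J => k ≤ S.card).biUnion A := by
    intro z hz
    refine mem_biUnion.2 ⟨univ.filter fun j => z j = 0, mem_filter.2 ⟨mem_univ _,
      (mem_filter.1 hz).2⟩, Fintype.mem_piFinset.2 fun j => ?_⟩
    by_cases h : z j = 0 <;> simp [h]
  calc _ ≤ (∑ S ∈ univ.filter fun S : Finset J => k ≤ S.card, (A S).card) * Fintype.card F ^ k :=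
        Nat.mul_le_mul_right _ ((card_le_card hsub).trans card_biUnion_le)
    _ = ∑ S ∈ univ.filter fun S : Finset J => k ≤ S.card, (A S).card * Fintype.card F ^ k :=
        sum_mul _ _ _
    _ ≤ (univ.filter fun S : Finset J => k ≤ S.card).card •
          Fintype.card F ^ Fintype.card J :=
        sum_le_card_nsmul _ _ _ fun S hS => hA S (mem_filter.1 hS).2
    _ ≤ _ := by
        rw [smul_eq_mul]
        refine Nat.mul_le_mul_right _ ((card_filter_le _ _).trans ?_)
        simp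

theorem card_vec (V T : Type) [Fintype V] [DecidableEq V] [Fintype T] :
    Fintype.card (Vec V T) = Fintype.card T ^ Fintype.card V := Fintype.card_fun

/-- the number of directions on which the form with the coefficients `c` vanishes -/
def zc {q m Cw : ℕ} (M : ℕ) (a : Vec (Fin (m + 1)) (ZMod q))
    (w : Fin Cw → Vec (Fin (m + 1)) (ZMod q)) (c : Vec (Fin (m + 1)) (ZMod q)) : ℕ :=
  (univ.filter fun j : Fin Cw × Fin (m + 1) => dotL c ((comp a)^[M + j.2] (w j.1)) = 0).card

theorem exists_dirs {q m Cw : ℕ} [Fact q.Prime] (hq : 2 ^ Cw < q) (M : ℕ)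
    {a : Vec (Fin (m + 1)) (ZMod q)} (ha : Cyc a) :
    ∃ w : Fin Cw → Vec (Fin (m + 1)) (ZMod q), ∀ c, c ≠ 0 → zc M a w c ≤ 2 * (m + 1) := by
  have hq0 : 0 < q := (Nat.zero_le _).trans_lt hq
  let Bad : Vec (Fin (m + 1)) (ZMod q) → Finset (Fin Cw → Vec (Fin (m + 1)) (ZMod q)) :=
    fun c => univ.filter fun w => 2 * (m + 1) ≤ zc M a w c
  have hB : ∀ c, c ≠ 0 →
      (Bad c).card * q ^ (2 * (m + 1)) ≤ 2 ^ (Cw * (m + 1)) * q ^ (Cw * (m + 1)) := by
    intro c hc
    have h1 := card_many_zeros (Fin Cw × Fin (m + 1)) (ZMod q) (2 * (m + 1))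
    rw [ZMod.card, Fintype.card_prod, Fintype.card_fin, Fintype.card_fin] at h1
    refine le_trans (Nat.mul_le_mul_right _ ?_) h1
    refine card_le_card_of_injOn
      (fun w (j : Fin Cw × Fin (m + 1)) => dotL c ((comp a)^[M + j.2] (w j.1)))
      (fun w hw => mem_filter.2 ⟨mem_univ _, (mem_filter.1 hw).2⟩) fun w _ w' _ h => ?_
    funext j
    have h2 := ha.2 (dotL c) ((comp a)^[M] (w j - w' j)) fun i => by
      rw [← Function.iterate_add_apply, add_comm (i : ℕ) M, comp_iter_sub, map_sub, sub_eq_zero]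
      exact congrFun h (j, i)
    rcases h2 with h2 | h2
    · exact absurd (dotL_eq_zero.1 h2) hc
    · exact sub_eq_zero.1 ((compIterE ha.1 M).map_eq_zero_iff.1 h2)
  have hlt : ((univ.filter fun c => c ≠ 0).biUnion Bad).card <
      (univ : Finset (Fin Cw → Vec (Fin (m + 1)) (ZMod q))).card := by
    have h1 : (univ : Finset (Fin Cw → Vec (Fin (m + 1)) (ZMod q))).card = q ^ (Cw * (m + 1)) := by
      rw [card_univ, Fintype.card_fun, card_vec, ZMod.card, Fintype.card_fin, Fintype.card_fin,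
        ← pow_mul, mul_comm]
    have h2 : 2 ^ (Cw * (m + 1)) < q ^ (m + 1) := by
      rw [pow_mul]
      exact Nat.pow_lt_pow_left hq (Nat.succ_ne_zero m)
    refine lt_of_mul_lt_mul_right (a := q ^ (2 * (m + 1))) ?_ (Nat.zero_le _)
    calc _ ≤ (∑ c ∈ univ.filter fun c => c ≠ 0, (Bad c).card) * q ^ (2 * (m + 1)) :=
          Nat.mul_le_mul_right _ card_biUnion_le
      _ = ∑ c ∈ univ.filter fun c => c ≠ 0, (Bad c).card * q ^ (2 * (m + 1)) := sum_mul _ _ _
      _ ≤ (univ.filter fun c : Vec (Fin (m + 1)) (ZMod q) => c ≠ 0).card •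
            (2 ^ (Cw * (m + 1)) * q ^ (Cw * (m + 1))) :=
          sum_le_card_nsmul _ _ _ fun c hc => hB c (mem_filter.1 hc).2
      _ ≤ q ^ (m + 1) * (2 ^ (Cw * (m + 1)) * q ^ (Cw * (m + 1))) := by
          rw [smul_eq_mul]
          refine Nat.mul_le_mul_right _ ((card_filter_le _ _).trans ?_)
          rw [card_univ, card_vec, ZMod.card, Fintype.card_fin]
      _ < q ^ (m + 1) * (q ^ (m + 1) * q ^ (Cw * (m + 1))) :=
          Nat.mul_lt_mul_of_pos_left (Nat.mul_lt_mul_of_pos_right h2 (by positivity))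
            (by positivity)
      _ = _ := by rw [h1]; ring
  obtain ⟨w, -, hw⟩ := exists_mem_notMem_of_card_lt_card hlt
  refine ⟨w, fun c hc => ?_⟩
  by_contra h
  exact hw (mem_biUnion.2 ⟨c, mem_filter.2 ⟨mem_univ _, hc⟩,
    mem_filter.2 ⟨mem_univ _, by omega⟩⟩)

theorem woz_of_zc {q m N : ℕ} [NeZero q] {lam : ℝ} (hN : 0 < N) (hl : 1 / (N : ℝ) ≤ lam) (M : ℕ)
    {a : Vec (Fin (m + 1)) (ZMod q)} {w : Fin (2 * N) → Vec (Fin (m + 1)) (ZMod q)}
    (h : ∀ c, c ≠ 0 → zc M a w c ≤ 2 * (m + 1)) :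
    Woz (q := q) lam fun j : Fin (2 * N) × Fin (m + 1) => (comp a)^[M + j.2] (w j.1) := by
  intro φ hφ
  rw [form_eq_dotL φ] at hφ ⊢
  have h1 := h _ fun h0 => hφ (dotL_eq_zero.2 h0)
  have h2 : (0 : ℝ) < N := by exact_mod_cast hN
  refine le_trans ?_ hl
  unfold frac
  rw [Fintype.card_prod, Fintype.card_fin, Fintype.card_fin, div_le_div_iff₀ (by positivity) h2]
  have h3 : (zc M a w (fun i => φ (unitV i)) : ℝ) ≤ 2 * (m + 1) := by exact_mod_cast h1
  have h4 : ((2 * N * (m + 1) : ℕ) : ℝ) = 2 * (m + 1) * N := by push_cast; ring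
  rw [one_mul, h4]
  refine mul_le_mul_of_nonneg_right (le_trans (le_of_eq ?_) h3) h2.le
  unfold zc
  congr

/-- residues of integers of absolute value at most `s` -/
def Small {q : ℕ} (s : ℕ) (x : ZMod q) : Prop := ∃ u ∈ Icc (-(s : ℤ)) s, x = (u : ZMod q)

theorem small_sub {q s : ℕ} [NeZero q] {x y : ZMod q} (h : x.val / (s + 1) = y.val / (s + 1)) :
    Small s (x - y) := by
  refine ⟨(x.val : ℤ) - y.val, ?_, by simp⟩
  have h1 := Nat.div_add_mod x.val (s + 1)
  have h2 := Nat.div_add_mod y.val (s + 1)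
  have h3 : x.val % (s + 1) < s + 1 := Nat.mod_lt x.val (Nat.succ_pos s)
  have h4 : y.val % (s + 1) < s + 1 := Nat.mod_lt y.val (Nat.succ_pos s)
  rw [h] at h1
  rw [mem_Icc]
  generalize (s + 1) * (y.val / (s + 1)) = r at h1 h2
  generalize x.val % (s + 1) = r1 at h1 h3
  generalize y.val % (s + 1) = r2 at h2 h4
  omega

open Classical in
/-- Many vectors have small products with all given vectors. -/
theorem card_small {q n s B T : ℕ} [NeZero q] (hB : q ≤ B * (s + 1)) {Z : Type} [Fintype Z]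
    (y : Z → Vec (Fin n) (ZMod q)) (hT : B ^ Fintype.card Z * T ≤ q ^ n) :
    T ≤ (univ.filter fun c : Vec (Fin n) (ZMod q) => ∀ z, Small s (dotL c (y z))).card := by
  have hq : 0 < q := Nat.pos_of_ne_zero (NeZero.ne q)
  have hB0 : 0 < B := by
    rcases Nat.eq_zero_or_pos B with h | h
    · rw [h] at hB; omega
    · exact h
  have : Nonempty (Fin B) := ⟨⟨0, hB0⟩⟩
  let f : Vec (Fin n) (ZMod q) → Z → Fin B := fun c z =>
    ⟨(dotL c (y z)).val / (s + 1),
      (Nat.div_lt_iff_lt_mul (Nat.succ_pos s)).2 ((ZMod.val_lt _).trans_le hB)⟩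
  obtain ⟨b, hb⟩ := Fintype.exists_le_card_fiber_of_mul_le_card f (n := T) (by
    rw [Fintype.card_fun, card_vec, ZMod.card, Fintype.card_fin, Fintype.card_fin]; exact hT)
  rcases (univ.filter fun c => f c = b).eq_empty_or_nonempty with h0 | ⟨c0, h0⟩
  · rw [h0] at hb
    exact hb.trans (Nat.zero_le _)
  refine hb.trans (card_le_card_of_injOn (fun c => c - c0) (fun c hc => ?_)
    fun c _ c' _ h => sub_left_injective h)
  refine mem_filter.2 ⟨mem_univ _, fun z => ?_⟩
  rw [dotL_sub]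
  have h1 : f c z = f c0 z := by rw [(mem_filter.1 hc).2, (mem_filter.1 h0).2]
  exact small_sub (congrArg Fin.val h1)

end Vale.Agent.P330.Bohr.GeoP
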