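import Vale.Agent.P330.Bohr.Ideal

/-!
P330, inner system: distance, soundness, correction and the valid words of both codes.
-/

namespace Vale.Agent.P330.Bohr

open Finset

set_option linter.unusedSectionVars false

namespace GoodA

theorem woz_mono {q : ℕ} [NeZero q] {G : Type} [AddCommGroup G] [Module (ZMod q) G] {J : Type}
    [Fintype J] {lam lam' : ℝ} {W : J → G} (h : Woz (q := q) lam W) (hl : lam ≤ lam') :
    Woz (q := q) lam' W := fun a ha => (h a ha).trans hl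

theorem half_word {G H K : Type} [Fintype H] [DecidableEq H] [CommRing K] [Fintype K]
    (g : G → H → K) {p : G} (h : g p ≠ 0) : 1 / 2 ≤ frac fun y : Vec H K => word g (p, y) ≠ 0 := by
  obtain ⟨i, hi⟩ := Function.ne_iff.1 h
  have h1 := frac_not fun y : Vec H K => word g (p, y) ≠ 0
  have h2 := frac_equiv (Equiv.addRight (unitV i : Vec H K)) fun y => word g (p, y) ≠ 0
  have h3 : frac (fun y : Vec H K => ¬ word g (p, y) ≠ 0) ≤
      frac fun y : Vec H K => word g (p, Equiv.addRight (unitV i : Vec H K) y) ≠ 0 :=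
    frac_mono fun y hy => by
      rw [Equiv.coe_addRight, word_add, not_not.1 hy, zero_add, word_unitV]
      exact hi
  linarith

theorem line_word {q : ℕ} [NeZero q] {K G H : Type} [Field K] [AddCommGroup G]
    [Module (ZMod q) G] [Fintype H] {ψ : AddChar (ZMod q) K} {s : ℕ} {w : G} {g : G → H → K}
    (hg : InCode ψ s w g) (p : G) (y : Vec H K) :
    LineCode ψ s fun t : ZMod q => word g (p + t • w, y) :=
  LineCode.sum univ fun i _ => ((hg p).apply i).smul (y i)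

variable {q r m n Cw c ℓ D : ℕ} {X : Type} [Fact q.Prime] [Fact r.Prime] [Fintype X]
  [DecidableEq X] {ψ : AddChar (ZMod q) (ZMod r)} {Γ : Geo q m n Cw (Idx X ℓ)} {M : LBL c ℓ D X}
  {s : ℕ} {lam : ℝ}

theorem deg1 (hC : Cx ψ Γ M s lam) : 4 * s1 D s < q := by
  have h1 := hC.deg
  have h2 : s1 D s ≤ (D + 2) * s1 D s := Nat.le_mul_of_pos_left _ (Nat.succ_pos _)
  rw [s2] at h1
  omega

theorem dist (hD : DistStmt) (hC : Cx ψ Γ M s lam)
    {g g' : Pt q m → Hx c D ((D + 2) * n) → ZMod r}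
    (hg : ∀ j, InCode ψ (s1 D s) (Γ.dir (D + 2) j) g)
    (hg' : ∀ j, InCode ψ (s1 D s) (Γ.dir (D + 2) j) g') (hne : word g ≠ word g') :
    1 / 5 ≤ frac fun x => word g x ≠ word g' x := by
  have : Nonempty (Fin Cw) := ⟨⟨0, hC.cw⟩⟩
  have h1 : 2 / 5 < frac fun p => g p - g' p ≠ 0 := by
    refine not_le.1 fun h => hne (congrArg word (funext fun p => sub_eq_zero.1 ?_))
    exact congrFun (hD q (ZMod r) ψ hC.hψ _ _ _ _ (woz_mono hC.geo.woz hC.lam_le) _ (deg1 hC)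
      (fun _ => True) ((frac_eq_zero fun _ h => h trivial).le.trans (by norm_num)) _
      (fun j _ => (hg j).sub (hg' j)) h) p
  have h2 := frac_mul_le_mean (p := fun p => g p - g' p ≠ 0) (t := 1 / 2)
    (f := fun p => frac fun y => word g (p, y) ≠ word g' (p, y)) (fun _ => frac_nonneg _)
    fun p hp => (half_word (fun p => g p - g' p) hp).trans
      (frac_mono fun y hy => by rwa [word_sub_tab, sub_ne_zero] at hy)
  rw [frac_prod]
  linarith

theorem tstF_iff {s1 : ℕ} {md : Bool} {x : Pos q m c D ((D + 2) * n) r} {w : RR q → ZMod r}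
    {v : RI q c D → ZMod r} : tstF ψ Γ M s1 md x w v = true ↔
      w (.bl 2) = w (.bl 0) + w (.bl 1) ∧ LineCode ψ s1 (fun t => w (.line t)) ∧
        ∀ e, eqn ψ Γ M md x v e = 0 := by
  simp only [tstF, decide_eq_true_eq]

theorem evL (hL : LiftP ψ Γ M s) (inp : Fin c → Pos q m c D ((D + 2) * n) r → ZMod r)
    (T : Pos q m c D ((D + 2) * n) r → ZMod r) (x : Pos q m c D ((D + 2) * n) r)
    (sd : Seed q m n Cw c D ((D + 2) * n) r) :
    ((sysL ψ Γ M (s1 D s)).tst x sd).eval inp T = tstF ψ Γ M (s1 D s) false x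
      (fun i => T (rawP Γ x sd i)) (rv Γ RI.inp inp T x sd) :=
  hL.eval RI.inp (tstF ψ Γ M (s1 D s) false x) x sd inp T

theorem evE (hL : LiftP ψ Γ M s) (T : Pos q m c D ((D + 2) * n) r → ZMod r)
    (x : Pos q m c D ((D + 2) * n) r) (sd : Seed q m n Cw c D ((D + 2) * n) r) :
    ((codeE ψ Γ M (s1 D s)).tst x sd).eval noInp T = tstF ψ Γ M (s1 D s) true x
      (fun i => T (rawP Γ x sd i)) (noIn (rv Γ (fun _ => none) noInp T x sd)) :=
  hL.eval (fun _ => none) (fun w v => tstF ψ Γ M (s1 D s) true x w (noIn v)) x sd noInp T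

theorem complete (hT : TabP ψ Γ M s) (hK : CompP ψ Γ M) {md : Bool}
    {ι : Fin c → Pt q m → ZMod r} {τ : Option (Ck ((D + 2) * n))} {v : Fin 2 → Idx X ℓ → ZMod r}
    (ha : allowed md τ = true) (hc : Cons ψ Γ M ι τ (tabs ψ Γ M τ v))
    (x : Pos q m c D ((D + 2) * n) r) (sd : Seed q m n Cw c D ((D + 2) * n) r) :
    tstF ψ Γ M (s1 D s) md x (fun i => word (tabs ψ Γ M τ v) (rawP Γ x sd i))
      (iv Γ (tabs ψ Γ M τ v) ι x sd) = true :=
  tstF_iff.2 ⟨word_add _ _ _ _, line_word (hT.code τ v sd.1) _ _, hK.tests md ι τ _ ha hc x sd⟩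

theorem cor (hL : LiftP ψ Γ M s) (hC : Cx ψ Γ M s lam) {h : ℝ}
    (hR : ∀ B : Pos q m c D ((D + 2) * n) r → Prop, frac B ≤ h →
      frac (fun x : Pos q m c D ((D + 2) * n) r => 1 / 4 ≤
        frac fun u : (Fin Cw × Fin (m + 1)) × Yv c D ((D + 2) * n) r => 1 / 10 <
          frac fun t : ZMod q => B (x.1 + t • Γ.dir (D + 2) u.1, x.2 + u.2) ∨
            B (x.1 + t • Γ.dir (D + 2) u.1, u.2)) ≤ frac B / 2)
    {g : Pt q m → Hx c D ((D + 2) * n) → ZMod r}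
    (hg : ∀ j, InCode ψ (s1 D s) (Γ.dir (D + 2) j) g) (B : Pos q m c D ((D + 2) * n) r → Prop)
    (hB : frac B ≤ h) :
    frac (fun x => 1 / 4 ≤ frac fun sd : Seed q m n Cw c D ((D + 2) * n) r =>
      ¬ (corR ψ Γ c D (s1 D s) x sd).Safe (word g) B (word g x)) ≤ frac B / 2 := by
  refine (frac_mono fun x hx => hx.trans ?_).trans (hR B hB)
  have hb : Bal 1 fun sd : Seed q m n Cw c D ((D + 2) * n) r => (sd.1, sd.2.1) :=
    Bal.fst.prodMap_right zero_le_one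
  refine (frac_mono fun sd hsd => ?_).trans ((hb _).trans (one_mul _).le)
  refine not_le.1 fun h1 => hsd fun W' hW => ?_
  rw [corR, hL.eval, dec0_eq hC.hψ (deg1 hC) (line_word (hg sd.1) x.1 x.2)]
  · rw [zero_smul, add_zero]
  · refine (frac_mono fun t ht => ?_).trans h1
    by_contra h2
    rw [not_or] at h2
    refine ht ?_
    simp only [rawP, if_true, Bool.false_eq_true, if_false]
    rw [hW _ h2.1, hW _ h2.2, word_add_sub]

theorem sound (h0 : Sound0P ψ Γ M s) (h1 : Sound1P ψ Γ M s) {C1 t : ℝ}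
    (T : Pos q m c D ((D + 2) * n) r → ZMod r)
    (hH : frac (fun x : Pt q m × Yv c D ((D + 2) * n) r × Yv c D ((D + 2) * n) r =>
        T (x.1, fun i => x.2.1 i + x.2.2 i) ≠ T (x.1, x.2.1) + T (x.1, x.2.2)) ≤ t →
      frac (fun x : Pos q m c D ((D + 2) * n) r × (Fin Cw × Fin (m + 1)) =>
        ¬ LineCode ψ (s1 D s) fun t : ZMod q => T (x.1.1 + t • Γ.dir (D + 2) x.2, x.1.2)) ≤ t →
      ∃ (g : Pt q m → Hx c D ((D + 2) * n) → ZMod r) (J' : Fin Cw × Fin (m + 1) → Prop),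
        frac (fun x => T x ≠ word g x) ≤ C1 * t ∧ frac (fun j => ¬ J' j) ≤ C1 * t ∧
          ∀ j, J' j → InCode ψ (s1 D s) (Γ.dir (D + 2) j) g)
    (hcw : 0 < Cw) (ht1 : C1 * t ≤ 1 / 30) (ht2 : t + kk q c D * (C1 * t) ≤ 1 / 100) (md : Bool)
    {ι : Fin c → Pt q m → ZMod r}
    (hι : ∀ j, ∃ x : Idx X ℓ → ZMod r, ∀ p, ι j p = encv ψ Γ x (slot n (D + 2) p))
    (V : Pos q m c D ((D + 2) * n) r → Seed q m n Cw c D ((D + 2) * n) r → RI q c D → ZMod r)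
    (hV : ∀ g : Pt q m → Hx c D ((D + 2) * n) → ZMod r,
      frac (fun x : Pos q m c D ((D + 2) * n) r × Seed q m n Cw c D ((D + 2) * n) r =>
        V x.1 x.2 ≠ iv Γ g ι x.1 x.2) ≤ kk q c D * frac fun x => T x ≠ word g x)
    (hf : frac (fun x : Pos q m c D ((D + 2) * n) r × Seed q m n Cw c D ((D + 2) * n) r =>
      tstF ψ Γ M (s1 D s) md x.1 (fun i => T (rawP Γ x.1 x.2 i)) (V x.1 x.2) = false) ≤ t) :
    ∃ τ g, allowed md τ = true ∧ Cons ψ Γ M ι τ g ∧ frac (fun x => T x ≠ word g x) ≤ C1 * t := by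
  have : Nonempty (Fin Cw) := ⟨⟨0, hcw⟩⟩
  have b0 : Bal 1 fun x : Seed q m n Cw c D ((D + 2) * n) r => x.2.2.1 :=
    Bal.comp_one (g := Prod.fst) Bal.fst (Bal.comp_one (g := Prod.snd) Bal.snd Bal.snd)
  have b1 := (Bal.equiv (Equiv.prodAssoc (Pt q m) (Yv c D ((D + 2) * n) r) _)).comp_one
    (b0.prodMap_right zero_le_one)
  have b2 : Bal 1 fun x : Pos q m c D ((D + 2) * n) r × Seed q m n Cw c D ((D + 2) * n) r =>
      (x.1, x.2.1) := Bal.fst.prodMap_right zero_le_one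
  obtain ⟨g, J', e1, e2, e3⟩ := hH
    ((b1.frac_eq _).ge.trans ((frac_mono fun x hx =>
      Bool.eq_false_iff.2 fun h => hx (tstF_iff.1 h).1).trans hf))
    ((b2.frac_eq _).ge.trans ((frac_mono fun x hx =>
      Bool.eq_false_iff.2 fun h => hx (tstF_iff.1 h).2.1).trans hf))
  have e4 : ∀ e, frac (fun x : Pos q m c D ((D + 2) * n) r × Seed q m n Cw c D ((D + 2) * n) r =>
      eqn ψ Γ M md x.1 (iv Γ g ι x.1 x.2) e ≠ 0) ≤ 1 / 100 := fun e => by
    refine (frac_le_add fun x hx => ?_).trans ((add_le_add hf ((hV g).trans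
      (mul_le_mul_of_nonneg_left e1 (Nat.cast_nonneg _)))).trans ht2)
    by_cases h : V x.1 x.2 = iv Γ g ι x.1 x.2
    · exact Or.inl (Bool.eq_false_iff.2 fun h' => hx (h ▸ (tstF_iff.1 h').2.2 e))
    · exact Or.inr h
  obtain ⟨τ, ha, hc⟩ := h0 md ι g J' (e2.trans ht1) e3 e4
  exact ⟨τ, g, ha, h1 md ι g J' (e2.trans ht1) e3 hι e4 τ hc, e1⟩

theorem good {P S A : Type} [Fintype P] [Fintype S] {c k : ℕ} {L : LCode c k P S A}
    {inp : Fin c → P → A} {Q : (P → A) → Prop} {θ h C1 : ℝ} (hh : C1 * θ ≤ h / 2)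
    (h1 : ∀ W, Q W → L.Valid inp W)
    (h2 : ∀ W t, t = 0 ∨ t = θ → frac (fun x : P × S => (L.tst x.1 x.2).eval inp W = false) ≤ t →
      ∃ W', Q W' ∧ frac (fun p => W p ≠ W' p) ≤ C1 * t)
    (h3 : ∀ W W', Q W → Q W' → W ≠ W' → 1 / 5 ≤ frac fun p => W p ≠ W' p)
    (h4 : ∀ W, Q W → ∀ B : P → Prop, frac B ≤ h →
      frac (fun p => 1 / 4 ≤ frac fun s => ¬ (L.cor p s).Safe W B (W p)) ≤ frac B / 2) :
    (∀ W, L.Valid inp W ↔ Q W) ∧ L.Good inp (1 / 5) θ h := by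
  have h5 : ∀ W, L.Valid inp W → Q W := fun W hW => by
    obtain ⟨W', hQ, h6⟩ := h2 W 0 (Or.inl rfl)
      (frac_eq_zero fun x hx => by simp [hW x.1 x.2] at hx).le
    rw [mul_zero] at h6
    rwa [show W = W' from funext fun p => not_not.1 (not_of_frac_le_zero h6 p)]
  refine ⟨fun W => ⟨h5 W, h1 W⟩, fun W W' hW hW' => h3 W W' (h5 W hW) (h5 W' hW'), fun W hW => ?_,
    fun W hW => h4 W (h5 W hW)⟩
  obtain ⟨W', hQ, h6⟩ := h2 W θ (Or.inr rfl) hW
  exact ⟨W', h1 W' hQ, h6.trans hh⟩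

end GoodA

open GoodA

theorem goodStmt (hH : HadStmt) (hC : CorStmt) (hD : DistStmt) : GoodStmt := by
  obtain ⟨lH, hlH, hH⟩ := hH
  obtain ⟨lC, h, hlC, hh, hC⟩ := hC
  refine ⟨min (min lH lC) (1 / 100), by positivity, min_le_right _ _, fun q r c D _ _ => ?_⟩
  obtain ⟨θ0, C1, hθ0, hC1, hH⟩ := hH q r
  obtain ⟨θ, hθ, a1, a2⟩ : ∃ θ : ℝ, 0 < θ ∧ θ ≤ θ0 ∧
      θ * ((kk q c D + 1) * (C1 + 1)) ≤ min (h / 2) (1 / 100) :=
    ⟨min θ0 (min (h / 2) (1 / 100) / ((kk q c D + 1) * (C1 + 1))), by positivity, min_le_left _ _,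
      (le_div_iff₀ (by positivity)).1 (min_le_right _ _)⟩
  have k0 : (0 : ℝ) ≤ kk q c D := Nat.cast_nonneg _
  have a3 := a2.trans (min_le_left _ _)
  have a4 := a2.trans (min_le_right _ _)
  have a5 : 0 ≤ θ * kk q c D := by positivity
  have a6 : 0 ≤ θ * kk q c D * C1 := by positivity
  have a7 : 0 ≤ θ * C1 := by positivity
  have a8 : ∀ t, t = 0 ∨ t = θ →
      t ≤ θ0 ∧ C1 * t ≤ 1 / 30 ∧ t + kk q c D * (C1 * t) ≤ 1 / 100 := by
    rintro t (rfl | rfl)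
    · exact ⟨hθ0.le, by norm_num, by norm_num⟩
    · exact ⟨a1, by nlinarith, by nlinarith⟩
  have a9 : C1 * θ ≤ h / 2 := by nlinarith
  refine ⟨θ, h, hθ, hh, fun m n Cw ℓ s X _ _ ψ Γ M hx hT hL h0 h1 hS hK => ?_⟩
  have : Nonempty (Fin Cw) := ⟨⟨0, hx.cw⟩⟩
  have wH := woz_mono hx.geo.woz ((min_le_left _ _).trans (min_le_left _ _))
  have wC := woz_mono hx.geo.woz ((min_le_left _ _).trans (min_le_right _ _))
  have gL : ∀ σ, M.WF σ → ValidL ψ Γ M s σ ∧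
      (sysL ψ Γ M (s1 D s)).Good (fun j => symW ψ Γ M (σ j)) (1 / 5) θ h := fun σ hσ => by
    refine good (C1 := C1) a9 ?_ ?_ ?_ ?_
    · rintro W ⟨τ, x, hx', rfl⟩ y sd
      rw [evL hL, hL.exL]
      exact complete hT hK hx'.1 (hS.consL σ τ x hx') y sd
    · intro W t ht hf
      obtain ⟨τ, g, ha, hc, e⟩ := sound h0 h1 W
        (hH ψ hx.hψ _ _ _ wH _ (deg1 hx) _ W t (a8 t ht).1) hx.cw (a8 t ht).2.1 (a8 t ht).2.2 false
        (ι := inpF ψ Γ M σ) (fun j => ⟨_, fun _ => rfl⟩) _ (fun g => hL.apL σ g W)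
        ((frac_congr fun x => by rw [evL hL]).le.trans hf)
      obtain ⟨x, hx', rfl⟩ := hS.stL σ hσ τ g ha hc
      exact ⟨_, ⟨τ, x, hx', rfl⟩, e⟩
    · rintro W W' ⟨τ, x, -, rfl⟩ ⟨τ', x', -, rfl⟩
      exact dist hD hx (hT.code _ _) (hT.code _ _)
    · rintro W ⟨τ, x, -, rfl⟩
      exact cor hL hx (hC q _ _ _ wC _) (hT.code _ _)
  have gE : (∀ W, (codeE ψ Γ M (s1 D s)).Valid noInp W ↔ ∃ σ, W = symW ψ Γ M σ) ∧
      (codeE ψ Γ M (s1 D s)).Good noInp (1 / 5) θ h := by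
    refine good (C1 := C1) a9 ?_ ?_ ?_ ?_
    · rintro W ⟨σ, rfl⟩ y sd
      rw [evE hL, symW, hL.exE]
      exact complete hT hK (by simp [allowed, mkCk]) (hS.consE σ) y sd
    · intro W t ht hf
      obtain ⟨τ, g, ha, hc, e⟩ := sound h0 h1 W
        (hH ψ hx.hψ _ _ _ wH _ (deg1 hx) _ W t (a8 t ht).1) hx.cw (a8 t ht).2.1 (a8 t ht).2.2 true
        (ι := fun _ _ => 0) (fun j => ⟨0, fun _ => by simp [encv]⟩)
        (fun x sd => noIn (rv Γ (fun _ => none) noInp W x sd)) (fun g => hL.apE g W)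
        ((frac_congr fun x => by rw [evE hL]).le.trans hf)
      obtain ⟨σ, rfl⟩ := hS.stE τ g ha hc
      exact ⟨_, ⟨σ, rfl⟩, e⟩
    · rintro W W' ⟨σ, rfl⟩ ⟨σ', rfl⟩
      exact dist hD hx (hT.code _ _) (hT.code _ _)
    · rintro W ⟨σ, rfl⟩
      exact cor hL hx (hC q _ _ _ wC _) (hT.code _ _)
  exact ⟨fun σ hσ => (gL σ hσ).2, fun σ hσ => (gL σ hσ).1, gE.2, gE.1⟩

end Vale.Agent.P330.Bohr
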