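import Vale.Agent.P330.Bohr.Stm

/-!
P330, inner system: the graph of the line system.
-/

namespace Vale.Agent.P330.Bohr

open Vale.Agent.Lib.PolyTime hiding C P
open Vale.Agent.Lib.Dep

namespace GraphL

theorem mk_eq {N : ℕ} {ph ph' : Fin 5} {j : ℕ} {j' : Fin (N + 2)} :
    mkCk N ph j = (ph', j') ↔ ph = ph' ∧ min j (N + 1) = j' := by
  simp [mkCk, Fin.ext_iff (a := ⟨min j (N + 1), _⟩)]

theorem eq_mk {N : ℕ} {ph ph' : Fin 5} {j : ℕ} {j' : Fin (N + 2)} :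
    (ph', j') = mkCk N ph j ↔ ph = ph' ∧ min j (N + 1) = j' := eq_comm.trans mk_eq

theorem mk_mk {N : ℕ} {ph ph' : Fin 5} {j j' : ℕ} :
    mkCk N ph j = mkCk N ph' j' ↔ ph = ph' ∧ min j (N + 1) = min j' (N + 1) := mk_eq

theorem nxt_ne {N : ℕ} (fl : Bool) (τ : Option (Ck N)) : nxt fl τ ≠ none := by
  rcases τ with _ | ⟨ph, j⟩
  · simp [nxt]
  · simp only [nxt]
    split_ifs <;> simp

/-- the conditions on the clock and the flags; `st` says that the state is the start state -/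
def CkOk {N : ℕ} (st : Prop) (fi la : Bool) : Option (Ck N) → Prop
  | none => st
  | some (ph, j) => (ph ≠ 4 ∧ ((ph = 0 ∨ ph = 3) → (j : ℕ) ≠ 0)) ∧ (ph = 0 → st) ∧
      (ph = 1 → (j : ℕ) ≠ 0 → la = false) ∧ (ph = 2 → fi = false) ∧ (ph = 3 → la = true)

theorem fwd {N : ℕ} {st : Prop} {fi la : Bool} (h1 : st → fi = true) {τ : Option (Ck N)}
    (h : CkOk st fi la τ) (hA : τ ≠ some (mkCk N 1 (N + 1))) (hE : τ ≠ some (mkCk N 3 (N + 1))) :
    CkOk st fi la (nxt la τ) ∧ prv fi (nxt la τ) = τ ∧ nxt la τ ≠ some (mkCk N 2 (N + 1)) := by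
  rcases τ with _ | ⟨ph, j, hj⟩
  · simpa [nxt, prv, CkOk, mkCk] using h
  · simp only [ne_eq, Option.some.injEq, eq_mk] at hA hE
    match ph with
    | 0 =>
      by_cases e : j = N + 1
      · simp_all [nxt, prv, CkOk, mkCk]
      · have : min (j + 1) (N + 1) = j + 1 := by omega
        simp_all [nxt, prv, CkOk, mkCk]
        omega
    | 1 =>
      have : min (j + 1) (N + 1) = j + 1 := by simp at hA; omega
      by_cases e : j = 0
      · cases la <;> simp_all [nxt, prv, CkOk, mkCk]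
      · have e2 : j ≠ N + 1 := by omega
        simp_all [nxt, prv, CkOk, mkCk]
        omega
    | 2 =>
      by_cases e : j = 0
      · simp_all [nxt, prv, CkOk, mkCk]
      · have : min (j - 1) (N + 1) = j - 1 := by omega
        have e2 : j - 1 ≠ N + 1 := by omega
        simp_all [nxt, prv, CkOk, mkCk]
        omega
    | 3 =>
      have : min (j + 1) (N + 1) = j + 1 := by simp at hE; omega
      simp_all [nxt, prv, CkOk, mkCk]
      omega
    | 4 => simp [CkOk] at h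

theorem bwd {N : ℕ} {st : Prop} {fi la : Bool} (h1 : fi = true → st) {τ : Option (Ck N)}
    (h : CkOk st fi la τ) (h0 : τ ≠ none) (hB : τ ≠ some (mkCk N 2 (N + 1))) :
    CkOk st fi la (prv fi τ) ∧ nxt la (prv fi τ) = τ ∧ prv fi τ ≠ some (mkCk N 1 (N + 1)) := by
  rcases τ with _ | ⟨ph, j, hj⟩
  · exact absurd rfl h0
  · simp only [ne_eq, Option.some.injEq, eq_mk] at hB
    match ph with
    | 0 =>
      by_cases e : j ≤ 1
      · simp_all [nxt, prv, CkOk, mkCk]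
        omega
      · have : min (j - 1) (N + 1) = j - 1 := by omega
        have e2 : j - 1 ≠ N + 1 := by omega
        rw [show prv fi (some (0, ⟨j, hj⟩)) = some (mkCk N 0 (j - 1)) by simp [prv, e]]
        simp_all [nxt, CkOk, mkCk, Fin.ext_iff]
        omega
    | 1 =>
      by_cases e : j = 0
      · cases fi <;> simp_all [nxt, prv, CkOk, mkCk]
      · have : min (j - 1) (N + 1) = j - 1 := by omega
        have e2 : j - 1 ≠ N + 1 := by omega
        simp_all [nxt, prv, CkOk, mkCk]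
        omega
    | 2 =>
      have : min (j + 1) (N + 1) = j + 1 := by simp at hB; omega
      have e2 : j ≠ N + 1 := by omega
      simp_all [nxt, prv, CkOk, mkCk]
      omega
    | 3 =>
      by_cases e : j ≤ 1
      · simp_all [nxt, prv, CkOk, mkCk]
        omega
      · have : min (j - 1) (N + 1) = j - 1 := by omega
        rw [show prv fi (some (3, ⟨j, hj⟩)) = some (mkCk N 3 (j - 1)) by simp [prv, e]]
        simp_all [nxt, CkOk, mkCk, Fin.ext_iff]
        omega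
    | 4 => simp [CkOk] at h

variable {q r m n Cw c ℓ D : ℕ} {X : Type} {M : LBL c ℓ D X}

theorem lst_iff {σ : Fin c → Sym ℓ} {τ : Option (Ck ((D + 2) * n))} {x : X → Bool} :
    LSt M σ τ x ↔ M.Valid σ x ∧ CkOk (x = M.start σ) (x M.first) (x M.last) τ := by
  rcases τ with _ | ⟨ph, j⟩
  · simp [LSt, CkOk, allowed]
  · simp only [LSt, CkOk, allowed, Bool.false_eq_true, if_false, decide_eq_true_eq]
    tauto

theorem start_first (σ : Fin c → Sym ℓ) : M.start σ M.first = true := by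
  simp [LBL.start]

end GraphL

open GraphL

variable {q r m n Cw c ℓ D s : ℕ} {lam : ℝ} {X : Type} [Fact q.Prime] [Fact r.Prime] [Fintype X]
  [DecidableEq X] {ψ : AddChar (ZMod q) (ZMod r)} {Γ : Geo q m n Cw (Idx X ℓ)} {M : LBL c ℓ D X}

theorem graphP (hC : Cx ψ Γ M s lam) (_ : OcP M (ZMod r)) (hL : LiftP ψ Γ M s)
    (hK : CompP ψ Γ M) (hS : StepP ψ Γ M) : GraphP ψ Γ M s := by
  intro σ hW hV
  have sd : Seed q m n Cw c D ((D + 2) * n) r := ((⟨0, hC.cw⟩, 0), 0, 0, 0, 0)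
  have ev : ∀ (F : (RI q c D → ZMod r) → ZMod r) g y t,
      (mkRule Γ RI.inp (fun _ v => F v) y t).eval (fun j => symW ψ Γ M (σ j)) (word g) =
        F (iv Γ g (inpF ψ Γ M σ) y t) := fun F g y t => by
    rw [hL.eval, hL.exL]
  have step : ∀ τ x τ' x', LSt M σ τ x → LSt M σ τ' x' → nxt (x M.last) τ = τ' →
      prv (x' M.first) τ' = τ →
      (if τ = some (mkCk _ 1 ((D + 2) * n + 1)) then vecs M τ x else vecs M τ' x) =
        (vecs M τ' x' : _ → _ → ZMod r) →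
      (if τ' = some (mkCk _ 2 ((D + 2) * n + 1)) then vecs M τ' x' else vecs M τ x') =
        (vecs M τ x : _ → _ → ZMod r) →
      (sysL ψ Γ M (s1 D s)).Step (fun j => symW ψ Γ M (σ j)) (word (gS ψ Γ M τ x))
        (word (gS ψ Γ M τ' x')) := by
    intro τ x τ' x' h h' e1 e2 e3 e4
    refine ⟨(hV _).2 ⟨_, _, h, rfl⟩, (hV _).2 ⟨_, _, h', rfl⟩, fun y t => ?_, fun y t => ?_⟩
    · refine (ev (stepv ψ Γ M true y) _ y t).trans ((hS.suc σ τ x hW h y t).trans ?_)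
      rw [e1, e3, gS]
    · refine (ev (stepv ψ Γ M false y) _ y t).trans ((hS.pre σ τ' x' hW h' y t).trans ?_)
      rw [e2, e4, gS]
  have cross : ∀ x x', M.Step σ x x' → (sysL ψ Γ M (s1 D s)).Step (fun j => symW ψ Γ M (σ j))
      (word (gS ψ Γ M (some (mkCk _ 1 ((D + 2) * n + 1))) x))
      (word (gS ψ Γ M (some (mkCk _ 2 ((D + 2) * n + 1))) x')) := by
    intro x x' ⟨h1, h2, h3, h4, h5, h6⟩
    have e1 : sucx M x = x' := funext h5
    have e2 : prex M x' = x := funext h6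
    have e3 : (vecs M (some (mkCk ((D + 2) * n) 1 ((D + 2) * n + 1))) x : _ → _ → ZMod r) =
        vecs M (some (mkCk ((D + 2) * n) 2 ((D + 2) * n + 1))) x' := by
      funext b
      simp [vecs, mkCk, e1, e2]
    refine step _ _ _ _ (lst_iff.2 ⟨h1, ?_⟩) (lst_iff.2 ⟨h2, ?_⟩) ?_ ?_ ((if_pos rfl).trans e3)
      ((if_pos rfl).trans e3.symm)
    · simp [CkOk, mkCk, h3]
    · simp [CkOk, mkCk, h4]
    · simp [nxt, mkCk]
    · simp [prv, mkCk]
  have sink : ∀ τ x, LSt M σ τ x → (¬ ∃ W', (sysL ψ Γ M (s1 D s)).Step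
      (fun j => symW ψ Γ M (σ j)) (word (gS ψ Γ M τ x)) W') →
      (¬ ∃ x', M.Step σ x x') ∧ (τ = some (mkCk _ 1 ((D + 2) * n + 1)) ∧ x M.last = false ∨
        τ = some (mkCk _ 3 ((D + 2) * n + 1))) := by
    intro τ x h hn
    have h1 := (lst_iff.1 h).2
    by_cases hA : τ = some (mkCk _ 1 ((D + 2) * n + 1))
    · subst hA
      exact ⟨fun ⟨x', h'⟩ => hn ⟨_, cross x x' h'⟩,
        Or.inl ⟨rfl, by simpa [CkOk, mkCk] using h1⟩⟩
    by_cases hE : τ = some (mkCk _ 3 ((D + 2) * n + 1))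
    · subst hE
      have h2 : x M.last = true := by simpa [CkOk, mkCk] using h1
      exact ⟨fun ⟨x', h'⟩ => by simpa [h2] using h'.2.2.1, Or.inr rfl⟩
    obtain ⟨h2, h3, h4⟩ := fwd (fun e => by rw [e, start_first]) h1 hA hE
    exact absurd ⟨_, step _ _ _ _ h (lst_iff.2 ⟨h.2.1, h2⟩) rfl h3 (if_neg hA) (if_neg h4)⟩ hn
  have source : ∀ τ x, LSt M σ τ x → word (gS ψ Γ M τ x) ≠ (sysL ψ Γ M (s1 D s)).st →
      (¬ ∃ W', (sysL ψ Γ M (s1 D s)).Step (fun j => symW ψ Γ M (σ j)) W' (word (gS ψ Γ M τ x))) →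
      (¬ ∃ x', M.Step σ x' x) ∧ x ≠ M.start σ ∧ τ = some (mkCk _ 2 ((D + 2) * n + 1)) := by
    intro τ x h hne hn
    have h1 := (lst_iff.1 h).2
    by_cases hB : τ = some (mkCk _ 2 ((D + 2) * n + 1))
    · subst hB
      have h2 : x M.first = false := by simpa [CkOk, mkCk] using h1
      exact ⟨fun ⟨x', h'⟩ => hn ⟨_, cross x' x h'⟩,
        fun e => by simp [e, start_first] at h2, rfl⟩
    obtain ⟨h2, h3, h4⟩ := bwd (hW.uniq x h.2.1) h1 (fun e => hne (e ▸ hK.zero _)) hB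
    exact absurd ⟨_, step _ _ _ _ (lst_iff.2 ⟨h.2.1, h2⟩) h h3 rfl (if_neg h4) (if_neg hB)⟩ hn
  have h0 : LSt M σ (none : Option (Ck ((D + 2) * n))) (M.start σ) := lst_iff.2 ⟨hW.valid, rfl⟩
  have e0 : (sysL ψ Γ M (s1 D s)).st = word (gS ψ Γ M none (M.start σ)) := (hK.zero _).symm
  refine ⟨⟨(hV _).2 ⟨_, _, h0, e0⟩, ?_, ?_⟩, fun W hE => ?_, fun τo hE => ⟨fun W h hne => ?_,
    fun W h hn y t => ?_⟩⟩
  · by_contra hn
    rw [e0] at hn
    simpa using (sink _ _ h0 hn).2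
  · rintro ⟨W, h⟩
    obtain ⟨τ, x, h1, rfl⟩ := (hV W).1 h.1
    have h2 := funext fun y =>
      ((ev (stepv ψ Γ M true y) _ y sd).trans (hS.suc σ τ x hW h1 y sd)).symm.trans (h.2.2.1 y sd)
    rw [e0] at h2
    exact nxt_ne _ _ (hK.inj _ _ _ _ (hK.word_inj _ _ h2)).1
  · obtain ⟨τ, x, h1, rfl⟩ := (hV W).1 hE.1
    rcases hE.2 with hn | ⟨hne, hn⟩
    · obtain ⟨h2, ⟨rfl, -⟩ | rfl⟩ := sink τ x h1 hn
      · rw [mkCk, hK.decL _ _ _ (Or.inl rfl)]
        exact ⟨h1.2.1, Or.inl h2⟩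
      · rw [mkCk, hK.decL _ _ _ (Or.inr (Or.inr rfl))]
        exact ⟨h1.2.1, Or.inl h2⟩
    · obtain ⟨h2, h3, rfl⟩ := source τ x h1 hne hn
      rw [mkCk, hK.decL _ _ _ (Or.inr (Or.inl rfl))]
      exact ⟨h1.2.1, Or.inr ⟨h3, h2⟩⟩
  · obtain ⟨τ, x, h1, rfl⟩ := (hV W).1 h
    by_contra hn
    obtain ⟨h2, h3, -⟩ := source τ x h1 hne hn
    exact h2 (hE.1 x h1.2.1 h3)
  · obtain ⟨τ, x, h1, rfl⟩ := (hV W).1 h
    obtain ⟨h2, h3⟩ := sink τ x h1 hn
    obtain ⟨h4, h5⟩ := hE.2 x h1.2.1 h2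
    rcases h3 with ⟨-, h3⟩ | rfl
    · simp [h3] at h4
    · refine (ev (outv y) _ y t).trans ((hS.out σ x y t).trans ?_)
      rw [show outx M x = τo from funext h5]

end Vale.Agent.P330.Bohr
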