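import Vale.Agent.P330.Bohr.Line

/-!
P330, inner system: the linearity test and the line test together.
-/

namespace Vale.Agent.P330.Bohr

namespace HadP

/-! ### Fractions and means -/

section Frac

variable {C D : Type} [Fintype C] [Fintype D]

open Classical in
theorem frac_eq_mean (p : C → Prop) : frac p = mean fun c => if p c then 1 else 0 := by
  unfold frac mean
  rw [Finset.sum_boole]

theorem mean_mono {f g : C → ℝ} (h : ∀ c, f c ≤ g c) : mean f ≤ mean g :=
  div_le_div_of_nonneg_right (Finset.sum_le_sum fun c _ => h c) (by positivity)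

theorem mean_add (f g : C → ℝ) : mean (fun c => f c + g c) = mean f + mean g := by
  unfold mean
  rw [Finset.sum_add_distrib, add_div]

theorem mean_mul (a : ℝ) (f : C → ℝ) : mean (fun c => a * f c) = a * mean f := by
  unfold mean
  rw [← Finset.mul_sum, mul_div_assoc]

theorem mean_const [Nonempty C] (a : ℝ) : mean (fun _ : C => a) = a := by
  unfold mean
  have : (Fintype.card C : ℝ) ≠ 0 := by positivity
  rw [Finset.sum_const, Finset.card_univ, nsmul_eq_mul]
  field_simp

theorem mean_prod (f : C × D → ℝ) : mean f = mean fun c => mean fun d => f (c, d) := by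
  unfold mean
  rw [Fintype.sum_prod_type, Fintype.card_prod, ← Finset.sum_div, div_div, Nat.cast_mul,
    mul_comm]

theorem mean_equiv (e : C ≃ D) (f : D → ℝ) : mean (fun c => f (e c)) = mean f := by
  unfold mean
  rw [Equiv.sum_comp e f, Fintype.card_congr e]

theorem exists_le_mean [Nonempty C] (f : C → ℝ) : ∃ c, f c ≤ mean f := by
  obtain ⟨c, hc⟩ := Finite.exists_min f
  exact ⟨c, (mean_const (C := C) (f c)).symm.le.trans (mean_mono hc)⟩

theorem frac_nonneg (p : C → Prop) : 0 ≤ frac p := by
  unfold frac; positivity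

theorem frac_mono {p q : C → Prop} (h : ∀ c, p c → q c) : frac p ≤ frac q := by
  rw [frac_eq_mean, frac_eq_mean]
  refine mean_mono fun c => ?_
  by_cases hp : p c
  · simp [hp, h c hp]
  · simp only [hp, if_false]; split_ifs <;> norm_num

theorem frac_congr {p q : C → Prop} (h : ∀ c, p c ↔ q c) : frac p = frac q :=
  le_antisymm (frac_mono fun c => (h c).1) (frac_mono fun c => (h c).2)

theorem frac_all [Nonempty C] {p : C → Prop} (h : ∀ c, p c) : frac p = 1 := by
  rw [frac_eq_mean]
  simp only [h, if_true]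
  exact mean_const 1

theorem frac_none {p : C → Prop} (h : ∀ c, ¬ p c) : frac p = 0 := by
  rw [frac_eq_mean]
  simp [h, mean]

theorem frac_le_one [Nonempty C] (p : C → Prop) : frac p ≤ 1 :=
  (frac_mono (q := fun _ => True) fun _ _ => trivial).trans (frac_all fun _ => trivial).le

theorem frac_le_add {p q r : C → Prop} (h : ∀ c, p c → q c ∨ r c) : frac p ≤ frac q + frac r := by
  rw [frac_eq_mean, frac_eq_mean, frac_eq_mean, ← mean_add]
  refine mean_mono fun c => ?_
  by_cases hp : p c
  · rcases h c hp with h1 | h1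
    · simp only [hp, h1, if_true]; split_ifs <;> norm_num
    · simp only [hp, h1, if_true]; split_ifs <;> norm_num
  · simp only [hp, if_false]; split_ifs <;> norm_num

theorem frac_prod (p : C × D → Prop) : frac p = mean fun c => frac fun d => p (c, d) := by
  rw [frac_eq_mean, mean_prod]
  simp only [frac_eq_mean]

theorem frac_equiv (e : C ≃ D) (p : D → Prop) : frac (fun c => p (e c)) = frac p := by
  rw [frac_eq_mean, frac_eq_mean]
  exact mean_equiv e fun d => by classical exact if p d then 1 else 0

theorem frac_const_le (P : Prop) [Nonempty C] {a : ℝ} (h0 : 0 ≤ a) (h : P → 1 ≤ a) :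
    frac (fun _ : C => P) ≤ a := by
  by_cases hP : P
  · exact (frac_le_one _).trans (h hP)
  · rw [frac_none fun _ => hP]; exact h0

theorem frac_fst [Nonempty D] (p : C → Prop) : frac (fun x : C × D => p x.1) = frac p := by
  rw [frac_prod, frac_eq_mean]
  congr 1
  funext c
  by_cases hp : p c
  · simp only [hp, if_true]; exact frac_all fun _ => trivial
  · simp only [hp, if_false]; exact frac_none fun _ => id

/-- a fraction bounded through a pointwise bound of the indicator -/
theorem frac_le_mean {p : C → Prop} {f : C → ℝ} (h0 : ∀ c, 0 ≤ f c) (h : ∀ c, p c → 1 ≤ f c) :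
    frac p ≤ mean f := by
  rw [frac_eq_mean]
  refine mean_mono fun c => ?_
  split_ifs with hp
  · exact h c hp
  · exact h0 c

theorem frac_exists_le {ι : Type} (S : Finset ι) (p : ι → C → Prop) {a : ℝ}
    (h : ∀ i ∈ S, frac (p i) ≤ a) : frac (fun c => ∃ i ∈ S, p i c) ≤ S.card * a := by
  classical
  induction S using Finset.induction_on with
  | empty => rw [frac_none (by simp)]; simp
  | insert i S hi ih =>
    rw [Finset.card_insert_of_notMem hi]
    have h1 := ih fun j hj => h j (Finset.mem_insert_of_mem hj)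
    have h2 := h i (Finset.mem_insert_self _ _)
    have h3 : frac (fun c => ∃ j ∈ insert i S, p j c) ≤
        frac (p i) + frac (fun c => ∃ j ∈ S, p j c) :=
      frac_le_add fun c ⟨j, hj, hc⟩ => by
        rcases Finset.mem_insert.1 hj with rfl | hj
        · exact Or.inl hc
        · exact Or.inr ⟨j, hj, hc⟩
    push_cast
    linarith

end Frac

/-! ### The linearity test -/

section BLR

variable {A B : Type} [AddCommGroup A] [Fintype A] [AddCommGroup B]

/-- the rejection probability of the linearity test -/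
noncomputable def rej (F : A → B) : ℝ := frac fun x : A × A => F (x.1 + x.2) ≠ F x.1 + F x.2

theorem self_corr (F : A → B) (x : A) :
    ∃ b : B, frac (fun u => F (x + u) - F u ≠ b) ≤ 2 * rej F := by
  have h1 : frac (fun y : A × A => F ((x + y.2) + y.1) ≠ F (x + y.2) + F y.1) = rej F :=
    frac_equiv ((Equiv.prodComm A A).trans ((Equiv.addLeft x).prodCongr (Equiv.refl A)))
      fun y : A × A => F (y.1 + y.2) ≠ F y.1 + F y.2
  have h2 : frac (fun y : A × A => F ((x + y.1) + y.2) ≠ F (x + y.1) + F y.2) = rej F :=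
    frac_equiv ((Equiv.addLeft x).prodCongr (Equiv.refl A))
      fun y : A × A => F (y.1 + y.2) ≠ F y.1 + F y.2
  have h3 : frac (fun y : A × A => F (x + y.2) - F y.2 ≠ F (x + y.1) - F y.1) ≤ 2 * rej F := by
    refine (frac_le_add (q := fun y : A × A => F ((x + y.2) + y.1) ≠ F (x + y.2) + F y.1)
      (r := fun y : A × A => F ((x + y.1) + y.2) ≠ F (x + y.1) + F y.2) fun y hy => ?_).trans
      (by rw [h1, h2]; linarith)
    by_contra hc
    push Not at hc
    apply hy
    have e : x + y.2 + y.1 = x + y.1 + y.2 := by abel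
    have h4 := hc.1
    rw [e, hc.2] at h4
    rw [sub_eq_sub_iff_add_eq_add, h4]
  rw [frac_prod] at h3
  obtain ⟨v, hv⟩ := exists_le_mean fun v : A => frac fun u : A => F (x + u) - F u ≠ F (x + v) - F v
  exact ⟨_, hv.trans h3⟩

theorem blr (F : A → B) (h : rej F ≤ 1 / 10) :
    ∃ φ : A →+ B, frac (fun x => F x ≠ φ x) ≤ 3 * rej F := by
  choose φ hφ using self_corr F
  have hadd : ∀ x y, φ (x + y) = φ x + φ y := by
    intro x y
    by_contra hne
    have h1 : frac (fun u => F (x + (y + u)) - F (y + u) ≠ φ x) ≤ 2 * rej F :=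
      (frac_equiv (Equiv.addLeft y) fun u => F (x + u) - F u ≠ φ x).le.trans (hφ x)
    have h2 := hφ y
    have h3 := hφ (x + y)
    have h4 : frac (fun _ : A => True) ≤ frac (fun u => F (x + (y + u)) - F (y + u) ≠ φ x) +
        frac (fun u => F (y + u) - F u ≠ φ y ∨ F (x + y + u) - F u ≠ φ (x + y)) :=
      frac_le_add fun u _ => by
        by_contra hc
        push Not at hc
        apply hne
        rw [← hc.1, ← hc.2.1, ← hc.2.2, add_assoc]
        abel
    have h5 : frac (fun u => F (y + u) - F u ≠ φ y ∨ F (x + y + u) - F u ≠ φ (x + y)) ≤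
        frac (fun u => F (y + u) - F u ≠ φ y) + frac (fun u => F (x + y + u) - F u ≠ φ (x + y)) :=
      frac_le_add fun u hu => hu
    rw [frac_all fun _ => trivial] at h4
    linarith
  refine ⟨AddMonoidHom.mk' φ hadd, ?_⟩
  have h0 : 0 ≤ rej F := frac_nonneg _
  have h1 : frac (fun x => F x ≠ φ x) ≤
      mean fun x => frac (fun u => F (x + u) ≠ F x + F u) + 2 * rej F := by
    refine frac_le_mean (fun x => by have := frac_nonneg fun u => F (x + u) ≠ F x + F u; linarith)
      fun x hx => ?_
    have h4 : frac (fun _ : A => True) ≤ frac (fun u => F (x + u) ≠ F x + F u) +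
        frac (fun u => F (x + u) - F u ≠ φ x) :=
      frac_le_add fun u _ => by
        by_contra hc
        push Not at hc
        apply hx
        rw [← hc.2, hc.1, add_sub_cancel_right]
    rw [frac_all fun _ => trivial] at h4
    linarith [hφ x]
  rw [mean_add, mean_const] at h1
  have h2 : rej F = mean fun x => frac fun u => F (x + u) ≠ F x + F u := frac_prod _
  change frac (fun x => F x ≠ φ x) ≤ _
  linarith

end BLR

section Vec

variable {r : ℕ} [Fact r.Prime] {H : Type} [Fintype H] [DecidableEq H]

theorem add_form (φ : Vec H (ZMod r) →+ ZMod r) :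
    ∃ v : H → ZMod r, ∀ c, φ c = ∑ i, c i * v i := by
  let φ' : (H → ZMod r) →+ ZMod r := φ
  refine ⟨fun i => φ' fun j => if i = j then 1 else 0, fun c => ?_⟩
  exact LinearMap.pi_apply_eq_sum_univ (φ'.toZModLinearMap r) c

theorem blr_vec (F : Vec H (ZMod r) → ZMod r) :
    ∃ v : H → ZMod r, frac (fun c => F c ≠ ∑ i, c i * v i) ≤ 10 * rej F := by
  have h0 : 0 ≤ rej F := frac_nonneg _
  by_cases h : rej F ≤ 1 / 10
  · obtain ⟨φ, hφ⟩ := blr F h
    obtain ⟨v, hv⟩ := add_form φ
    refine ⟨v, ?_⟩
    simp only [← hv]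
    linarith
  · exact ⟨0, (frac_le_one _).trans (by linarith)⟩

end Vec

/-! ### Lines of vectors and lines of scalars -/

section Line

variable {q : ℕ} [NeZero q] {K : Type} [Field K] (ψ : AddChar (ZMod q) K) (s : ℕ)

omit [NeZero q] in
theorem lineCode_sub {E : Type} [AddCommGroup E] [Module K E] {f g : ZMod q → E}
    (hf : LineCode ψ s f) (hg : LineCode ψ s g) : LineCode ψ s fun t => f t - g t := by
  obtain ⟨e, he⟩ := hf
  obtain ⟨e', he'⟩ := hg
  refine ⟨fun i => e i - e' i, fun t => ?_⟩
  simp only [he, he', smul_sub, Finset.sum_sub_distrib]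

omit [NeZero q] in
theorem lineCode_pi {H : Type} {f : ZMod q → H → K} (h : ∀ i, LineCode ψ s fun t => f t i) :
    LineCode ψ s f := by
  choose e he using h
  refine ⟨fun k i => e i k, fun t => ?_⟩
  funext i
  rw [Finset.sum_apply]
  exact he i t

omit [NeZero q] in
/-- If a line of vectors is not in the code, then at least half of its scalar projections are
not in the code. -/
theorem half_bad {H : Type} [Fintype H] [DecidableEq H] [Fintype K] {f : ZMod q → H → K}
    (h : ¬ LineCode ψ s f) :
    1 ≤ 2 * frac fun c : Vec H K => ¬ LineCode ψ s fun t => ∑ i, c i * f t i := by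
  have h0 : ∃ i, ¬ LineCode ψ s fun t => f t i := by
    by_contra hc
    push Not at hc
    exact h (lineCode_pi ψ s hc)
  obtain ⟨i0, hi0⟩ := h0
  let c0 : Vec H K := fun i => if i = i0 then 1 else 0
  have h1 : frac (fun c : Vec H K => ¬ LineCode ψ s fun t => ∑ i, (c + c0) i * f t i) =
      frac fun c : Vec H K => ¬ LineCode ψ s fun t => ∑ i, c i * f t i :=
    frac_equiv (Equiv.addRight c0) fun c : Vec H K => ¬ LineCode ψ s fun t => ∑ i, c i * f t i
  have h2 : frac (fun _ : Vec H K => True) ≤
      frac (fun c : Vec H K => ¬ LineCode ψ s fun t => ∑ i, (c + c0) i * f t i) +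
        frac fun c : Vec H K => ¬ LineCode ψ s fun t => ∑ i, c i * f t i :=
    frac_le_add fun c _ => by
      by_contra hc
      push Not at hc
      apply hi0
      have h3 := lineCode_sub ψ s hc.1 hc.2
      convert h3 using 2 with t
      have e : ∀ i, (c + c0) i = c i + c0 i := fun _ => rfl
      simp [e, add_mul, Finset.sum_add_distrib, c0]
  rw [frac_all fun _ => trivial] at h2
  linarith

end Line

end HadP

open HadP in
theorem hadStmt (h : LTCStmt) : HadStmt := by
  obtain ⟨lam, β0, C0, hlam, hβ0, hC0, h⟩ := h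
  refine ⟨lam, hlam, fun q r _ _ => ⟨β0 / (2 + 20 * q), 10 + C0 * (2 + 20 * q), by positivity,
    by positivity, fun ψ hψ G _ _ _ J _ _ W hW s hs H _ _ T θ hθ h1 h2 => ?_⟩⟩
  have hθ0 : 0 ≤ θ := (frac_nonneg _).trans h1
  choose f hf using fun p : G => blr_vec fun c : Vec H (ZMod r) => T (p, c)
  have hTf : frac (fun x => T x ≠ word f x) ≤ 10 * θ := by
    rw [frac_prod] at h1 ⊢
    refine (mean_mono hf).trans ?_
    rw [mean_mul]
    exact mul_le_mul_of_nonneg_left h1 (by norm_num)
  have hshift : ∀ t : ZMod q, frac (fun x : (G × Vec H (ZMod r)) × J =>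
      T (x.1.1 + t • W x.2, x.1.2) ≠ word f (x.1.1 + t • W x.2, x.1.2)) ≤ 10 * θ := by
    intro t
    let e : (G × Vec H (ZMod r)) × J ≃ (G × Vec H (ZMod r)) × J :=
      ⟨fun x => ((x.1.1 + t • W x.2, x.1.2), x.2), fun x => ((x.1.1 - t • W x.2, x.1.2), x.2),
        fun x => by simp, fun x => by simp⟩
    have h3 := frac_equiv e fun x : (G × Vec H (ZMod r)) × J => T x.1 ≠ word f x.1
    rw [frac_fst (D := J) fun x => T x ≠ word f x] at h3
    exact h3.le.trans hTf
  have hline : frac (fun x : (G × Vec H (ZMod r)) × J =>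
      ¬ LineCode ψ s fun t : ZMod q => word f (x.1.1 + t • W x.2, x.1.2)) ≤ θ + q * (10 * θ) := by
    have h3 := frac_exists_le (Finset.univ : Finset (ZMod q)) _ fun t _ => hshift t
    rw [Finset.card_univ, ZMod.card] at h3
    refine (frac_le_add fun x hx => ?_).trans (add_le_add h2 h3)
    by_contra hc
    push Not at hc
    apply hx
    have e : (fun t : ZMod q => word f (x.1.1 + t • W x.2, x.1.2)) =
        fun t : ZMod q => T (x.1.1 + t • W x.2, x.1.2) :=
      funext fun t => (hc.2 t (Finset.mem_univ _)).symm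
    rw [e]
    exact hc.1
  have hbad : frac (fun x : G × J => ¬ LineCode ψ s fun t : ZMod q => f (x.1 + t • W x.2)) ≤
      (2 + 20 * q) * θ := by
    let e : (G × J) × Vec H (ZMod r) ≃ (G × Vec H (ZMod r)) × J :=
      ⟨fun x => ((x.1.1, x.2), x.1.2), fun x => ((x.1.1, x.2), x.1.2), fun _ => rfl, fun _ => rfl⟩
    rw [← frac_equiv e, frac_prod] at hline
    have h3 := frac_le_mean (C := G × J)
      (p := fun x => ¬ LineCode ψ s fun t : ZMod q => f (x.1 + t • W x.2))
      (f := fun x => 2 * frac fun c : Vec H (ZMod r) =>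
        ¬ LineCode ψ s fun t : ZMod q => ∑ i, c i * f (x.1 + t • W x.2) i)
      (fun x => mul_nonneg (by norm_num) (frac_nonneg _)) fun x hx => half_bad ψ s hx
    rw [mean_mul] at h3
    have h4 : (mean fun x : G × J => frac fun c : Vec H (ZMod r) =>
        ¬ LineCode ψ s fun t : ZMod q => ∑ i, c i * f (x.1 + t • W x.2) i) ≤ θ + q * (10 * θ) :=
      hline
    linarith
  have hq : (0 : ℝ) < 2 + 20 * q := by positivity
  obtain ⟨g, J', hg, hJ, hcode⟩ := h q (ZMod r) ψ hψ (H → ZMod r) G J W hW s hs f _
    (by rwa [le_div_iff₀ hq, mul_comm] at hθ) hbad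
  refine ⟨g, J', ?_, by nlinarith, hcode⟩
  have h3 : frac (fun x => T x ≠ word g x) ≤ frac (fun x => T x ≠ word f x) +
      frac (fun x : G × Vec H (ZMod r) => f x.1 ≠ g x.1) :=
    frac_le_add fun x hx => by
      by_contra hc
      push Not at hc
      apply hx
      rw [hc.1]
      simp only [word, hc.2]
  rw [frac_fst fun p => f p ≠ g p] at h3
  nlinarith

end Vale.Agent.P330.Bohr
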