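import Vale.Agent.P330.Bohr.Stm

/-!
P330, inner system: evaluation of words at the coefficient vectors of the probes.
-/

namespace Vale.Agent.P330.Bohr

open Finset

set_option linter.unusedSectionVars false

section Word

variable {G H K : Type} [Fintype H] [CommRing K]

theorem word_ap (g : G → H → K) (p : G) (y : Vec H K) : word g (p, y) = ∑ i, y i * g p i := rfl

theorem word_add (g : G → H → K) (p : G) (y y' : Vec H K) :
    word g (p, y + y') = word g (p, y) + word g (p, y') := by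
  simp only [word_ap, vadd_ap, add_mul, sum_add_distrib]

theorem word_sub (g : G → H → K) (p : G) (y y' : Vec H K) :
    word g (p, y - y') = word g (p, y) - word g (p, y') := by
  simp only [word_ap, vsub_ap, sub_mul, sum_sub_distrib]

theorem word_smul (g : G → H → K) (p : G) (t : K) (y : Vec H K) :
    word g (p, t • y) = t * word g (p, y) := by
  simp only [word_ap, vsmul_ap, smul_eq_mul, mul_sum, mul_assoc]

theorem word_zero (g : G → H → K) (p : G) : word g (p, 0) = 0 := by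
  simp only [word_ap, vzero_ap, zero_mul, sum_const_zero]

theorem word_add_sub (g : G → H → K) (p : G) (y u : Vec H K) :
    word g (p, y + u) - word g (p, u) = word g (p, y) := by
  rw [word_add, add_sub_cancel_right]

theorem word_unitV [DecidableEq H] (g : G → H → K) (p : G) (h : H) :
    word g (p, unitV h) = g p h := by
  rw [word_ap, sum_eq_single h]
  · simp [unitV]
  · intro i _ hi
    simp [unitV, hi]
  · simp

theorem word_sub_tab (g g' : G → H → K) (x : G × Vec H K) :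
    word (fun p => g p - g' p) x = word g x - word g' x := by
  simp only [word, Pi.sub_apply, mul_sub, sum_sub_distrib]

end Word

section Coef

variable {c D N r : ℕ} {G : Type}

theorem cf_lt (y : Yv c D N r) (b : Fin 2) (ch : Ch c) (l : Fin (N + 1)) :
    cf y b ch l = y (.inl (b, .inl (ch, l))) := by
  simp only [cf, l.2, dite_true]

theorem cf_ge (y : Yv c D N r) (b : Fin 2) (ch : Ch c) {l : ℕ} (h : N + 1 ≤ l) :
    cf y b ch l = 0 := by
  simp only [cf, not_lt.2 h, dite_false]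

theorem cf_zero (y : Yv c D N r) (b : Fin 2) (ch : Ch c) : cf y b ch 0 = y (hV b ch) :=
  cf_lt y b ch 0

theorem cDn_succ (y : Yv c D N r) (b : Fin 2) (ch : Ch c) (l : ℕ) :
    cDn y b ch (l + 1) = cf y b ch l := by
  simp [cDn]

theorem cDn_zero (y : Yv c D N r) (b : Fin 2) (ch : Ch c) : cDn y b ch 0 = 0 := by
  simp [cDn]

/-- the three parts of a word -/
theorem word_parts (g : G → Hx c D N → ZMod r) (p : G) (y : Yv c D N r) :
    word g (p, y) = ∑ b, (∑ ch, ∑ l : Fin (N + 1),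
      y (.inl (b, .inl (ch, l))) * g p (.inl (b, .inl (ch, l))) +
        ∑ d, cF y b d * g p (hF b d)) + ∑ τ, y (.inr τ) * g p (.inr τ) := by
  rw [word_ap, Fintype.sum_sum_type, Fintype.sum_prod_type]
  simp only [Fintype.sum_sum_type (α₂ := Fin (D + 2)), Fintype.sum_prod_type (α₁ := Ch c)]
  rfl

theorem word_mkY (g : G → Hx c D N → ZMod r) (p : G) (b : Fin 2) (f : Ch c → ℕ → ZMod r)
    (e : Fin (D + 2) → ZMod r) (k : Ck N → ZMod r) :
    word g (p, mkY b f e k) = ∑ ch, ∑ l : Fin (N + 1), f ch l * g p (.inl (b, .inl (ch, l))) +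
      ∑ d, e d * g p (hF b d) + ∑ τ, k τ * g p (.inr τ) := by
  rw [word_parts, sum_eq_single b]
  · simp [mkY, cF]
  · intro b' _ hb
    simp [mkY, cF, hb]
  · simp

theorem word_ckY (g : G → Hx c D N → ZMod r) (p : G) (k : Ck N → ZMod r) :
    word g (p, ckY k) = ∑ τ, k τ * g p (.inr τ) := by
  rw [ckY, word_mkY]
  simp

/-- the block of the table `b` -/
theorem word_blk (g : G → Hx c D N → ZMod r) (p : G) (y : Yv c D N r) (b b' : Fin 2) :
    word g (p, mkY b' (cf y b) (cF y b) fun _ => 0) =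
      ∑ i, y (.inl (b, i)) * g p (.inl (b', i)) := by
  rw [word_mkY, Fintype.sum_sum_type (α₂ := Fin (D + 2)), Fintype.sum_prod_type (α₁ := Ch c)]
  simp only [cf_lt, cF, hF, zero_mul, sum_const_zero, add_zero]

/-- a word is the sum of the two blocks and the clock part -/
theorem word_blocks (g : G → Hx c D N → ZMod r) (p : G) (y : Yv c D N r) :
    word g (p, y) = ∑ b, ∑ i, y (.inl (b, i)) * g p (.inl (b, i)) +
      ∑ τ, y (.inr τ) * g p (.inr τ) := by
  rw [word_ap, Fintype.sum_sum_type, Fintype.sum_prod_type]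

/-- the value of a clock part for an exact clock -/
theorem sum_clock {τ : Option (Ck N)} {e : Ck N → ZMod r}
    (he : ∀ τ', e τ' = if τ = some τ' then 1 else 0) (k : Ck N → ZMod r) :
    ∑ τ', k τ' * e τ' = τ.elim 0 k := by
  simp only [he]
  cases τ with
  | none => simp
  | some t =>
    rw [sum_eq_single t]
    · simp
    · intro t' _ ht
      simp [Ne.symm ht]
    · simp

end Coef

section Probes

variable {q r m n Cw c ℓ D : ℕ} {X : Type} [NeZero q] [Fact r.Prime] (Γ : Geo q m n Cw (Idx X ℓ))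
  (g : Pt q m → Hx c D ((D + 2) * n) → ZMod r) (ι : Fin c → Pt q m → ZMod r)
  (x : Pos q m c D ((D + 2) * n) r) (s : Seed q m n Cw c D ((D + 2) * n) r)

theorem iv_ck (i : CI c) : iv Γ g ι x s (.ck i) =
    word g (x.1, ckY fun τ => cv x.2 i (some τ) - cv x.2 i none) := rfl

theorem iv_lin (i : LI c D) : iv Γ g ι x s (.lin i) = word g (x.1, lv x.2 s.2.2.1 i) := rfl

theorem iv_far : iv Γ g ι x s .far = ∑ τ, x.2 (.inr τ) * g (x.1 + s.2.2.2.1) (.inr τ) :=
  word_ckY _ _ _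

theorem iv_ck0 : iv Γ g ι x s (.lin .ck0) = ∑ τ, x.2 (.inr τ) * g x.1 (.inr τ) := word_ckY _ _ _

theorem iv_ck1 : iv Γ g ι x s (.lin .ck1) = ∑ τ, s.2.2.1 (.inr τ) * g x.1 (.inr τ) :=
  word_ckY _ _ _

theorem iv_ck2 : iv Γ g ι x s (.lin .ck2) =
    ∑ τ, x.2 (.inr τ) * s.2.2.1 (.inr τ) * g x.1 (.inr τ) := word_ckY _ _ _

theorem iv_F (b : Fin 2) (d : Fin (D + 2)) : iv Γ g ι x s (.lin (.F b d)) = g x.1 (hF b d) :=
  word_unitV _ _ _

theorem iv_V (b : Fin 2) (ch : Ch c) : iv Γ g ι x s (.lin (.V b ch)) = g x.1 (hV b ch) :=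
  word_unitV _ _ _

theorem iv_zi (b : Fin 2) (d : Fin (D + 2)) :
    iv Γ g ι x s (.zi b d) = g (ziP Γ D x.1 s.2.2.2.2) (hF b d) := word_unitV _ _ _

theorem iv_sv (d : Fin (D + 2)) (b : Fin 2) (ch : Ch c) :
    iv Γ g ι x s (.sv d b ch) = g (piD Γ D d x.1) (hV b ch) := word_unitV _ _ _

theorem iv_inP (j : Fin c) : iv Γ g ι x s (.inP j) = ι j x.1 := rfl

theorem iv_inS (j : Fin c) (d : Fin (D + 2)) : iv Γ g ι x s (.inS j d) = ι j (piD Γ D d x.1) := rfl

theorem iv_blk (b : Fin 2) :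
    iv Γ g ι x s (.lin (.blk b)) = ∑ i, x.2 (.inl (b, i)) * g x.1 (.inl (b, i)) :=
  word_blk _ _ _ _ _

theorem iv_swp (b : Fin 2) :
    iv Γ g ι x s (.lin (.swp b)) = ∑ i, x.2 (.inl (b, i)) * g x.1 (.inl (b + 1, i)) :=
  word_blk _ _ _ _ _

theorem lay_lt (b : Fin 2) (ch : Ch c) (l : Fin ((D + 2) * n + 1)) (p : Pt q m) :
    lay g b ch l p = g p (.inl (b, .inl (ch, l))) := by
  simp only [lay, l.2, dite_true]

theorem lay_ge (b : Fin 2) (ch : Ch c) {l : ℕ} (h : (D + 2) * n + 1 ≤ l) : lay g b ch l = 0 := by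
  funext p
  simp only [lay, not_lt.2 h, dite_false, Pi.zero_apply]

theorem lay_zero (b : Fin 2) (ch : Ch c) (p : Pt q m) : lay g b ch 0 p = g p (hV b ch) :=
  lay_lt g b ch 0 p

/-- the layer part of a word as a sum over a range -/
theorem word_mkY_lay (p : Pt q m) (b : Fin 2) (f : Ch c → ℕ → ZMod r) (e : Fin (D + 2) → ZMod r) :
    word g (p, mkY b f e fun _ => 0) =
      ∑ ch, ∑ l ∈ range ((D + 2) * n + 1), f ch l * lay g b ch l p + ∑ d, e d * g p (hF b d) := by
  rw [word_mkY]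
  simp only [zero_mul, sum_const_zero, add_zero, ← lay_lt]
  congr 1
  exact sum_congr rfl fun ch _ =>
    Fin.sum_univ_eq_sum_range (fun l => f ch l * lay g b ch l p) _

theorem sum_cDn_lay (y : Yv c D ((D + 2) * n) r) (p : Pt q m) (b : Fin 2) (ch : Ch c) :
    ∑ l ∈ range ((D + 2) * n + 1), cDn y b ch l * lay g b ch l p =
      ∑ l ∈ range ((D + 2) * n + 1), cf y b ch l * lay g b ch (l + 1) p := by
  rw [sum_range_succ', sum_range_succ, lay_ge g b ch le_rfl]
  simp [cDn_succ, cDn_zero]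

theorem iv_regs (b : Fin 2) : iv Γ g ι x s (.lin (.regs b)) =
    ∑ ch, ∑ l ∈ range ((D + 2) * n + 1), cf x.2 b ch l * lay g b ch l x.1 := by
  rw [iv_lin, lv, word_mkY_lay]
  simp

theorem iv_dn (b : Fin 2) : iv Γ g ι x s (.lin (.dn b)) =
    ∑ ch, ∑ l ∈ range ((D + 2) * n + 1), cf x.2 b ch l * lay g b ch (l + 1) x.1 +
      ∑ d, cF x.2 b d * g x.1 (hF b d) := by
  rw [iv_lin, lv, word_mkY_lay]
  simp only [sum_cDn_lay]

theorem iv_upA (b : Fin 2) : iv Γ g ι x s (.lin (.upA b)) =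
    ∑ ch, ∑ l ∈ range ((D + 2) * n + 1), cf x.2 b ch (l + 1) * lay g b ch l x.1 +
      ∑ d, cF x.2 b d * g x.1 (hF b d) := by
  rw [iv_lin, lv, word_mkY_lay]

theorem iv_av_false (t : ZMod q) (b : Fin 2) : iv Γ g ι x s (.av t b false) =
    ∑ ch, ∑ l ∈ range ((D + 2) * n + 1),
      cf x.2 b ch l * lay g b ch (l + 1) (avP Γ D x.1 t) := by
  change word g (avP Γ D x.1 t, mkY b (cDn x.2 b) (fun _ => 0) fun _ => 0) = _
  rw [word_mkY_lay]
  simp [sum_cDn_lay]

theorem iv_av_true (t : ZMod q) (b : Fin 2) : iv Γ g ι x s (.av t b true) =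
    ∑ ch, cf x.2 b ch 0 * lay g b ch 0 (avP Γ D x.1 t) := by
  change word g (avP Γ D x.1 t,
    mkY b (fun ch l => if l = 0 then cf x.2 b ch 0 else 0) (fun _ => 0) fun _ => 0) = _
  rw [word_mkY_lay]
  simp [ite_mul]

/-- clock probes for an exact clock -/
theorem Hc_iv {τ : Option (Ck ((D + 2) * n))}
    (hτ : ∀ τ', g x.1 (.inr τ') = if τ = some τ' then 1 else 0) (i : CI c) :
    Hc x.2 (iv Γ g ι x s) i = cv x.2 i τ := by
  rw [Hc, iv_ck, word_ckY, sum_clock hτ]
  cases τ <;> simp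

variable (ψ : AddChar (ZMod q) (ZMod r)) (M : LBL c ℓ D X)

theorem svv_iv (d : Fin (D + 2)) (sr : Src c) :
    svv ψ Γ M x.1 (iv Γ g ι x s) d sr = srcF ψ Γ M g ι (some sr) (piD Γ D d x.1) := by
  rcases sr with _ | ⟨b, ch⟩
  · rfl
  · exact iv_sv Γ g ι x s d b ch

theorem tgt_iv (ch : Ch c) : tgt ψ Γ x.1 (iv Γ g ι x s) ch =
    ch.elim (fun _ => chi ψ Γ none (slot n (D + 2) x.1)) fun j => ι j.2 x.1 := by
  rcases ch with _ | ⟨_, j⟩ <;> rfl

/-- the averaged probes -/
theorem av_false_eq (b : Fin 2) : (q : ZMod r)⁻¹ * ∑ t, iv Γ g ι x s (.av t b false) =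
    ∑ ch, ∑ l ∈ range ((D + 2) * n + 1), cf x.2 b ch l * Aop Γ D (lay g b ch (l + 1)) x.1 := by
  simp only [iv_av_false, Aop, mul_sum]
  rw [sum_comm]
  refine sum_congr rfl fun ch _ => ?_
  rw [sum_comm]
  refine sum_congr rfl fun l _ => sum_congr rfl fun t _ => by ring

theorem av_true_eq (b : Fin 2) : (q : ZMod r)⁻¹ * ∑ t, iv Γ g ι x s (.av t b true) =
    ∑ ch, cf x.2 b ch 0 * Aop Γ D (lay g b ch 0) x.1 := by
  simp only [iv_av_true, Aop, mul_sum]
  rw [sum_comm]
  refine sum_congr rfl fun ch _ => sum_congr rfl fun t _ => by ring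

theorem Aop_zero : Aop Γ D (0 : Pt q m → ZMod r) = 0 := by
  funext p
  simp [Aop]

variable [Fintype X]

/-- the source equation for an exact clock -/
theorem eqn_F {τ : Option (Ck ((D + 2) * n))} (md : Bool)
    (hτ : ∀ τ', g x.1 (.inr τ') = if τ = some τ' then 1 else 0) (b : Fin 2) (d : Fin (D + 2)) :
    eqn ψ Γ M md x (iv Γ g ι x s) (.F b d) =
      g x.1 (hF b d) - srcF ψ Γ M g ι (src c b τ) (piD Γ D d x.1) := by
  simp only [eqn, iv_F, Hc_iv Γ g ι x s hτ, cv, svv_iv]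
  congr 1
  cases h : src c b τ with
  | none => simp [srcF]
  | some sr =>
    rw [sum_eq_single sr]
    · simp
    · intro sr' _ hs
      simp [Ne.symm hs]
    · simp

/-- the recurrence for an exact clock -/
theorem eqn_rc {τ : Option (Ck ((D + 2) * n))} (md : Bool)
    (hτ : ∀ τ', g x.1 (.inr τ') = if τ = some τ' then 1 else 0) (b : Fin 2) :
    eqn ψ Γ M md x (iv Γ g ι x s) (.rc b) =
      ∑ ch, ∑ l ∈ range ((D + 2) * n + 1), cf x.2 b ch l *
        (lay g b ch l x.1 - Aop Γ D (lay g b ch (l + 1)) x.1 -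
          if l + 1 = stage b τ then topF ψ Γ M (fun d p => g p (hF b d)) ch x.1 else 0) := by
  simp only [eqn, iv_regs, av_false_eq, iv_F, Hc_iv Γ g ι x s hτ, cv, mul_sub, sum_sub_distrib,
    sum_mul]
  congr 1
  refine sum_congr rfl fun ch _ => ?_
  rcases h : stage b τ with _ | j
  · simp [cDn_zero]
  · simp only [cDn_succ, Nat.add_right_cancel_iff, mul_ite, mul_zero, sum_ite_eq', mem_range,
      topF]
    split_ifs with hj
    · ring
    · rw [cf_ge _ _ _ (not_lt.1 hj)]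
      simp

/-- the conditions for an exact clock -/
theorem eqn_chk {τ : Option (Ck ((D + 2) * n))} (md : Bool)
    (hτ : ∀ τ', g x.1 (.inr τ') = if τ = some τ' then 1 else 0) (b : Fin 2) (ch : Ch c)
    (β : Bool) : eqn ψ Γ M md x (iv Γ g ι x s) (.chk b ch β) =
      if req b ch τ = some β then g x.1 (hV b ch) -
        (if β then ch.elim (fun _ => chi ψ Γ none (slot n (D + 2) x.1)) fun j => ι j.2 x.1
          else 0) else 0 := by
  simp only [eqn, iv_V, Hc_iv Γ g ι x s hτ, cv, tgt_iv]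
  split_ifs <;> simp

theorem eqn_alw {τ : Option (Ck ((D + 2) * n))} (md : Bool)
    (hτ : ∀ τ', g x.1 (.inr τ') = if τ = some τ' then 1 else 0) :
    eqn ψ Γ M md x (iv Γ g ι x s) .alw = bK (!allowed md τ) := by
  simp only [eqn, Hc_iv Γ g ι x s hτ, cv]

theorem eqn_zinv (md : Bool) (b : Fin 2) (d : Fin (D + 2)) :
    eqn ψ Γ M md x (iv Γ g ι x s) (.zinv b d) =
      g x.1 (hF b d) - g (ziP Γ D x.1 s.2.2.2.2) (hF b d) := by
  simp only [eqn, iv_F, iv_zi]

/-- the value of a step for an exact clock -/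
theorem stepv_iv {τ : Option (Ck ((D + 2) * n))} (dr : Bool)
    (hτ : ∀ τ', g x.1 (.inr τ') = if τ = some τ' then 1 else 0) :
    stepv ψ Γ M dr x (iv Γ g ι x s) =
      ∑ b, opv ψ Γ M x (iv Γ g ι x s) b (opD c dr (flag dr (iv Γ g ι x s)) b τ) +
        (nx dr (flag dr (iv Γ g ι x s)) τ).elim 0 fun τ' => x.2 (.inr τ') := by
  simp only [stepv, Hc_iv Γ g ι x s hτ, cv, ite_mul, one_mul, zero_mul, sum_ite_eq, mem_univ,
    if_true]

theorem tabs_clock (τ : Option (Ck ((D + 2) * n))) (v : Fin 2 → Idx X ℓ → ZMod r) (p : Pt q m)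
    (τ' : Ck ((D + 2) * n)) : tabs ψ Γ M τ v p (.inr τ') = if τ = some τ' then 1 else 0 := rfl

theorem tabs_F (τ : Option (Ck ((D + 2) * n))) (v : Fin 2 → Idx X ℓ → ZMod r) (p : Pt q m)
    (b : Fin 2) (d : Fin (D + 2)) : tabs ψ Γ M τ v p (hF b d) =
      if stage b τ = 0 then 0 else facs ψ Γ D (v b) d p := rfl

theorem stage_le (b : Fin 2) {N : ℕ} (τ : Option (Ck N)) : stage b τ ≤ N + 1 := by
  rcases τ with _ | ⟨ph, j⟩
  · simp [stage]
  · have := j.2
    simp only [stage]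
    split_ifs <;> omega

theorem lay_tabs (τ : Option (Ck ((D + 2) * n))) (v : Fin 2 → Idx X ℓ → ZMod r) (b : Fin 2)
    (ch : Ch c) (l : ℕ) : lay (tabs ψ Γ M τ v) b ch l =
      if l < stage b τ then
        (Aop Γ D)^[stage b τ - 1 - l] (topF ψ Γ M (facs ψ Γ D (v b)) ch) else 0 := by
  funext p
  have h := stage_le b τ
  by_cases hl : l < (D + 2) * n + 1
  · simp only [lay, hl, dite_true, tabs, Tab]
    split_ifs <;> rfl
  · rw [lay_ge _ _ _ (not_lt.1 hl), if_neg (by omega)]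

end Probes

end Vale.Agent.P330.Bohr
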