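import Vale.Agent.P330.Bohr.Line

/-!
P330, inner system: the relaxed local test by lines (`LTCStmt`).
-/

namespace Vale.Agent.P330.Bohr.LTC

section Frac

variable {C X Y : Type} [Fintype C] [Fintype X] [Fintype Y]

open Classical in
/-- the indicator of a proposition -/
noncomputable def ind (p : Prop) : ℝ := if p then 1 else 0

theorem ind_nonneg (p : Prop) : 0 ≤ ind p := by
  unfold ind
  split_ifs <;> norm_num

theorem ind_le_one (p : Prop) : ind p ≤ 1 := by
  unfold ind
  split_ifs <;> norm_num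

theorem ind_pos {p : Prop} (h : p) : ind p = 1 := if_pos h

theorem ind_neg {p : Prop} (h : ¬p) : ind p = 0 := if_neg h

theorem frac_eq (p : C → Prop) : frac p = mean fun c => ind (p c) := by
  unfold frac mean ind
  rw [Finset.sum_boole]

theorem mean_mono {f g : C → ℝ} (h : ∀ c, f c ≤ g c) : mean f ≤ mean g :=
  div_le_div_of_nonneg_right (Finset.sum_le_sum fun c _ => h c) (Nat.cast_nonneg _)

theorem mean_add (f g : C → ℝ) : mean (fun c => f c + g c) = mean f + mean g := by
  unfold mean
  rw [Finset.sum_add_distrib, add_div]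

theorem mean_mul (a : ℝ) (f : C → ℝ) : mean (fun c => a * f c) = a * mean f := by
  unfold mean
  rw [← Finset.mul_sum, mul_div_assoc]

theorem mean_nonneg {f : C → ℝ} (h : ∀ c, 0 ≤ f c) : 0 ≤ mean f :=
  div_nonneg (Finset.sum_nonneg fun c _ => h c) (Nat.cast_nonneg _)

theorem mean_const [Nonempty C] (a : ℝ) : mean (fun _ : C => a) = a := by
  unfold mean
  have : (Fintype.card C : ℝ) ≠ 0 := by exact_mod_cast Fintype.card_ne_zero
  simp [this]

theorem mean_prod (f : X × Y → ℝ) : mean f = mean fun x => mean fun y => f (x, y) := by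
  unfold mean
  rw [Fintype.sum_prod_type, ← Finset.sum_div, Fintype.card_prod, div_div, mul_comm]
  push_cast
  rfl

theorem mean_comm (f : X → Y → ℝ) :
    (mean fun x => mean fun y => f x y) = mean fun y => mean fun x => f x y := by
  unfold mean
  rw [← Finset.sum_div, ← Finset.sum_div, Finset.sum_comm, div_div, div_div, mul_comm]

theorem markov {p : C → Prop} {f : C → ℝ} {t : ℝ} (hf : ∀ c, 0 ≤ f c) (h : ∀ c, p c → t ≤ f c) :
    t * frac p ≤ mean f := by
  rw [frac_eq, ← mean_mul]
  refine mean_mono fun c => ?_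
  by_cases hc : p c
  · rw [ind_pos hc, mul_one]
    exact h c hc
  · rw [ind_neg hc, mul_zero]
    exact hf c

theorem frac_nonneg (p : C → Prop) : 0 ≤ frac p := by
  rw [frac_eq]
  exact mean_nonneg fun _ => ind_nonneg _

theorem frac_le_add {p a b : C → Prop} (h : ∀ c, p c → a c ∨ b c) : frac p ≤ frac a + frac b := by
  rw [frac_eq, frac_eq, frac_eq, ← mean_add]
  refine mean_mono fun c => ?_
  by_cases hc : p c
  · rw [ind_pos hc]
    rcases h c hc with h1 | h1
    · rw [ind_pos h1]
      linarith [ind_nonneg (b c)]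
    · rw [ind_pos h1]
      linarith [ind_nonneg (a c)]
  · rw [ind_neg hc]
    exact add_nonneg (ind_nonneg _) (ind_nonneg _)

theorem frac_false : frac (fun _ : C => False) = 0 := by simp [frac]

theorem frac_mono {p a : C → Prop} (h : ∀ c, p c → a c) : frac p ≤ frac a := by
  simpa [frac_false] using frac_le_add (b := fun _ => False) fun c hc => Or.inl (h c hc)

theorem frac_true [Nonempty C] : frac (fun _ : C => True) = 1 := by
  rw [frac_eq]
  simpa [ind] using mean_const (C := C) 1

theorem one_le_frac [Nonempty C] (p : C → Prop) : 1 ≤ frac p + frac fun c => ¬p c := by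
  rw [← frac_true (C := C)]
  exact frac_le_add fun c _ => em _

theorem frac_le_one [Nonempty C] (p : C → Prop) : frac p ≤ 1 :=
  (frac_mono fun _ _ => trivial).trans frac_true.le

theorem frac_prod (p : X × Y → Prop) : frac p = mean fun x => frac fun y => p (x, y) := by
  simp only [frac_eq]
  exact mean_prod _

theorem frac_prod' (p : X × Y → Prop) : frac p = mean fun y => frac fun x => p (x, y) := by
  simp only [frac_eq]
  rw [mean_prod, mean_comm]

end Frac

section Code

variable {q : ℕ} [Fact q.Prime] {K : Type} [Field K] {ψ : AddChar (ZMod q) K} {s : ℕ}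
  {E : Type} [AddCommGroup E] [Module K E]

theorem code_iff {f : ZMod q → E} : LineCode ψ s f ↔ ∃ e : ℕ → E, ∀ t,
    f t = ψ (-(s * t)) • ∑ k ∈ Finset.range (2 * s + 1), ψ t ^ k • e k := by
  have h1 : ∀ (e : ℤ → E) (t : ZMod q),
      ∑ i ∈ Finset.Icc (-(s : ℤ)) s, ψ ((i : ZMod q) * t) • e i
        = ψ (-(s * t)) • ∑ k ∈ Finset.range (2 * s + 1), ψ t ^ k • e (-s + k) := by
    intro e t
    rw [Int.Icc_eq_finset_map, Finset.sum_map, Finset.smul_sum,
      show ((s : ℤ) + 1 - -s).toNat = 2 * s + 1 by omega]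
    refine Finset.sum_congr rfl fun k _ => ?_
    rw [smul_smul, ← AddChar.map_nsmul_eq_pow, ← AddChar.map_add_eq_mul]
    congr 2
    simp
    ring
  constructor
  · rintro ⟨e, he⟩
    exact ⟨fun k => e (-s + k), fun t => by rw [he, h1]⟩
  · rintro ⟨e, he⟩
    refine ⟨fun i => e (i + s).toNat, fun t => ?_⟩
    rw [he, h1]
    simp

theorem code_sub {f g : ZMod q → E} (hf : LineCode ψ s f) (hg : LineCode ψ s g) :
    LineCode ψ s fun t => f t - g t := by
  obtain ⟨e, he⟩ := hf
  obtain ⟨e', he'⟩ := hg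
  exact ⟨fun i => e i - e' i, fun t => by simp [he, he', smul_sub]⟩

theorem code_sum {ι : Type} (R : Finset ι) {f : ι → ZMod q → E}
    (hf : ∀ r ∈ R, LineCode ψ s (f r)) : LineCode ψ s fun t => ∑ r ∈ R, f r t := by
  choose! e he using hf
  refine ⟨fun i => ∑ r ∈ R, e r i, fun t => ?_⟩
  simp only [Finset.smul_sum]
  rw [Finset.sum_comm]
  exact Finset.sum_congr rfl fun r hr => he r hr t

theorem code_smul {f : ZMod q → E} (hf : LineCode ψ s f) (a : K) :
    LineCode ψ s fun t => a • f t := by
  obtain ⟨e, he⟩ := hf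
  exact ⟨fun i => a • e i, fun t => by simp [he, Finset.smul_sum, smul_comm a]⟩

theorem code_smul_const {f : ZMod q → K} (hf : LineCode ψ s f) (v : E) :
    LineCode ψ s fun t => f t • v := by
  obtain ⟨e, he⟩ := hf
  exact ⟨fun i => e i • v, fun t => by simp [he, Finset.sum_smul, mul_smul]⟩

theorem psi_ne_zero (t : ZMod q) : ψ t ≠ 0 := fun h => by
  have := ψ.map_add_eq_mul t (-t)
  simp [h] at this

theorem psi_inj (hψ : ψ ≠ 1) : Function.Injective ψ := by
  intro a b h
  have h1 : ψ (a - b) = 1 := by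
    have := ψ.map_add_eq_mul (a - b) b
    rw [sub_add_cancel, h] at this
    exact (mul_eq_right₀ (psi_ne_zero b)).1 this.symm
  exact sub_eq_zero.1 (((AddChar.IsPrimitive.of_ne_one hψ).zmod_char_eq_one_iff q _).1 h1)

theorem code_zero (hψ : ψ ≠ 1) {f : ZMod q → E} (hf : LineCode ψ s f) (S : Finset (ZMod q))
    (hS : 2 * s < S.card) (h0 : ∀ t ∈ S, f t = 0) (t : ZMod q) : f t = 0 := by
  classical
  obtain ⟨e, he⟩ := code_iff.1 hf
  refine (Module.forall_dual_apply_eq_zero_iff K _).1 fun φ => ?_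
  let P : Polynomial K := ∑ k ∈ Finset.range (2 * s + 1), Polynomial.monomial k (φ (e k))
  have h1 : ∀ t, φ (f t) = ψ (-(s * t)) * P.eval (ψ t) := fun t => by
    simp [he, P, Polynomial.eval_finsetSum, mul_comm]
  have h2 : P = 0 := by
    refine Polynomial.eq_zero_of_natDegree_lt_card_of_eval_eq_zero' P (S.image ψ) ?_ ?_
    · intro x hx
      obtain ⟨t, ht, rfl⟩ := Finset.mem_image.1 hx
      have := h1 t
      rw [h0 t ht, map_zero] at this
      exact (mul_eq_zero.1 this.symm).resolve_left (psi_ne_zero _)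
    · rw [Finset.card_image_of_injective _ (psi_inj hψ)]
      refine lt_of_le_of_lt (Polynomial.natDegree_sum_le_of_forall_le _ _ fun k hk => ?_) hS
      exact (Polynomial.natDegree_monomial_le _).trans (by simpa [Nat.lt_succ_iff] using hk)
  rw [h1, h2, Polynomial.eval_zero, mul_zero]

theorem exists_basis (hψ : ψ ≠ 1) (R : Finset (ZMod q)) (hR : R.card = 2 * s + 1) {r : ZMod q}
    (hr : r ∈ R) : ∃ L : ZMod q → K, LineCode ψ s L ∧ L r = 1 ∧ ∀ r' ∈ R, r' ≠ r → L r' = 0 := by
  classical
  have hi : Set.InjOn ψ R := (psi_inj hψ).injOn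
  refine ⟨fun t => ψ (-(s * t)) * (ψ (s * r) * (Lagrange.basis R ψ r).eval (ψ t)),
    code_iff.2 ⟨fun k => ψ (s * r) * (Lagrange.basis R ψ r).coeff k, fun t => ?_⟩, ?_,
    fun r' hr' h => ?_⟩
  · rw [Polynomial.eval_eq_sum_range' (n := 2 * s + 1)
      (by rw [Lagrange.natDegree_basis hi hr]; omega), Finset.mul_sum, smul_eq_mul]
    congr 1
    exact Finset.sum_congr rfl fun k _ => by rw [smul_eq_mul]; ring
  · simp only [Lagrange.eval_basis_self hi hr, mul_one]
    rw [← AddChar.map_add_eq_mul]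
    simp
  · simp only [Lagrange.eval_basis_of_ne h.symm hr', mul_zero]

theorem card_of_frac (hs : 4 * s < q) {p : ZMod q → Prop} [DecidablePred p]
    (h : frac (fun t => ¬p t) < 1 / 2) : 2 * s < (Finset.univ.filter p).card := by
  have h1 := one_le_frac p
  have h2 : 1 / 2 < frac p := by linarith
  have hq : (0 : ℝ) < q := by exact_mod_cast (Fact.out : q.Prime).pos
  unfold frac at h2
  rw [ZMod.card, lt_div_iff₀ hq] at h2
  have h3 : (4 * s : ℝ) < q := by exact_mod_cast hs
  have h4 : (2 * s : ℝ) < (Finset.univ.filter p).card := by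
    convert (show (2 * s : ℝ) < _ from lt_trans (by linarith) h2)
  exact_mod_cast h4

theorem code_eq (hψ : ψ ≠ 1) (hs : 4 * s < q) {f g : ZMod q → E} (hf : LineCode ψ s f)
    (hg : LineCode ψ s g) (h : frac (fun t => f t ≠ g t) < 1 / 2) : f = g := by
  classical
  funext t
  exact sub_eq_zero.1 (code_zero hψ (code_sub hf hg) _ (card_of_frac hs h)
    (fun t ht => sub_eq_zero.2 (Finset.mem_filter.1 ht).2) t)

variable (ψ s) in
/-- `c` is a word of the code near `f` -/
def Near (f c : ZMod q → E) : Prop := LineCode ψ s c ∧ frac (fun t => f t ≠ c t) ≤ 1 / 10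

theorem near_unique (hψ : ψ ≠ 1) (hs : 4 * s < q) {f c c' : ZMod q → E} (h : Near ψ s f c)
    (h' : Near ψ s f c') : c = c' := by
  refine code_eq hψ hs h.1 h'.1 (lt_of_le_of_lt (frac_le_add (a := fun t => f t ≠ c t)
    (b := fun t => f t ≠ c' t) fun t ht => ?_) (by linarith [h.2, h'.2]))
  by_contra hc
  push Not at hc
  exact ht (hc.1.symm.trans hc.2)

variable (ψ s) in
open Classical in
/-- the corrected value at `0` -/
noncomputable def dec (f : ZMod q → E) : E :=
  if h : ∃ c, Near ψ s f c then h.choose 0 else f 0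

theorem dec_eq (hψ : ψ ≠ 1) (hs : 4 * s < q) {f c : ZMod q → E} (h : Near ψ s f c) :
    dec ψ s f = c 0 := by
  have h1 : ∃ c, Near ψ s f c := ⟨c, h⟩
  rw [dec, dif_pos h1, near_unique hψ hs h1.choose_spec h]

theorem tensor (hψ : ψ ≠ 1) (hs : 4 * s < q) (M : ZMod q → ZMod q → E)
    (hr : frac (fun u => ¬LineCode ψ s (M u)) ≤ 1 / 10)
    (hc : frac (fun t => ¬LineCode ψ s fun u => M u t) ≤ 1 / 10) :
    ∃ c, Near ψ s (M 0) c ∧ ∀ t, dec ψ s (fun u => M u t) = c t := by
  classical
  obtain ⟨R, hR, hcard⟩ := Finset.exists_subset_card_eq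
    (card_of_frac hs (p := fun u => LineCode ψ s (M u)) (by linarith))
  choose! L hL hL1 hL0 using fun r (hr : r ∈ R) => exists_basis (s := s) hψ R hcard hr
  let N : ZMod q → ZMod q → E := fun u t => ∑ r ∈ R, L r u • M r t
  have h1 : ∀ u, LineCode ψ s (N u) := fun u =>
    code_sum R fun r hr => code_smul (Finset.mem_filter.1 (hR hr)).2 _
  have h2 : ∀ t, LineCode ψ s fun u => N u t := fun t =>
    code_sum R fun r hr => code_smul_const (hL r hr) _
  have h3 : ∀ t, (LineCode ψ s fun u => M u t) → ∀ u, M u t = N u t := by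
    intro t ht u
    refine sub_eq_zero.1 (code_zero hψ (code_sub ht (h2 t)) R (by omega) (fun r hr => ?_) u)
    simp only [N]
    rw [Finset.sum_eq_single r (fun r' hr' h => by rw [hL0 r' hr' r hr h.symm, zero_smul])
      (fun h => absurd hr h), hL1 r hr, one_smul, sub_self]
  have h4 : ∀ u, frac (fun t => M u t ≠ N u t) ≤ 1 / 10 := fun u =>
    (frac_mono fun t ht h => ht (h3 t h u)).trans hc
  refine ⟨N 0, ⟨h1 0, h4 0⟩, fun t => dec_eq hψ hs ⟨h2 t, (frac_mono fun u hu h => hu ?_).trans hr⟩⟩
  exact congrFun (code_eq hψ hs h (h1 u) (by linarith [h4 u])) t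

end Code

section Maj

variable {J E : Type} [Fintype J]

open Classical in
/-- the majority value among the indices in `A` -/
noncomputable def maj (A : J → Prop) (v : J → E) (d : E) : E :=
  if h : ∃ e, frac (fun j => A j ∧ v j ≠ e) < frac A / 2 then h.choose else d

theorem maj_eq {A : J → Prop} {v : J → E} {e : E} (d : E)
    (h : frac (fun j => A j ∧ v j ≠ e) < frac A / 2) : maj A v d = e := by
  have h1 : ∃ e, frac (fun j => A j ∧ v j ≠ e) < frac A / 2 := ⟨e, h⟩
  rw [maj, dif_pos h1]
  by_contra hc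
  have h2 := frac_le_add (p := A) (a := fun j => A j ∧ v j ≠ h1.choose)
    (b := fun j => A j ∧ v j ≠ e) fun j hj => by
      by_contra h3
      push Not at h3
      exact hc ((h3.1 hj).symm.trans (h3.2 hj))
  linarith [h1.choose_spec]

end Maj

section Round

variable {q : ℕ} [Fact q.Prime] {K : Type} [Field K] {ψ : AddChar (ZMod q) K} {s : ℕ}
  {E : Type} [AddCommGroup E] [Module K E] {G : Type} [AddCommGroup G] [Module (ZMod q) G]
  [Fintype G] {J : Type} [Fintype J] [Nonempty J] {W : J → G}

variable (ψ s W) in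
/-- the line through `p` with the direction number `j` is not in the code -/
def Bad (f : G → E) (p : G) (j : J) : Prop := ¬LineCode ψ s fun t : ZMod q => f (p + t • W j)

theorem dev (hM : MixStmt) (hW : Woz (q := q) (1 / 30000) W) {h : G → ℝ} (h0 : ∀ p, 0 ≤ h p)
    (h1 : ∀ p, h p ≤ 1) {P : G × J → Prop} {δ : ℝ} (hδ : 0 ≤ δ)
    (hP : ∀ x, P x → mean h + δ ≤ mean fun t : ZMod q => h (x.1 + t • W x.2)) :
    δ ^ 2 * frac P ≤ 1 / 30000 * mean h := by
  refine (markov (fun _ => sq_nonneg _) fun x hx => ?_).trans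
    ((hM q G J _ W (by norm_num) hW h).1.trans ?_)
  · exact pow_le_pow_left₀ hδ (by linarith [hP x hx]) 2
  · exact mul_le_mul_of_nonneg_left (mean_mono fun p => by nlinarith [h0 p, h1 p]) (by norm_num)

theorem round (hM : MixStmt) (hψ : ψ ≠ 1) (hW : Woz (q := q) (1 / 30000) W) (hs : 4 * s < q)
    (f : G → E) (A : J → Prop) {b : ℝ} (hb : frac (fun x : G × J => A x.2 ∧ Bad ψ s W f x.1 x.2) = b)
    (hA : frac (fun j => ¬A j) + 200 * b ≤ 1 / 10) :
    ∃ (f' : G → E) (A' : J → Prop), frac (fun p => f p ≠ f' p) ≤ 3 * b ∧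
      frac (fun j => ¬A' j) ≤ frac (fun j => ¬A j) + 100 * b ∧
      frac (fun x : G × J => A' x.2 ∧ Bad ψ s W f' x.1 x.2) ≤ b / 2 := by
  have hb0 : 0 ≤ b := hb ▸ frac_nonneg _
  have hA0 := frac_nonneg fun j => ¬A j
  let β : J → ℝ := fun j => frac fun p => A j ∧ Bad ψ s W f p j
  let bb : G → ℝ := fun p => frac fun j => A j ∧ Bad ψ s W f p j
  have hβ : mean β = b := by rw [← hb, frac_prod']
  have hbb : mean bb = b := by rw [← hb, frac_prod]
  let A' : J → Prop := fun j => A j ∧ β j ≤ 1 / 100
  let f' : G → E := fun p => maj A' (fun j => dec ψ s fun t : ZMod q => f (p + t • W j)) (f p)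
  have h1 : frac (fun j => ¬A' j) ≤ frac (fun j => ¬A j) + 100 * b := by
    refine (frac_le_add (a := fun j => ¬A j) (b := fun j => 1 / 100 ≤ β j) fun j hj => ?_).trans ?_
    · by_contra h
      push Not at h
      exact hj ⟨h.1, h.2.le⟩
    · have := markov (p := fun j => 1 / 100 ≤ β j) (f := β) (fun j => frac_nonneg _) fun _ h => h
      linarith
  have h2 : 9 / 10 ≤ frac A' := by linarith [one_le_frac A']
  refine ⟨f', A', ?_, h1, ?_⟩
  · have := markov (p := fun p => f p ≠ f' p) (f := bb) (t := 9 / 20) (fun j => frac_nonneg _)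
      fun p hp => by
        by_contra h
        refine hp (maj_eq _ (lt_of_le_of_lt (frac_mono fun j hj => ?_)
          (show bb p < frac A' / 2 by linarith))).symm
        refine ⟨hj.1.1, fun h3 => hj.2 ?_⟩
        rw [dec_eq hψ hs ⟨h3, by simp [frac_false]⟩]
        simp
    linarith [frac_nonneg fun p => f p ≠ f' p]
  · let Row : G → J → J → Prop := fun p j j' =>
      1 / 10 < frac fun u : ZMod q => A j ∧ Bad ψ s W f (p + u • W j') j
    let Col : G → J → J → Prop := fun p j j' =>
      1 / 10 < frac fun t : ZMod q => A j' ∧ Bad ψ s W f (p + t • W j) j'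
    have h3 : ∀ x : G × J, A' x.2 ∧ Bad ψ s W f' x.1 x.2 →
        (A' x.2 ∧ 9 / 40 ≤ frac (Row x.1 x.2)) ∨ 9 / 40 ≤ frac (Col x.1 x.2) := by
      rintro ⟨p, j⟩ ⟨hj, hbad⟩
      by_contra h
      simp only [not_or, not_and, not_le] at h
      have h4 := h.1 hj
      have h5 := h.2
      have h6 : ∀ j', A' j' → ¬Row p j j' → ¬Col p j j' →
          ∃ c, Near ψ s (fun t : ZMod q => f (p + t • W j)) c ∧
            ∀ t : ZMod q, dec ψ s (fun u : ZMod q => f (p + t • W j + u • W j')) = c t := by
        intro j' hj' hr hc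
        obtain ⟨c, h7, h8⟩ := tensor hψ hs (fun u t : ZMod q => f (p + t • W j + u • W j'))
          ((frac_mono fun u hu => ⟨hj.1, by
            simpa only [Bad, add_right_comm p (u • W j')] using hu⟩).trans (not_lt.1 hr))
          ((frac_mono fun t ht => ⟨hj'.1, ht⟩).trans (not_lt.1 hc))
        exact ⟨c, by simpa using h7, h8⟩
      have h7 : ∃ j', A' j' ∧ ¬Row p j j' ∧ ¬Col p j j' := by
        by_contra h8
        have := frac_le_add (p := A') (a := Row p j) (b := Col p j) fun j' hj' => by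
          by_contra h9
          exact h8 ⟨j', hj', not_or.1 h9⟩
        linarith
      obtain ⟨j₀, h8, h9, h10⟩ := h7
      obtain ⟨c, hc, -⟩ := h6 j₀ h8 h9 h10
      refine hbad ?_
      have h11 : (fun t : ZMod q => f' (p + t • W j)) = c := by
        funext t
        refine maj_eq _ (lt_of_le_of_lt
          (frac_le_add (a := Row p j) (b := Col p j) fun j' hj' => ?_) (by linarith))
        by_contra h12
        obtain ⟨c', hc', h13⟩ := h6 j' hj'.1 (not_or.1 h12).1 (not_or.1 h12).2
        exact hj'.2 ((h13 t).trans (congrFun (near_unique hψ hs hc' hc) t))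
      rw [h11]
      exact hc.1
    have h4 : frac (fun x : G × J => A' x.2 ∧ 9 / 40 ≤ frac (Row x.1 x.2)) ≤ b / 4 := by
      rw [frac_prod', ← hβ, div_eq_inv_mul (mean β), ← mean_mul]
      refine mean_mono fun j => ?_
      have hβ0 : 0 ≤ β j := frac_nonneg _
      by_cases hj : A' j
      · have h5 := markov (p := fun p => A' j ∧ 9 / 40 ≤ frac (Row p j))
          (f := fun p => frac (Row p j)) (fun _ => frac_nonneg _) fun _ h => h.2
        have h6 := dev hM hW (h := fun p => ind (A j ∧ Bad ψ s W f p j)) (fun _ => ind_nonneg _)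
          (fun _ => ind_le_one _) (P := fun x => Row x.1 j x.2) (δ := 9 / 100) (by norm_num)
          fun x hx => by
            rw [← frac_eq, ← frac_eq]
            have h7 : β j ≤ 1 / 100 := hj.2
            simp only [Row, β] at hx h7
            linarith
        rw [frac_prod, ← frac_eq] at h6
        simp only [β] at hβ0 ⊢
        linarith
      · simp only [hj, false_and, frac_false]
        positivity
    have h5 : frac (fun x : G × J => 9 / 40 ≤ frac (Col x.1 x.2)) ≤ b / 4 := by
      have h6 := dev hM hW (h := bb) (fun _ => frac_nonneg _) (fun _ => frac_le_one _)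
        (P := fun x => 9 / 40 ≤ frac (Col x.1 x.2)) (δ := 1 / 50) (by norm_num) fun x hx => by
          have h7 := markov (p := Col x.1 x.2) (t := 1 / 10)
            (f := fun j' => frac fun t : ZMod q => A j' ∧ Bad ψ s W f (x.1 + t • W x.2) j')
            (fun _ => frac_nonneg _) fun _ h => le_of_lt h
          have h8 : (mean fun t : ZMod q => bb (x.1 + t • W x.2)) = mean fun j' =>
              frac fun t : ZMod q => A j' ∧ Bad ψ s W f (x.1 + t • W x.2) j' := by
            simp only [bb, frac_eq]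
            exact mean_comm _
          rw [h8, hbb]
          linarith
      rw [hbb] at h6
      linarith
    linarith [frac_le_add h3]

theorem iter (hM : MixStmt) (hψ : ψ ≠ 1) (hW : Woz (q := q) (1 / 30000) W) (hs : 4 * s < q)
    (n : ℕ) : ∀ (f : G → E) (A : J → Prop) (b : ℝ),
      frac (fun x : G × J => A x.2 ∧ Bad ψ s W f x.1 x.2) = b →
      b * Fintype.card (G × J) < 2 ^ n → frac (fun j => ¬A j) + 200 * b ≤ 1 / 10 →
      ∃ (g : G → E) (A' : J → Prop), frac (fun p => f p ≠ g p) ≤ 6 * b ∧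
        frac (fun j => ¬A' j) ≤ frac (fun j => ¬A j) + 200 * b ∧
        ∀ j, A' j → InCode ψ s (W j) g := by
  have hc : (0 : ℝ) < Fintype.card (G × J) := by exact_mod_cast Fintype.card_pos
  induction n with
  | zero =>
    intro f A b hb hn _
    have hb0 : 0 ≤ b := hb ▸ frac_nonneg _
    refine ⟨f, A, by simp [frac_false, hb0], by linarith, fun j hj p => ?_⟩
    by_contra h
    rw [← hb, frac_eq, mean, div_mul_cancel₀ _ hc.ne', pow_zero] at hn
    have := Finset.single_le_sum (f := fun x : G × J => ind (A x.2 ∧ Bad ψ s W f x.1 x.2))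
      (fun _ _ => ind_nonneg _) (Finset.mem_univ (p, j))
    rw [ind_pos (show A (p, j).2 ∧ Bad ψ s W f (p, j).1 (p, j).2 from ⟨hj, h⟩)] at this
    linarith
  | succ n ih =>
    intro f A b hb hn hA
    obtain ⟨f', A', h1, h2, h3⟩ := round hM hψ hW hs f A hb hA
    obtain ⟨g, A'', h4, h5, h6⟩ := ih f' A' _ rfl
      (lt_of_le_of_lt (mul_le_mul_of_nonneg_right h3 hc.le) (by rw [pow_succ] at hn; linarith))
      (by linarith)
    refine ⟨g, A'', (frac_le_add (a := fun p => f p ≠ f' p) (b := fun p => f' p ≠ g p)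
      fun p hp => ?_).trans (by linarith), by linarith, h6⟩
    by_contra h
    push Not at h
    exact hp (h.1.trans h.2)

end Round

end Vale.Agent.P330.Bohr.LTC

namespace Vale.Agent.P330.Bohr

open LTC

theorem ltcStmt (hM : MixStmt) : LTCStmt := by
  refine ⟨1 / 30000, 1 / 2000, 200, by norm_num, by norm_num, by norm_num, ?_⟩
  intro q _ K _ ψ hψ E _ _ G _ _ _ J _ _ W hW s hs f β hβ hf
  have h0 : frac (fun x : G × J => True ∧ Bad ψ s W f x.1 x.2) ≤ β :=
    (LTC.frac_mono fun x hx => hx.2).trans hf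
  have h1 := LTC.frac_nonneg fun x : G × J => True ∧ Bad ψ s W f x.1 x.2
  obtain ⟨n, hn⟩ := pow_unbounded_of_one_lt
    (frac (fun x : G × J => True ∧ Bad ψ s W f x.1 x.2) * Fintype.card (G × J))
    (show (1 : ℝ) < 2 by norm_num)
  obtain ⟨g, A, h2, h3, h4⟩ := iter hM hψ hW hs n f (fun _ => True) _ rfl hn
    (by simp only [not_true, LTC.frac_false]; linarith)
  simp only [not_true, LTC.frac_false] at h3
  exact ⟨g, A, by linarith, by linarith, h4⟩

end Vale.Agent.P330.Bohr
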