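import Vale.Agent.P330.Bohr.Stm

/-!
P330, inner system: real reads and ideal values.
-/

namespace Vale.Agent.P330.Bohr

open Finset
open Vale.Agent.Lib.PolyTime hiding C P
open Vale.Agent.Lib.Dep

namespace Lift

theorem bal_pair {P Y : Type} [Fintype P] [Fintype Y] {a : P → P} {b : Y → Y}
    (ha : Function.Bijective a) (hb : Function.Bijective b) :
    Bal 1 fun x : P × Y => (a x.1, b x.2) := Bal.of_bijective (ha.prodMap hb)

theorem bal_inv {A S W : Type} [Fintype A] [Fintype S] [Fintype W] {f : A × S → W}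
    (Φ : A × S → A × S) (hΦ : Function.Involutive Φ) (h : ∀ s, Bal 1 fun x => f (Φ (x, s))) :
    Bal 1 f :=
  (Bal.comp_one (Bal.of_cols (f := fun z => f (Φ z)) zero_le_one h)
    (Bal.of_bijective hΦ.bijective)).congr fun z => by rw [hΦ z]

theorem bal0 {P Y S : Type} [Fintype P] [Fintype Y] [Fintype S] {f : (P × Y) × S → P × Y}
    (a : S → P → P) (b : S → Y → Y) (ha : ∀ s, Function.Bijective (a s))
    (hb : ∀ s, Function.Bijective (b s)) (h : ∀ p y s, f ((p, y), s) = (a s p, b s y)) :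
    Bal 1 f :=
  Bal.of_cols zero_le_one fun s => (bal_pair (ha s) (hb s)).congr fun x => (h x.1 x.2 s).symm

theorem balU {P Y J R : Type} [Fintype P] [Fintype Y] [Fintype J] [Fintype R]
    {f : (P × Y) × J × Y × R → P × Y} (a : Y → J → R → P → P) (b : Y → J → R → Y → Y)
    (ha : ∀ y j t, Function.Bijective (a y j t)) (hb : ∀ y j t, Function.Bijective (b y j t))
    (h : ∀ p y j u t, f ((p, y), j, u, t) = (a y j t p, b y j t u)) : Bal 1 f :=
  bal_inv (fun x => ((x.1.1, x.2.2.1), x.2.1, x.1.2, x.2.2.2)) (fun _ => rfl) fun s =>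
    (bal_pair (ha s.2.1 s.1 s.2.2) (hb s.2.1 s.1 s.2.2)).congr fun x => (h x.1 _ _ x.2 _).symm

theorem balY {P Y J R : Type} [Fintype P] [Fintype Y] [Fintype J] [Fintype R]
    {f : (P × Y) × J × Y × Y × R → P × Y} (h : ∀ p y j u y' t, f ((p, y), j, u, y', t) = (p, y')) :
    Bal 1 f :=
  bal_inv (fun x => ((x.1.1, x.2.2.2.1), x.2.1, x.2.2.1, x.1.2, x.2.2.2.2)) (fun _ => rfl)
    fun _ => Bal.id.congr fun x => (h x.1 _ _ _ x.2 _).symm

theorem word_sub {G H K : Type} [Fintype H] [CommRing K] (g : G → H → K) (p : G) (y u : Vec H K) :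
    word g (p, y + u) - word g (p, u) = word g (p, y) := by
  simp only [word, vadd_ap, add_mul, Finset.sum_add_distrib, add_sub_cancel_right]

theorem word_unit {G H K : Type} [Fintype H] [DecidableEq H] [CommRing K] (g : G → H → K) (p : G)
    (i : H) : word g (p, unitV i) = g p i := by
  simp [word, unitV]

variable {q r m n Cw c ℓ D : ℕ} {X : Type} [Fact q.Prime] [Fact r.Prime] [Fintype X]
  [DecidableEq X] {ψ : AddChar (ZMod q) (ZMod r)} {Γ : Geo q m n Cw (Idx X ℓ)} {M : LBL c ℓ D X}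
  {s : ℕ}

theorem bal (hT : TabP ψ Γ M s) (i : RR q ⊕ RI q c D × Bool) :
    Bal 1 fun x : Pos q m c D ((D + 2) * n) r × Seed q m n Cw c D ((D + 2) * n) r =>
      rdP Γ x.1 x.2 i := by
  match i with
  | .inl (.bl 0) => exact Bal.fst
  | .inl (.bl 1) => exact balY fun _ _ _ _ _ _ => rfl
  | .inl (.bl 2) =>
    exact bal0 (fun _ p => p) (fun sd y => y + sd.2.2.1) (fun _ => Function.bijective_id)
      (fun _ => (Equiv.addRight _).bijective) fun _ _ _ => rfl
  | .inl (.line t) =>
    exact bal0 (fun sd p => p + t • Γ.dir (D + 2) sd.1) (fun _ y => y)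
      (fun _ => (Equiv.addRight _).bijective) (fun _ => Function.bijective_id) fun _ _ _ => rfl
  | .inl (.cor t false) =>
    exact balU (fun _ j _ p => p + t • Γ.dir (D + 2) j) (fun _ _ _ u => u)
      (fun _ _ _ => (Equiv.addRight _).bijective) (fun _ _ _ => Function.bijective_id)
      fun _ _ _ _ _ => rfl
  | .inl (.cor t true) =>
    exact bal0 (fun sd p => p + t • Γ.dir (D + 2) sd.1) (fun sd y => y + sd.2.1)
      (fun _ => (Equiv.addRight _).bijective) (fun _ => (Equiv.addRight _).bijective)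
      fun _ _ _ => rfl
  | .inr (i, false) =>
    exact balU (fun _ _ t p => pt Γ p t.2.1 t.2.2 i) (fun _ _ _ u => u)
      (fun _ _ _ => hT.pt_bij _ _ i) (fun _ _ _ => Function.bijective_id) fun _ _ _ _ _ => rfl
  | .inr (i, true) =>
    exact balU (fun _ _ t p => pt Γ p t.2.1 t.2.2 i) (fun y _ t u => co y t.1 i + u)
      (fun _ _ _ => hT.pt_bij _ _ i) (fun _ _ _ => (Equiv.addLeft _).bijective)
      fun _ _ _ _ _ => rfl

theorem sym_inp (hT : TabP ψ Γ M s) (hO : OcP M (ZMod r)) (σ : Fin c → Sym ℓ) (j : Fin c)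
    (p : Pt q m) : gSym ψ Γ M (σ j) p (hV 1 (.inr (true, j))) = inpF ψ Γ M σ j p := by
  have e : stage (1 : Fin 2) (some (mkCk ((D + 2) * n) 4 0)) = (D + 2) * n + 1 := by
    simp [stage, mkCk]
  simp only [gSym, tabs, hV, Tab, e, Fin.val_zero, Nat.zero_lt_succ, if_true, Nat.add_sub_cancel,
    Nat.sub_zero, hT.res, hO.slot, inpF]

theorem rv_none {c' : ℕ} {sr : RI q c D → Option (Fin c')}
    (inp : Fin c' → Pos q m c D ((D + 2) * n) r → ZMod r)
    (g : Pt q m → Hx c D ((D + 2) * n) → ZMod r) (x : Pos q m c D ((D + 2) * n) r)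
    (sd : Seed q m n Cw c D ((D + 2) * n) r) {i : RI q c D} (h : sr i = none) :
    rv Γ sr inp (word g) x sd i = word g (pt Γ x.1 sd.2.2.2.1 sd.2.2.2.2 i, co x.2 sd.2.2.1 i) := by
  simp only [rv, h, Option.elim_none, rdP, if_true, Bool.false_eq_true, if_false, word_sub]

theorem exL (hT : TabP ψ Γ M s) (hO : OcP M (ZMod r)) (σ : Fin c → Sym ℓ)
    (g : Pt q m → Hx c D ((D + 2) * n) → ZMod r) (x : Pos q m c D ((D + 2) * n) r)
    (sd : Seed q m n Cw c D ((D + 2) * n) r) :
    rv Γ RI.inp (fun j => symW ψ Γ M (σ j)) (word g) x sd = iv Γ g (inpF ψ Γ M σ) x sd := by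
  funext i
  rcases h : i.inp with _ | j
  · rw [rv_none _ g x sd h, iv, h, Option.elim_none]
  · have e : co x.2 sd.2.2.1 i = unitV (hV 1 (.inr (true, j))) := by
      cases i <;> simp only [RI.inp, Option.some.injEq, reduceCtorEq] at h <;> subst h <;> rfl
    simp only [rv, iv, h, Option.elim_some, rdP, if_true, Bool.false_eq_true, if_false, symW,
      word_sub, e, word_unit, sym_inp hT hO]

theorem exE (g : Pt q m → Hx c D ((D + 2) * n) → ZMod r) (x : Pos q m c D ((D + 2) * n) r)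
    (sd : Seed q m n Cw c D ((D + 2) * n) r) :
    noIn (rv Γ (fun _ => none) noInp (word g) x sd) = iv Γ g (fun _ _ => 0) x sd := by
  funext i
  rw [noIn, iv, rv_none _ g x sd rfl]

theorem ap (hT : TabP ψ Γ M s) {c' : ℕ} (sr : RI q c D → Option (Fin c'))
    (inp : Fin c' → Pos q m c D ((D + 2) * n) r → ZMod r)
    (T T' : Pos q m c D ((D + 2) * n) r → ZMod r) :
    frac (fun x : Pos q m c D ((D + 2) * n) r × Seed q m n Cw c D ((D + 2) * n) r =>
      rv Γ sr inp T x.1 x.2 ≠ rv Γ sr inp T' x.1 x.2) ≤ kk q c D * frac fun x => T x ≠ T' x := by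
  refine (frac_mono (q := fun x => ∃ i, T (rdP Γ x.1 x.2 i) ≠ T' (rdP Γ x.1 x.2 i))
    fun x hx => ?_).trans (frac_exists_le_card fun i => ?_)
  · by_contra hn
    simp only [not_exists, not_not] at hn
    refine hx (funext fun i => ?_)
    rcases h : sr i with _ | j <;> simp only [rv, h, Option.elim_none, Option.elim_some, hn]
  · simpa only [one_mul] using bal hT i fun x => T x ≠ T' x

end Lift

open Lift in
theorem liftP {q r m n Cw c ℓ D : ℕ} {X : Type} [Fact q.Prime] [Fact r.Prime] [Fintype X]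
    [DecidableEq X] {ψ : AddChar (ZMod q) (ZMod r)} {Γ : Geo q m n Cw (Idx X ℓ)} {M : LBL c ℓ D X}
    {s : ℕ} {lam : ℝ} (_ : Cx ψ Γ M s lam) (hT : TabP ψ Γ M s) (hO : OcP M (ZMod r)) :
    LiftP ψ Γ M s where
  bal := bal hT
  balL := ⟨⟨fun j => bal hT ((rdE q c D).symm j), fun j => bal hT ((rdE q c D).symm j)⟩,
    fun j => bal hT ((rdE q c D).symm j), fun j => bal hT ((rdE q c D).symm j),
    fun j => bal hT ((rdE q c D).symm j)⟩
  balE := ⟨fun j => bal hT ((rdE q c D).symm j), fun j => bal hT ((rdE q c D).symm j)⟩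
  eval sr F x sd inp T := by
    simp only [Rule.eval, mkRule, Equiv.symm_apply_apply, Sum.elim_inl, Sum.elim_inr,
      Option.elim_none]
    rfl
  exL := exL hT hO
  exE := exE
  apL σ g T := by
    simpa only [exL hT hO] using ap hT RI.inp (fun j => symW ψ Γ M (σ j)) T (word g)
  apE g T := by
    refine (frac_mono fun x hx h => hx ?_).trans (ap hT (fun _ => none) noInp T (word g))
    rw [h, exE]

end Vale.Agent.P330.Bohr
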