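import Vale.Agent.P330.Core

/-!
P330, inner system: codes on lines, families of directions, companion maps, and the statements
of the abstract lemmas about them.
-/

namespace Vale.Agent.P330.Bohr

open Vale.Agent.Lib.PolyTime hiding C P
open Vale.Agent.Lib.Dep

section Abstract

variable {q : ℕ} [NeZero q] {K : Type} [Field K] {E : Type} [AddCommGroup E] [Module K E]
  {G : Type} [AddCommGroup G] [Module (ZMod q) G]

/-- The function on `ZMod q` has only the frequencies `-s, …, s`. -/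
def LineCode (ψ : AddChar (ZMod q) K) (s : ℕ) (f : ZMod q → E) : Prop :=
  ∃ e : ℤ → E, ∀ t, f t = ∑ i ∈ Finset.Icc (-(s : ℤ)) s, ψ ((i : ZMod q) * t) • e i

/-- On all lines with direction `w` the function is in the line code. -/
def InCode (ψ : AddChar (ZMod q) K) (s : ℕ) (w : G) (f : G → E) : Prop :=
  ∀ p, LineCode ψ s fun t : ZMod q => f (p + t • w)

/-- Every nonzero linear form vanishes on at most a `lam` fraction of the directions. -/
def Woz {J : Type} [Fintype J] (lam : ℝ) (W : J → G) : Prop :=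
  ∀ a : G →ₗ[ZMod q] ZMod q, a ≠ 0 → frac (fun j => a (W j) = 0) ≤ lam

open Classical in
/-- The value at `0` of a word of the line code which differs from `f` in at most a tenth of
the places. -/
noncomputable def dec0 (ψ : AddChar (ZMod q) K) (s : ℕ) (f : ZMod q → K) : K :=
  if h : ∃ g, LineCode ψ s g ∧ frac (fun t => f t ≠ g t) ≤ 1 / 10 then h.choose 0 else 0

end Abstract

/-- B1a: mixing along random lines. -/
def MixStmt : Prop :=
  ∀ (q : ℕ) [Fact q.Prime] (G : Type) [AddCommGroup G] [Module (ZMod q) G] [Fintype G] (J : Type)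
    [Fintype J] [Nonempty J] (lam : ℝ) (W : J → G), 0 ≤ lam → Woz (q := q) lam W → ∀ f : G → ℝ,
    mean (fun x : G × J => (mean (fun t : ZMod q => f (x.1 + t • W x.2)) - mean f) ^ 2) ≤
        lam * mean (fun p => f p ^ 2) ∧
      mean (fun x : G × J => f x.1 * mean fun t : ZMod q => f (x.1 + t • W x.2)) ≤
        mean f ^ 2 + lam * mean fun p => f p ^ 2

/-- B1b: distance of the relaxed codes. -/
def DistStmt : Prop :=
  ∀ (q : ℕ) [Fact q.Prime] (K : Type) [Field K] (ψ : AddChar (ZMod q) K), ψ ≠ 1 →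
    ∀ (E : Type) [AddCommGroup E] [Module K E] (G : Type) [AddCommGroup G] [Module (ZMod q) G]
      [Fintype G] (J : Type) [Fintype J] [Nonempty J] (W : J → G), Woz (q := q) (1 / 100) W →
      ∀ (s : ℕ), 4 * s < q → ∀ (J' : J → Prop), frac (fun j => ¬ J' j) ≤ 1 / 10 →
        ∀ g : G → E, (∀ j, J' j → InCode ψ s (W j) g) → frac (fun p => g p ≠ 0) ≤ 2 / 5 → g = 0

/-- B1c: the relaxed local test by lines. -/
def LTCStmt : Prop :=
  ∃ lam β0 C0 : ℝ, 0 < lam ∧ 0 < β0 ∧ 0 ≤ C0 ∧
    ∀ (q : ℕ) [Fact q.Prime] (K : Type) [Field K] (ψ : AddChar (ZMod q) K), ψ ≠ 1 →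
      ∀ (E : Type) [AddCommGroup E] [Module K E] (G : Type) [AddCommGroup G] [Module (ZMod q) G]
        [Fintype G] (J : Type) [Fintype J] [Nonempty J] (W : J → G), Woz (q := q) lam W →
        ∀ (s : ℕ), 4 * s < q → ∀ (f : G → E) (β : ℝ), β ≤ β0 →
          frac (fun x : G × J => ¬ LineCode ψ s fun t : ZMod q => f (x.1 + t • W x.2)) ≤ β →
          ∃ (g : G → E) (J' : J → Prop), frac (fun p => f p ≠ g p) ≤ C0 * β ∧
            frac (fun j => ¬ J' j) ≤ C0 * β ∧ ∀ j, J' j → InCode ψ s (W j) g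

/-- the word of a table: Hadamard code of the vector `g p` at every point -/
def word {G H K : Type} [Fintype H] [CommRing K] (g : G → H → K) : G × Vec H K → K :=
  fun x => ∑ i, x.2 i * g x.1 i

/-- B2: linearity test and line test together. -/
def HadStmt : Prop :=
  ∃ lam : ℝ, 0 < lam ∧ ∀ (q r : ℕ) [Fact q.Prime] [Fact r.Prime],
    ∃ θ0 C1 : ℝ, 0 < θ0 ∧ 0 ≤ C1 ∧ ∀ (ψ : AddChar (ZMod q) (ZMod r)), ψ ≠ 1 →
      ∀ (G : Type) [AddCommGroup G] [Module (ZMod q) G] [Fintype G] (J : Type) [Fintype J]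
        [Nonempty J] (W : J → G), Woz (q := q) lam W → ∀ (s : ℕ), 4 * s < q →
        ∀ (H : Type) [Fintype H] [DecidableEq H] (T : G × Vec H (ZMod r) → ZMod r) (θ : ℝ),
          θ ≤ θ0 →
          frac (fun x : G × Vec H (ZMod r) × Vec H (ZMod r) =>
            T (x.1, fun i => x.2.1 i + x.2.2 i) ≠ T (x.1, x.2.1) + T (x.1, x.2.2)) ≤ θ →
          frac (fun x : (G × Vec H (ZMod r)) × J =>
            ¬ LineCode ψ s fun t : ZMod q => T (x.1.1 + t • W x.2, x.1.2)) ≤ θ →
          ∃ (g : G → H → ZMod r) (J' : J → Prop), frac (fun x => T x ≠ word g x) ≤ C1 * θ ∧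
            frac (fun j => ¬ J' j) ≤ C1 * θ ∧ ∀ j, J' j → InCode ψ s (W j) g

/-- B1d: contraction of the correction along lines with self-correction in the Hadamard
direction: few positions have many seeds for which more than a tenth of the pairs of reads meet
the bad set. -/
def CorStmt : Prop :=
  ∃ lam h : ℝ, 0 < lam ∧ 0 < h ∧
    ∀ (q : ℕ) [Fact q.Prime] (G : Type) [AddCommGroup G] [Module (ZMod q) G] [Fintype G]
      (J : Type) [Fintype J] [Nonempty J] (W : J → G), Woz (q := q) lam W →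
      ∀ (Y : Type) [AddCommGroup Y] [Fintype Y] (B : G × Y → Prop), frac B ≤ h →
        frac (fun x : G × Y => 1 / 4 ≤ frac fun u : J × Y => 1 / 10 < frac fun t : ZMod q =>
          B (x.1 + t • W u.1, x.2 + u.2) ∨ B (x.1 + t • W u.1, u.2)) ≤ frac B / 2

/-! ### The geometry -/

/-- the companion map: `e i ↦ e (i + 1)`, and the last basis vector is mapped to `a` -/
def comp {q m : ℕ} (a p : Vec (Fin (m + 1)) (ZMod q)) : Vec (Fin (m + 1)) (ZMod q) :=
  fun i => Fin.cases 0 (fun k : Fin m => p k.castSucc) i + a i * p (Fin.last m)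

/-- the slot number `e` of a point; the point has `m + 1 = (D + 1) * n` coordinates -/
def slot {q m : ℕ} (n e : ℕ) (p : Vec (Fin (m + 1)) (ZMod q)) : Vec (Fin n) (ZMod q) :=
  fun i => if h : e * n + i < m + 1 then p ⟨e * n + i, h⟩ else 0

/-- The data of the geometry: companion vector, base directions, frequencies. -/
structure Geo (q m n Cw : ℕ) (I : Type) where
  /-- the companion vector -/
  a : Vec (Fin (m + 1)) (ZMod q)
  /-- the base directions -/
  w : Fin Cw → Vec (Fin (m + 1)) (ZMod q)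
  /-- the frequencies -/
  al : I → Vec (Fin n) (ZMod q)

instance {V T : Type} [AddCommGroup T] : AddCommGroup (Vec V T) :=
  inferInstanceAs (AddCommGroup (V → T))
instance {V T R : Type} [Semiring R] [AddCommGroup T] [Module R T] : Module R (Vec V T) :=
  inferInstanceAs (Module R (V → T))

/-- the directions of the lines -/
def Geo.dir {q m n Cw : ℕ} {I : Type} (Γ : Geo q m n Cw I) (D : ℕ) (j : Fin Cw × Fin (m + 1)) :
    Vec (Fin (m + 1)) (ZMod q) :=
  (comp Γ.a)^[D * n + j.2] (Γ.w j.1)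

/-- The properties of the geometry. -/
structure Geo.Ok {q m n Cw : ℕ} [NeZero q] {I : Type} (Γ : Geo q m n Cw I) (D s : ℕ) (lam : ℝ) :
    Prop where
  dim : m + 1 = (D + 1) * n
  big : 100 ≤ m
  unit : Γ.a 0 ≠ 0
  woz : Woz (q := q) lam (Γ.dir D)
  inj : Function.Injective Γ.al
  small : ∀ v (e : Fin (D + 1)) j (i : ℕ), i < D * n + (m + 1) →
    ∃ u ∈ Finset.Icc (-(s : ℤ)) s,
      ∑ k, Γ.al v k * slot n e ((comp Γ.a)^[i] (Γ.w j)) k = (u : ZMod q)

/-- B6: the geometry exists and is found in polynomial time. -/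
def GeoStmt : Prop :=
  ∀ (D L : ℕ) (lam : ℝ), 0 < lam → ∃ (q s Cw : ℕ) (_ : Fact q.Prime), 0 < Cw ∧ L * s < q ∧
    ∀ (α : Type) [Enc α] (I : TF α), ∃ (m n : α → ℕ) (Γ : ∀ a, Geo q (m a) (n a) Cw (I.T a)),
      DPT m ∧ DPT n ∧ (∀ b : ℕ, PBd fun a => b ^ m a) ∧ (∀ a, (Γ a).Ok D s lam) ∧
      DPT (fun a => (Γ a).a) ∧ (∀ j, DPT fun a => (Γ a).w j) ∧
      DPT fun x : Σ a, I.T a => (Γ x.1).al x.2

end Vale.Agent.P330.Bohr
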