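import Vale.Agent.P330.Bohr.Line

/-!
P330, inner system: the algebra of the codes on lines.
-/

namespace Vale.Agent.P330.Bohr

open Finset

theorem frac_eq {C : Type} [Fintype C] (p : C → Prop) [DecidablePred p] :
    frac p = ((univ.filter p).card : ℝ) / Fintype.card C := by
  unfold frac
  congr

section Algebra

variable {q : ℕ} {K : Type} [Field K] {E E' : Type} [AddCommGroup E] [Module K E]
  [AddCommGroup E'] [Module K E'] {ψ : AddChar (ZMod q) K} {s s' : ℕ}

namespace LineCode

theorem zero : LineCode ψ s fun _ => (0 : E) := ⟨fun _ => 0, fun _ => by simp⟩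

theorem congr {f g : ZMod q → E} (hf : LineCode ψ s f) (h : ∀ t, g t = f t) : LineCode ψ s g :=
  (funext h : g = f) ▸ hf

theorem add {f g : ZMod q → E} (hf : LineCode ψ s f) (hg : LineCode ψ s g) :
    LineCode ψ s fun t => f t + g t := by
  obtain ⟨e, he⟩ := hf
  obtain ⟨e', he'⟩ := hg
  exact ⟨fun i => e i + e' i, fun t => by simp only [he, he', smul_add, sum_add_distrib]⟩

theorem map (L : E →ₗ[K] E') {f : ZMod q → E} (hf : LineCode ψ s f) :
    LineCode ψ s fun t => L (f t) := by
  obtain ⟨e, he⟩ := hf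
  exact ⟨fun i => L (e i), fun t => by simp only [he, map_sum, map_smul]⟩

theorem smul (c : K) {f : ZMod q → E} (hf : LineCode ψ s f) : LineCode ψ s fun t => c • f t :=
  hf.map (c • LinearMap.id)

theorem neg {f : ZMod q → E} (hf : LineCode ψ s f) : LineCode ψ s fun t => -f t :=
  hf.map (-LinearMap.id)

theorem sub {f g : ZMod q → E} (hf : LineCode ψ s f) (hg : LineCode ψ s g) :
    LineCode ψ s fun t => f t - g t :=
  (hf.add hg.neg).congr fun _ => sub_eq_add_neg _ _

theorem sum {ι : Type*} (S : Finset ι) {f : ι → ZMod q → E} (hf : ∀ i ∈ S, LineCode ψ s (f i)) :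
    LineCode ψ s fun t => ∑ i ∈ S, f i t := by
  classical
  induction S using Finset.induction_on with
  | empty => exact zero.congr fun _ => sum_empty
  | insert i S hi ih =>
    exact ((hf i (mem_insert_self _ _)).add (ih fun j hj => hf j (mem_insert_of_mem hj))).congr
      fun _ => sum_insert hi

/-- A single frequency. -/
theorem single {u : ℤ} (hu : u ∈ Icc (-(s : ℤ)) s) (e : E) :
    LineCode ψ s fun t => ψ ((u : ZMod q) * t) • e :=
  ⟨fun i => if i = u then e else 0, fun t => by
    simp only [smul_ite, smul_zero, sum_ite_eq', if_pos hu]⟩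

theorem const (e : E) : LineCode ψ s fun _ => e :=
  (single (ψ := ψ) (u := 0) (by simp) e).congr fun _ => by simp

theorem mono (h : s ≤ s') {f : ZMod q → E} (hf : LineCode ψ s f) : LineCode ψ s' f := by
  obtain ⟨e, he⟩ := hf
  refine (sum _ fun i hi => single ?_ (e i)).congr he
  rw [mem_Icc] at hi ⊢
  omega

theorem shift (t0 : ZMod q) {f : ZMod q → E} (hf : LineCode ψ s f) :
    LineCode ψ s fun t => f (t + t0) := by
  obtain ⟨e, he⟩ := hf
  exact ⟨fun i => ψ ((i : ZMod q) * t0) • e i, fun t => by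
    simp only [he, mul_add, AddChar.map_add_eq_mul, mul_smul]⟩

theorem shift_iff (t0 : ZMod q) {f : ZMod q → E} :
    (LineCode ψ s fun t => f (t + t0)) ↔ LineCode ψ s f :=
  ⟨fun h => (h.shift (-t0)).congr fun t => by simp, shift t0⟩

/-- The product of a scalar word and a word. -/
theorem smul' {a : ZMod q → K} {f : ZMod q → E} (ha : LineCode ψ s a) (hf : LineCode ψ s' f) :
    LineCode ψ (s + s') fun t => a t • f t := by
  obtain ⟨c, hc⟩ := ha
  obtain ⟨e, he⟩ := hf
  refine (sum (Icc (-(s : ℤ)) s) fun i hi => sum (Icc (-(s' : ℤ)) s') fun j hj =>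
    single (u := i + j) ?_ (c i • e j)).congr fun t => ?_
  · rw [mem_Icc] at hi hj ⊢
    push_cast
    omega
  · rw [hc, he, sum_smul]
    refine sum_congr rfl fun i _ => ?_
    rw [smul_sum]
    refine sum_congr rfl fun j _ => ?_
    rw [Int.cast_add, add_mul, AddChar.map_add_eq_mul, smul_eq_mul, smul_smul, smul_smul]
    congr 1
    ring

theorem mul {a b : ZMod q → K} (ha : LineCode ψ s a) (hb : LineCode ψ s' b) :
    LineCode ψ (s + s') fun t => a t * b t := ha.smul' hb

theorem prod {ι : Type*} (S : Finset ι) {σ : ι → ℕ} {a : ι → ZMod q → K}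
    (ha : ∀ i ∈ S, LineCode ψ (σ i) (a i)) : LineCode ψ (∑ i ∈ S, σ i) fun t => ∏ i ∈ S, a i t := by
  classical
  induction S using Finset.induction_on with
  | empty => exact (const 1).congr fun _ => prod_empty
  | insert i S hi ih =>
    rw [sum_insert hi]
    exact ((ha i (mem_insert_self _ _)).mul (ih fun j hj => ha j (mem_insert_of_mem hj))).congr
      fun _ => prod_insert hi

theorem prod_const {ι : Type*} (S : Finset ι) {a : ι → ZMod q → K}
    (ha : ∀ i ∈ S, LineCode ψ s (a i)) : LineCode ψ (S.card * s) fun t => ∏ i ∈ S, a i t := by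
  have := prod S (σ := fun _ => s) ha
  rwa [sum_const, smul_eq_mul] at this

theorem pow {a : ZMod q → K} (ha : LineCode ψ s a) (n : ℕ) :
    LineCode ψ (n * s) fun t => a t ^ n := by
  have := prod_const (range n) fun _ _ => ha
  rw [card_range] at this
  exact this.congr fun t => by rw [Finset.prod_const, card_range]

theorem apply {H : Type} {f : ZMod q → H → E} (hf : LineCode ψ s f) (i : H) :
    LineCode ψ s fun t => f t i := hf.map (LinearMap.proj i)

theorem pi {H : Type} {f : ZMod q → H → E} (hf : ∀ i, LineCode ψ s fun t => f t i) :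
    LineCode ψ s f := by
  choose e he using hf
  exact ⟨fun k i => e i k, fun t => funext fun i => by
    rw [Finset.sum_apply]
    exact he i t⟩

theorem pi_iff {H : Type} {f : ZMod q → H → E} :
    LineCode ψ s f ↔ ∀ i, LineCode ψ s fun t => f t i := ⟨apply, pi⟩

/-- Polynomials of degree at most `2 s` in `ψ t`. -/
theorem poly {P : Polynomial K} (hP : P.natDegree ≤ 2 * s) :
    LineCode ψ s fun t => ψ (-(s : ZMod q) * t) * P.eval (ψ t) := by
  refine (sum (range (2 * s + 1)) fun k hk =>
    single (u := (k : ℤ) - s) ?_ (P.coeff k)).congr fun t => ?_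
  · rw [mem_range] at hk
    rw [mem_Icc]
    omega
  · rw [Polynomial.eval_eq_sum_range' (Nat.lt_succ_of_le hP), mul_sum]
    refine sum_congr rfl fun k _ => ?_
    rw [← AddChar.map_nsmul_eq_pow, smul_eq_mul, mul_left_comm, ← AddChar.map_add_eq_mul, mul_comm]
    congr 2
    push_cast
    ring

theorem exists_poly {a : ZMod q → K} (ha : LineCode ψ s a) :
    ∃ P : Polynomial K, P.natDegree ≤ 2 * s ∧ ∀ t, ψ ((s : ZMod q) * t) * a t = P.eval (ψ t) := by
  obtain ⟨c, hc⟩ := ha
  refine ⟨∑ i ∈ Icc (-(s : ℤ)) s, Polynomial.monomial (i + s).toNat (c i), ?_, fun t => ?_⟩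
  · refine Polynomial.natDegree_sum_le_of_forall_le _ _ fun i hi => ?_
    refine (Polynomial.natDegree_monomial_le _).trans ?_
    rw [mem_Icc] at hi
    omega
  · rw [hc, mul_sum, Polynomial.eval_finsetSum]
    refine sum_congr rfl fun i hi => ?_
    rw [Polynomial.eval_monomial, ← AddChar.map_nsmul_eq_pow, smul_eq_mul, ← mul_assoc,
      ← AddChar.map_add_eq_mul, mul_comm]
    have h : (((i + s).toNat : ℕ) : ZMod q) = (i : ZMod q) + s := by
      have h1 : (((i + s).toNat : ℕ) : ℤ) = i + s := by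
        rw [mem_Icc] at hi
        omega
      rw [← Int.cast_natCast, h1]
      push_cast
      rfl
    congr 2
    rw [nsmul_eq_mul, h]
    ring

end LineCode

variable {G G' : Type} [AddCommGroup G] [Module (ZMod q) G] [AddCommGroup G'] [Module (ZMod q) G']
  {w : G}

namespace InCode

theorem zero : InCode ψ s w fun _ => (0 : E) := fun _ => LineCode.zero

theorem const (e : E) : InCode ψ s w fun _ => e := fun _ => LineCode.const e

theorem congr {f g : G → E} (hf : InCode ψ s w f) (h : ∀ p, g p = f p) : InCode ψ s w g :=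
  (funext h : g = f) ▸ hf

theorem add {f g : G → E} (hf : InCode ψ s w f) (hg : InCode ψ s w g) :
    InCode ψ s w fun p => f p + g p := fun p => (hf p).add (hg p)

theorem sub {f g : G → E} (hf : InCode ψ s w f) (hg : InCode ψ s w g) :
    InCode ψ s w fun p => f p - g p := fun p => (hf p).sub (hg p)

theorem neg {f : G → E} (hf : InCode ψ s w f) : InCode ψ s w fun p => -f p := fun p => (hf p).neg

theorem smul (c : K) {f : G → E} (hf : InCode ψ s w f) : InCode ψ s w fun p => c • f p :=
  fun p => (hf p).smul c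

theorem map (L : E →ₗ[K] E') {f : G → E} (hf : InCode ψ s w f) : InCode ψ s w fun p => L (f p) :=
  fun p => (hf p).map L

theorem sum {ι : Type*} (S : Finset ι) {f : ι → G → E} (hf : ∀ i ∈ S, InCode ψ s w (f i)) :
    InCode ψ s w fun p => ∑ i ∈ S, f i p := fun p => LineCode.sum S fun i hi => hf i hi p

theorem mono (h : s ≤ s') {f : G → E} (hf : InCode ψ s w f) : InCode ψ s' w f :=
  fun p => (hf p).mono h

theorem shift (p0 : G) {f : G → E} (hf : InCode ψ s w f) : InCode ψ s w fun p => f (p + p0) :=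
  fun p => (hf (p + p0)).congr fun t => by rw [add_right_comm]

theorem smul' {a : G → K} {f : G → E} (ha : InCode ψ s w a) (hf : InCode ψ s' w f) :
    InCode ψ (s + s') w fun p => a p • f p := fun p => (ha p).smul' (hf p)

theorem mul {a b : G → K} (ha : InCode ψ s w a) (hb : InCode ψ s' w b) :
    InCode ψ (s + s') w fun p => a p * b p := fun p => (ha p).mul (hb p)

theorem prod {ι : Type*} (S : Finset ι) {σ : ι → ℕ} {a : ι → G → K}
    (ha : ∀ i ∈ S, InCode ψ (σ i) w (a i)) : InCode ψ (∑ i ∈ S, σ i) w fun p => ∏ i ∈ S, a i p :=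
  fun p => LineCode.prod S fun i hi => ha i hi p

theorem prod_const {ι : Type*} (S : Finset ι) {a : ι → G → K}
    (ha : ∀ i ∈ S, InCode ψ s w (a i)) : InCode ψ (S.card * s) w fun p => ∏ i ∈ S, a i p :=
  fun p => LineCode.prod_const S fun i hi => ha i hi p

theorem pow {a : G → K} (ha : InCode ψ s w a) (n : ℕ) : InCode ψ (n * s) w fun p => a p ^ n :=
  fun p => (ha p).pow n

theorem apply {H : Type} {f : G → H → E} (hf : InCode ψ s w f) (i : H) :
    InCode ψ s w fun p => f p i := fun p => (hf p).apply i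

theorem pi {H : Type} {f : G → H → E} (hf : ∀ i, InCode ψ s w fun p => f p i) : InCode ψ s w f :=
  fun p => LineCode.pi fun i => hf i p

theorem pi_iff {H : Type} {f : G → H → E} :
    InCode ψ s w f ↔ ∀ i, InCode ψ s w fun p => f p i := ⟨apply, pi⟩

theorem comp (σ : G →ₗ[ZMod q] G') {f : G' → E} (hf : InCode ψ s (σ w) f) :
    InCode ψ s w fun p => f (σ p) :=
  fun p => (hf (σ p)).congr fun t => by simp only [map_add, map_smul]

/-- Functions which are constant in the direction `w`. -/
theorem of_zero (σ : G →ₗ[ZMod q] G') (h : σ w = 0) (f : G' → E) :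
    InCode ψ s w fun p => f (σ p) :=
  fun p => (LineCode.const (f (σ p))).congr fun t => by
    simp only [map_add, map_smul, h, smul_zero, add_zero]

/-- Characters with small frequency. -/
theorem char (a : G →ₗ[ZMod q] ZMod q) {u : ℤ} (hu : u ∈ Icc (-(s : ℤ)) s) (h : a w = u) :
    InCode ψ s w fun p => ψ (a p) :=
  fun p => (LineCode.single hu (ψ (a p))).congr fun t => by
    simp only [map_add, map_smul, h, AddChar.map_add_eq_mul, smul_eq_mul]
    rw [mul_comm t, mul_comm]

end InCode

end Algebra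

section Prime

variable {q : ℕ} [Fact q.Prime] {K : Type} [Field K] {E : Type} [AddCommGroup E] [Module K E]
  {ψ : AddChar (ZMod q) K} {s : ℕ}

theorem char_ne_zero (ψ : AddChar (ZMod q) K) (t : ZMod q) : ψ t ≠ 0 :=
  left_ne_zero_of_mul_eq_one (b := ψ (-t)) (by rw [← AddChar.map_add_eq_mul]; simp)

theorem char_injective (hψ : ψ ≠ 1) : Function.Injective ψ := by
  intro a b hab
  by_contra h
  refine hψ (AddChar.ext _ _ fun t => ?_)
  have h1 : ψ (a - b) = 1 := by
    rw [AddChar.map_sub_eq_div, hab, div_self (char_ne_zero ψ b)]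
  have h2 : t = (t / (a - b)).val • (a - b) := by
    rw [nsmul_eq_mul, ZMod.natCast_zmod_val, div_mul_cancel₀ _ (sub_ne_zero.2 h)]
  rw [h2, AddChar.map_nsmul_eq_pow, h1, one_pow, AddChar.one_apply]

namespace LineCode

/-- A word with more than `2 s` zeros vanishes. -/
theorem eq_zero (hψ : ψ ≠ 1) {f : ZMod q → E} (hf : LineCode ψ s f) (Z : Finset (ZMod q))
    (hZ : 2 * s < Z.card) (h : ∀ t ∈ Z, f t = 0) (t : ZMod q) : f t = 0 := by
  classical
  refine (Module.forall_dual_apply_eq_zero_iff K _).1 fun φ => ?_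
  obtain ⟨P, hP, he⟩ := (hf.map φ).exists_poly
  have h0 : P = 0 := by
    refine Polynomial.eq_zero_of_natDegree_lt_card_of_eval_eq_zero' P (Z.image ψ)
      (fun x hx => ?_) ?_
    · obtain ⟨z, hz, rfl⟩ := mem_image.1 hx
      rw [← he, h z hz, map_zero, mul_zero]
    · rw [card_image_of_injective _ (char_injective hψ)]
      omega
  have h1 := he t
  rw [h0, Polynomial.eval_zero] at h1
  exact (mul_eq_zero.1 h1).resolve_left (char_ne_zero ψ _)

/-- Two words which agree in more than `2 s` places are equal. -/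
theorem eq_of_agree (hψ : ψ ≠ 1) {f g : ZMod q → E} (hf : LineCode ψ s f) (hg : LineCode ψ s g)
    (Z : Finset (ZMod q)) (hZ : 2 * s < Z.card) (h : ∀ t ∈ Z, f t = g t) : f = g :=
  funext fun t => sub_eq_zero.1 ((hf.sub hg).eq_zero hψ Z hZ (fun z hz => sub_eq_zero.2 (h z hz)) t)

open Classical in
theorem card_zeros (hψ : ψ ≠ 1) {f : ZMod q → E} (hf : LineCode ψ s f) (h0 : f ≠ 0) :
    (univ.filter fun t => f t = 0).card ≤ 2 * s := by
  by_contra h
  exact h0 (funext (hf.eq_zero hψ _ (not_le.1 h) fun t ht => (mem_filter.1 ht).2))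

/-- Two words which differ in at most half of the places are equal. -/
theorem eq_of_frac (hψ : ψ ≠ 1) (hs : 4 * s < q) {f g : ZMod q → E} (hf : LineCode ψ s f)
    (hg : LineCode ψ s g) (h : frac (fun t => f t ≠ g t) ≤ 1 / 2) : f = g := by
  classical
  refine hf.eq_of_agree hψ hg (univ.filter fun t => ¬ f t ≠ g t) ?_
    fun t ht => not_not.1 (mem_filter.1 ht).2
  have h1 := card_filter_add_card_filter_not (s := univ) fun t => f t ≠ g t
  have hq : (0 : ℝ) < q := by exact_mod_cast (Fact.out : q.Prime).pos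
  rw [frac_eq, ZMod.card, div_le_iff₀ hq] at h
  rw [card_univ, ZMod.card] at h1
  have h2 : 2 * (univ.filter fun t => f t ≠ g t).card ≤ q := by
    have h3 : (2 : ℝ) * (univ.filter fun t => f t ≠ g t).card ≤ q := by linarith
    exact_mod_cast h3
  omega

theorem half_lt_frac (hψ : ψ ≠ 1) (hs : 4 * s < q) {f : ZMod q → E} (hf : LineCode ψ s f)
    (h0 : f ≠ 0) : 1 / 2 < frac fun t => f t ≠ 0 :=
  not_le.1 fun h => h0 (hf.eq_of_frac hψ hs zero h)

/-- The Lagrange basis for a set of at most `2 s + 1` places. -/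
theorem exists_basis (hψ : ψ ≠ 1) (Z : Finset (ZMod q)) (hZ : Z.card ≤ 2 * s + 1) :
    ∃ l : ZMod q → ZMod q → K, (∀ z, LineCode ψ s (l z)) ∧
      ∀ z ∈ Z, ∀ z' ∈ Z, l z z' = if z = z' then 1 else 0 := by
  have hinj : Set.InjOn ψ Z := (char_injective hψ).injOn
  refine ⟨fun z t => if z ∈ Z then ψ ((s : ZMod q) * z) •
    (ψ (-(s : ZMod q) * t) * (Lagrange.basis Z ψ z).eval (ψ t)) else 0, fun z => ?_,
    fun z hz z' hz' => ?_⟩
  · by_cases hz : z ∈ Z
    · simp only [if_pos hz]
      refine (poly ?_).smul _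
      rw [Lagrange.natDegree_basis hinj hz]
      omega
    · simp only [if_neg hz]
      exact zero
  · simp only [if_pos hz]
    split_ifs with h
    · subst h
      rw [Lagrange.eval_basis_self hinj hz, mul_one, smul_eq_mul, ← AddChar.map_add_eq_mul]
      simp
    · rw [Lagrange.eval_basis_of_ne h hz', mul_zero, smul_zero]

/-- Interpolation: coefficients `l z t` such that `t ↦ ∑ z ∈ Z, l z t • v z` is a word with the
values `v z` on `Z`; every word is of this form. -/
theorem exists_interp (hψ : ψ ≠ 1) (Z : Finset (ZMod q)) (hZ : Z.card = 2 * s + 1) :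
    ∃ l : ZMod q → ZMod q → K, (∀ z, LineCode ψ s (l z)) ∧
      ∀ (E : Type) [AddCommGroup E] [Module K E],
        (∀ v : ZMod q → E, LineCode ψ s fun t => ∑ z ∈ Z, l z t • v z) ∧
        (∀ v : ZMod q → E, ∀ t ∈ Z, ∑ z ∈ Z, l z t • v z = v t) ∧
        ∀ f : ZMod q → E, LineCode ψ s f → ∀ t, f t = ∑ z ∈ Z, l z t • f z := by
  obtain ⟨l, h1, h2⟩ := exists_basis (s := s) hψ Z hZ.le
  refine ⟨l, h1, fun E _ _ => ?_⟩
  have a1 : ∀ v : ZMod q → E, LineCode ψ s fun t => ∑ z ∈ Z, l z t • v z :=
    fun v => sum Z (f := fun z t => l z t • v z) fun z _ =>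
      (h1 z).map (LinearMap.toSpanSingleton K E (v z))
  have a2 : ∀ v : ZMod q → E, ∀ t ∈ Z, ∑ z ∈ Z, l z t • v z = v t := fun v t ht => by
    rw [sum_congr rfl fun z hz => by rw [h2 z hz t ht]]
    simp only [ite_smul, one_smul, zero_smul, sum_ite_eq', if_pos ht]
  exact ⟨a1, a2, fun f hf => congrFun
    (hf.eq_of_agree hψ (a1 f) Z (by omega) fun t ht => (a2 f t ht).symm)⟩

end LineCode

theorem frac_ne_le {C A : Type} [Fintype C] (f g h : C → A) :
    frac (fun t => f t ≠ h t) ≤ frac (fun t => g t ≠ f t) + frac fun t => g t ≠ h t := by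
  classical
  unfold frac
  rw [← add_div]
  refine div_le_div_of_nonneg_right ?_ (Nat.cast_nonneg _)
  rw [← Nat.cast_add, Nat.cast_le]
  refine le_trans (card_le_card fun t ht => ?_) (card_union_le _ _)
  simp only [mem_union, mem_filter, mem_univ, true_and] at ht ⊢
  by_contra h1
  push Not at h1
  exact ht (h1.1.symm.trans h1.2)

theorem dec0_eq (hψ : ψ ≠ 1) (hs : 4 * s < q) {f g : ZMod q → K} (hg : LineCode ψ s g)
    (h : frac (fun t => f t ≠ g t) ≤ 1 / 10) : dec0 ψ s f = g 0 := by
  have h1 : ∃ g, LineCode ψ s g ∧ frac (fun t => f t ≠ g t) ≤ 1 / 10 := ⟨g, hg, h⟩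
  rw [dec0, dif_pos h1, h1.choose_spec.1.eq_of_frac hψ hs hg
    ((frac_ne_le _ f _).trans (by linarith [h1.choose_spec.2]))]

end Prime

end Vale.Agent.P330.Bohr
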