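import Vale.Agent.P330.Bohr.LineAlg

/-!
P330, inner system: mixing along random lines, distance of the relaxed codes, and contraction of
the correction.
-/

namespace Vale.Agent.P330.Bohr

open Finset

namespace Mix

section Mean

variable {C D : Type} [Fintype C] [Fintype D]

open Classical in
/-- the indicator of a proposition -/
noncomputable def ind (p : Prop) : ℝ := if p then 1 else 0

theorem ind_nonneg (p : Prop) : 0 ≤ ind p := by
  unfold ind
  split_ifs <;> norm_num

theorem ind_le_one (p : Prop) : ind p ≤ 1 := by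
  unfold ind
  split_ifs <;> norm_num

theorem ind_pos {p : Prop} (h : p) : ind p = 1 := if_pos h

theorem ind_neg {p : Prop} (h : ¬ p) : ind p = 0 := if_neg h

theorem ind_sq (p : Prop) : ind p ^ 2 = ind p := by
  unfold ind
  split_ifs <;> norm_num

theorem ind_le {p : Prop} {x : ℝ} (h0 : 0 ≤ x) (h1 : p → 1 ≤ x) : ind p ≤ x := by
  unfold ind
  split_ifs with h
  exacts [h1 h, h0]

theorem frac_eq_mean (p : C → Prop) : frac p = mean fun c => ind (p c) := by
  classical
  rw [frac, mean, natCast_card_filter]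
  rfl

theorem mean_mono {f g : C → ℝ} (h : ∀ c, f c ≤ g c) : mean f ≤ mean g :=
  div_le_div_of_nonneg_right (sum_le_sum fun c _ => h c) (Nat.cast_nonneg _)

theorem mean_nonneg {f : C → ℝ} (h : ∀ c, 0 ≤ f c) : 0 ≤ mean f :=
  div_nonneg (sum_nonneg fun c _ => h c) (Nat.cast_nonneg _)

theorem mean_add (f g : C → ℝ) : mean (fun c => f c + g c) = mean f + mean g := by
  simp only [mean, sum_add_distrib, add_div]

theorem mean_sub (f g : C → ℝ) : mean (fun c => f c - g c) = mean f - mean g := by
  simp only [mean, sum_sub_distrib, sub_div]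

theorem mean_mul (a : ℝ) (f : C → ℝ) : mean (fun c => a * f c) = a * mean f := by
  simp only [mean, ← mul_sum, mul_div_assoc]

theorem mean_const [Nonempty C] (a : ℝ) : mean (fun _ : C => a) = a := by
  rw [mean, sum_const, card_univ, nsmul_eq_mul, mul_div_cancel_left₀]
  exact Nat.cast_ne_zero.2 Fintype.card_ne_zero

theorem mean_prod (f : C × D → ℝ) : mean f = mean fun c => mean fun d => f (c, d) := by
  simp only [mean, Fintype.sum_prod_type, Fintype.card_prod, Nat.cast_mul, ← sum_div, div_div]
  rw [mul_comm]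

theorem mean_comm (f : C → D → ℝ) :
    (mean fun c => mean fun d => f c d) = mean fun d => mean fun c => f c d := by
  simp only [mean, ← sum_div, div_div]
  rw [sum_comm, mul_comm]

theorem mean_prod' (f : C × D → ℝ) : mean f = mean fun d => mean fun c => f (c, d) := by
  rw [mean_prod, mean_comm]

theorem mean_equiv (e : C ≃ D) (f : D → ℝ) : (mean fun c => f (e c)) = mean f := by
  rw [mean, mean, e.sum_comp, Fintype.card_congr e]

theorem mean_shift [AddCommGroup C] (f : C → ℝ) (a : C) : (mean fun c => f (c + a)) = mean f :=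
  mean_equiv (Equiv.addRight a) f

theorem frac_le_one [Nonempty C] (p : C → Prop) : frac p ≤ 1 := by
  rw [frac_eq_mean]
  exact (mean_mono fun c => ind_le_one _).trans (mean_const 1).le

end Mean

section Fourier

variable {q : ℕ} [Fact q.Prime] {G : Type} [AddCommGroup G] [Module (ZMod q) G] [Fintype G]

local instance : Finite (Module.Dual (ZMod q) G) :=
  Finite.of_injective _ (DFunLike.coe_injective (F := Module.Dual (ZMod q) G))

noncomputable local instance : Fintype (Module.Dual (ZMod q) G) := Fintype.ofFinite _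

/-- the standard character -/
noncomputable def e (t : ZMod q) : ℂ := ZMod.stdAddChar t

theorem std_ne_one : (ZMod.stdAddChar : AddChar (ZMod q) ℂ) ≠ 1 := by
  have := ZMod.isPrimitive_stdAddChar q (one_ne_zero (α := ZMod q))
  rwa [AddChar.mulShift_one] at this

theorem e_add (a b : ZMod q) : e (a + b) = e a * e b := AddChar.map_add_eq_mul _ _ _

theorem e_neg (a : ZMod q) : e (-a) = starRingEnd ℂ (e a) := AddChar.map_neg_eq_conj _ _

theorem e_zero : e (0 : ZMod q) = 1 := AddChar.map_zero_eq_one _

theorem sum_e {A : Type} [AddCommGroup A] [Fintype A] (φ : A →+ ZMod q) {x : A} (hx : φ x ≠ 0) :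
    ∑ a, e (φ a) = 0 := by
  refine AddChar.sum_eq_zero_of_ne_one (ψ := ZMod.stdAddChar.compAddMonoidHom φ) fun h => hx ?_
  refine char_injective std_ne_one ?_
  rw [AddChar.map_zero_eq_one]
  exact DFunLike.congr_fun h x

/-- the Fourier transform -/
noncomputable def ft (f : G → ℝ) (a : Module.Dual (ZMod q) G) : ℂ := ∑ p, f p * e (a p)

theorem parseval (f : G → ℝ) : ∑ a : Module.Dual (ZMod q) G, ‖ft f a‖ ^ 2 =
    Fintype.card (Module.Dual (ZMod q) G) * ∑ p, f p ^ 2 := by
  classical
  have h1 : ∀ p p' : G, ∑ a : Module.Dual (ZMod q) G, e (a p) * starRingEnd ℂ (e (a p')) =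
      if p = p' then (Fintype.card (Module.Dual (ZMod q) G) : ℂ) else 0 := fun p p' => by
    simp only [← e_neg, ← e_add, ← sub_eq_add_neg, ← map_sub]
    split_ifs with h
    · simp [h, e_zero]
    · obtain ⟨a, ha⟩ := not_forall.1
        ((Module.forall_dual_apply_eq_zero_iff (ZMod q) (p - p')).not.2 (sub_ne_zero.2 h))
      exact sum_e (Module.Dual.eval (ZMod q) G (p - p')).toAddMonoidHom (x := a) ha
  have h2 : ∀ a : Module.Dual (ZMod q) G, ((‖ft f a‖ ^ 2 : ℝ) : ℂ) =
      ∑ p, ∑ p', (f p * f p' : ℂ) * (e (a p) * starRingEnd ℂ (e (a p'))) := fun a => by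
    rw [Complex.ofReal_pow, ← Complex.mul_conj', ft, map_sum, sum_mul_sum]
    refine sum_congr rfl fun p _ => sum_congr rfl fun p' _ => ?_
    rw [map_mul, Complex.conj_ofReal]
    ring
  apply Complex.ofReal_injective
  rw [Complex.ofReal_sum, sum_congr rfl fun a _ => h2 a, sum_comm]
  push_cast
  rw [mul_sum]
  refine sum_congr rfl fun p _ => ?_
  rw [sum_comm]
  simp only [← mul_sum, h1, mul_ite, mul_zero, sum_ite_eq, mem_univ, if_true]
  ring

/-- the average along the lines with direction `w` -/
noncomputable def av (q : ℕ) [Fact q.Prime] [Module (ZMod q) G] (w : G) (f : G → ℝ) (p : G) : ℝ :=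
  mean fun t : ZMod q => f (p + t • w)

theorem ft_av (w : G) (f : G → ℝ) (a : Module.Dual (ZMod q) G) :
    ‖ft (fun p => av q w f p - mean f) a‖ ^ 2 ≤ ind (a ≠ 0 ∧ a w = 0) * ‖ft f a‖ ^ 2 := by
  have hq : (q : ℂ) ≠ 0 := Nat.cast_ne_zero.2 (Fact.out : q.Prime).ne_zero
  have h1 : ft (fun p => av q w f p - mean f) a =
      (∑ t : ZMod q, e (-(t * a w))) / q * ft f a - (mean f : ℂ) * ∑ p, e (a p) := by
    have h2 : ∀ t : ZMod q, ∑ p, (f (p + t • w) : ℂ) * e (a p) = e (-(t * a w)) * ft f a :=
      fun t => by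
        rw [ft, ← Equiv.sum_comp (Equiv.addRight (t • w)) fun p => (f p : ℂ) * e (a p), mul_sum]
        refine sum_congr rfl fun p _ => ?_
        rw [Equiv.coe_addRight, mul_left_comm, ← e_add, map_add, map_smul, smul_eq_mul]
        congr 2
        ring
    rw [div_mul_eq_mul_div, sum_mul, ← sum_congr rfl fun t _ => h2 t, sum_comm, mul_sum, sum_div,
      ← sum_sub_distrib]
    refine sum_congr rfl fun p _ => ?_
    have h3 : av q w f p = (∑ t : ZMod q, f (p + t • w)) / q := by rw [av, mean, ZMod.card]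
    beta_reduce
    rw [h3, ← sum_mul]
    push_cast
    ring
  rw [h1]
  by_cases ha : a = 0
  · have h3 : (Fintype.card G : ℂ) ≠ 0 := Nat.cast_ne_zero.2 Fintype.card_ne_zero
    have h4 : (∑ t : ZMod q, e (-(t * a w))) / q * ft f a - (mean f : ℂ) * ∑ p, e (a p) = 0 := by
      simp only [ha, ft, mean, LinearMap.zero_apply, mul_zero, neg_zero, e_zero, sum_const,
        card_univ, ZMod.card, nsmul_eq_mul, mul_one]
      push_cast
      field_simp
      ring
    rw [h4, norm_zero, zero_pow two_ne_zero]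
    exact mul_nonneg (ind_nonneg _) (sq_nonneg _)
  obtain ⟨x, hx⟩ := not_forall.1 (LinearMap.ext_iff.not.1 ha)
  rw [show ∑ p, e (a p) = 0 from sum_e a.toAddMonoidHom (x := x) hx, mul_zero, sub_zero]
  by_cases hw : a w = 0
  · rw [ind_pos ⟨ha, hw⟩, hw]
    simp [e_zero, hq]
  · have h3 : ∑ t : ZMod q, e (-(t * a w)) = 0 :=
      sum_e (-AddMonoidHom.mulRight (a w)) (x := 1) (by simpa using hw)
    rw [h3, zero_div, zero_mul, norm_zero, zero_pow two_ne_zero]
    exact mul_nonneg (ind_nonneg _) (sq_nonneg _)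

theorem mix_one {J : Type} [Fintype J] [Nonempty J] {lam : ℝ} {W : J → G} (h0 : 0 ≤ lam)
    (hW : Woz (q := q) lam W) (f : G → ℝ) :
    mean (fun x : G × J => (av q (W x.2) f x.1 - mean f) ^ 2) ≤ lam * mean fun p => f p ^ 2 := by
  have hD : (0 : ℝ) < Fintype.card (Module.Dual (ZMod q) G) := Nat.cast_pos.2 Fintype.card_pos
  have h1 : (mean fun j => Fintype.card (Module.Dual (ZMod q) G) *
      ∑ p, (av q (W j) f p - mean f) ^ 2) ≤
      lam * (Fintype.card (Module.Dual (ZMod q) G) * ∑ p, f p ^ 2) := by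
    simp only [← parseval]
    refine (mean_mono fun j => sum_le_sum fun a _ => ft_av (W j) f a).trans ?_
    rw [mean, sum_comm, sum_div, mul_sum]
    refine sum_le_sum fun a _ => ?_
    rw [← sum_mul, mul_div_right_comm]
    refine mul_le_mul_of_nonneg_right ?_ (sq_nonneg _)
    by_cases ha : a = 0
    · simp only [ind_neg fun h : a ≠ 0 ∧ _ => h.1 ha, sum_const_zero, zero_div, h0]
    · refine le_trans ?_ ((frac_eq_mean _).symm.le.trans (hW a ha))
      exact mean_mono fun j => ind_le (ind_nonneg _) fun h => (ind_pos h.2).ge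
  rw [mean_mul, mul_left_comm] at h1
  have h2 := le_of_mul_le_mul_left h1 hD
  rw [mean_prod']
  simp only [mean] at h2 ⊢
  rw [← sum_div, div_right_comm, ← mul_div_assoc]
  exact div_le_div_of_nonneg_right h2 (Nat.cast_nonneg _)

omit [Fintype G] in
theorem av_shift (w : G) (f : G → ℝ) (p : G) (t : ZMod q) : av q w f (p + t • w) = av q w f p := by
  rw [av, av, ← mean_shift (fun t' : ZMod q => f (p + t' • w)) t]
  congr 1
  funext t'
  rw [add_smul, add_assoc, add_comm (t • w)]

theorem mean_av (w : G) (f : G → ℝ) : mean (av q w f) = mean f := by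
  unfold av
  rw [mean_comm]
  simp only [mean_shift f]
  exact mean_const _

theorem mean_mul_av (w : G) (f : G → ℝ) :
    (mean fun p => f p * av q w f p) = mean f ^ 2 + mean fun p => (av q w f p - mean f) ^ 2 := by
  have h1 : (mean fun p => av q w f p ^ 2) = mean fun p => f p * av q w f p := by
    have h2 : ∀ p, av q w f p ^ 2 =
        mean fun t : ZMod q => av q w f (p + t • w) * f (p + t • w) := fun p => by
      simp only [av_shift]
      rw [mean_mul, sq]
      rfl
    simp only [h2]
    rw [mean_comm]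
    simp only [mean_shift fun p => av q w f p * f p]
    rw [mean_const]
    simp only [mul_comm]
  have h2 : ∀ p, (av q w f p - mean f) ^ 2 =
      av q w f p ^ 2 - 2 * mean f * av q w f p + mean f ^ 2 := fun p => by ring
  simp only [h2]
  rw [mean_add, mean_sub, mean_mul, mean_const, mean_av, h1]
  ring

end Fourier

end Mix

open Mix

theorem mixStmt : MixStmt := by
  intro q _ G _ _ _ J _ _ lam W h0 hW f
  refine ⟨mix_one h0 hW f, ?_⟩
  have h1 := mix_one h0 hW f
  rw [mean_prod'] at h1 ⊢
  have h2 := fun j => mean_mul_av (q := q) (W j) f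
  refine le_trans (le_of_eq ?_) (add_le_add le_rfl h1)
  rw [← mean_const (C := J) (mean f ^ 2), ← mean_add]
  exact congrArg mean (funext h2)

theorem distStmt : DistStmt := by
  intro q _ K _ ψ hψ E _ _ G _ _ _ J _ _ W hW s hs J' hJ g hg h
  have h1 := (mixStmt q G J (1 / 100) W (by norm_num) hW fun p => ind (g p ≠ 0)).2
  simp only [ind_sq, ← frac_eq_mean] at h1
  have h2 : ∀ x : G × J, 1 / 2 * (ind (g x.1 ≠ 0) * (1 - ind (¬ J' x.2))) ≤
      ind (g x.1 ≠ 0) * frac fun t : ZMod q => g (x.1 + t • W x.2) ≠ 0 := fun x => by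
    have h3 : 0 ≤ frac fun t : ZMod q => g (x.1 + t • W x.2) ≠ 0 :=
      div_nonneg (Nat.cast_nonneg _) (Nat.cast_nonneg _)
    by_cases h4 : g x.1 ≠ 0
    · by_cases h5 : J' x.2
      · have := (hg _ h5 x.1).half_lt_frac hψ hs fun h6 => h4 (by simpa using congrFun h6 0)
        rw [ind_pos h4, ind_neg (not_not.2 h5)]
        linarith
      · rw [ind_pos h4, ind_pos h5]
        linarith
    · rw [ind_neg h4]
      linarith
  have h3 := (mean_mono h2).trans h1
  rw [mean_mul, mean_prod] at h3
  simp only [mean_mul, mean_sub, mean_const, ← frac_eq_mean] at h3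
  simp only [mul_comm (ind _), mean_mul, ← frac_eq_mean] at h3
  have h4 : 0 ≤ frac fun p => g p ≠ 0 := div_nonneg (Nat.cast_nonneg _) (Nat.cast_nonneg _)
  have h5 : frac (fun p => g p ≠ 0) ≤ 0 := by nlinarith
  funext p
  by_contra h6
  classical
  rw [frac_eq, div_le_iff₀ (Nat.cast_pos.2 Fintype.card_pos), zero_mul, Nat.cast_nonpos,
    card_eq_zero] at h5
  exact notMem_empty p (h5 ▸ mem_filter.2 ⟨mem_univ p, h6⟩)

theorem corStmt : CorStmt := by
  refine ⟨1 / (16 * 320 ^ 2), 1 / 320, by norm_num, by norm_num, ?_⟩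
  intro q _ G _ _ _ J _ _ W hW Y _ _ B hB
  obtain ⟨b, hb⟩ : ∃ b : G → ℝ, b = fun p => mean fun y => ind (B (p, y)) := ⟨_, rfl⟩
  have hβ : frac B = mean b := by rw [frac_eq_mean, mean_prod, hb]
  have hb0 : ∀ p, 0 ≤ b p := fun p => hb ▸ mean_nonneg fun _ => ind_nonneg _
  have hb1 : ∀ p, b p ≤ 1 := fun p => hb ▸ (mean_mono fun _ => ind_le_one _).trans (mean_const 1).le
  have h1 := (mix_one (by norm_num) hW b).trans (mul_le_mul_of_nonneg_left
    (mean_mono (g := b) fun p => by nlinarith [hb0 p, hb1 p]) (by norm_num))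
  have h2 : ∀ (x : G × Y) (j : J), (mean fun u : Y => ind (1 / 10 < frac fun t : ZMod q =>
      B (x.1 + t • W j, x.2 + u) ∨ B (x.1 + t • W j, u))) ≤
      1 / 8 + 320 ^ 2 * (av q (W j) b x.1 - mean b) ^ 2 := fun x j => by
    have i1 : (mean fun u : Y => ind (1 / 10 < frac fun t : ZMod q =>
        B (x.1 + t • W j, x.2 + u) ∨ B (x.1 + t • W j, u))) ≤ 20 * av q (W j) b x.1 := by
      have i2 : ∀ u : Y, ind (1 / 10 < frac fun t : ZMod q =>
          B (x.1 + t • W j, x.2 + u) ∨ B (x.1 + t • W j, u)) ≤ 10 * mean fun t : ZMod q =>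
            ind (B (x.1 + t • W j, u + x.2)) + ind (B (x.1 + t • W j, u)) := fun u => by
        refine ind_le (mul_nonneg (by norm_num)
          (mean_nonneg fun _ => add_nonneg (ind_nonneg _) (ind_nonneg _))) fun h => ?_
        rw [frac_eq_mean] at h
        have := mean_mono (g := fun t : ZMod q =>
            ind (B (x.1 + t • W j, u + x.2)) + ind (B (x.1 + t • W j, u))) fun t =>
          ind_le (p := B (x.1 + t • W j, x.2 + u) ∨ B (x.1 + t • W j, u))
            (add_nonneg (ind_nonneg _) (ind_nonneg _)) fun h' => by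
              rcases h' with h' | h'
              · rw [add_comm u, ind_pos h']
                linarith [ind_nonneg (B (x.1 + t • W j, u))]
              · rw [ind_pos h']
                linarith [ind_nonneg (B (x.1 + t • W j, u + x.2))]
        linarith
      refine (mean_mono i2).trans (le_of_eq ?_)
      rw [mean_mul, mean_comm]
      have i3 : ∀ p, (mean fun c => ind (B (p, c + x.2))) = mean fun c => ind (B (p, c)) :=
        fun p => mean_shift (fun y => ind (B (p, y))) x.2
      simp only [mean_add, i3]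
      rw [av, hb]
      ring
    have i2 : (mean fun u : Y => ind (1 / 10 < frac fun t : ZMod q =>
        B (x.1 + t • W j, x.2 + u) ∨ B (x.1 + t • W j, u))) ≤ 1 :=
      (mean_mono fun _ => ind_le_one _).trans (mean_const 1).le
    rw [hβ] at hB
    rcases le_total (av q (W j) b x.1) (1 / 160) with h | h
    · nlinarith [sq_nonneg (av q (W j) b x.1 - mean b)]
    · nlinarith
  have h3 : ∀ x : G × Y, ind (1 / 4 ≤ frac fun u : J × Y => 1 / 10 < frac fun t : ZMod q =>
      B (x.1 + t • W u.1, x.2 + u.2) ∨ B (x.1 + t • W u.1, u.2)) ≤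
      8 * 320 ^ 2 * mean fun j => (av q (W j) b x.1 - mean b) ^ 2 := fun x => by
    refine ind_le (mul_nonneg (by norm_num) (mean_nonneg fun _ => sq_nonneg _)) fun h => ?_
    rw [frac_eq_mean, mean_prod] at h
    have := h.trans (mean_mono (h2 x))
    rw [mean_add, mean_const, mean_mul] at this
    linarith
  rw [frac_eq_mean]
  refine (mean_mono h3).trans ?_
  rw [mean_mul, mean_prod]
  simp only [mean_const]
  rw [mean_prod] at h1
  rw [hβ]
  linarith

end Vale.Agent.P330.Bohr
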