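import Vale.Agent.P330.Bohr.Stm

/-!
P330, inner system: the values of the channels.
-/

namespace Vale.Agent.P330.Bohr

open Finset

namespace OcQ

variable {c ℓ D : ℕ} {X : Type} {K : Type}

section Ring

variable [CommRing K]

@[simp] theorem bK_true : (bK true : K) = 1 := rfl
@[simp] theorem bK_false : (bK false : K) = 0 := rfl

theorem tval_prod (x : Idx X ℓ → K) (T : Term D (Idx X ℓ)) (w : Fin (D + 2) → Bool → Bool)
    (h : ∀ y, T.fn y = true ↔ ∀ d, w d (y d) = true) :
    tval x T = ∏ d, ((if w d true then x (T.rd d) else 0) +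
      if w d false then x none - x (T.rd d) else 0) := by
  have h1 : ∀ d, ((if w d true then x (T.rd d) else 0) +
      if w d false then x none - x (T.rd d) else 0) =
      ∑ b : Bool, if w d b then (if b then x (T.rd d) else x none - x (T.rd d)) else 0 := by
    intro d
    simp
  simp only [h1]
  rw [Finset.prod_univ_sum, Fintype.piFinset_univ, tval]
  refine Finset.sum_congr rfl fun y _ => ?_
  rw [Finset.prod_ite_zero]
  simp only [h, Finset.mem_univ, forall_true_left]

theorem tval_false (x : Idx X ℓ → K) (k : Idx X ℓ) : tval x (tConst (D := D) false k) = 0 := by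
  simp [tval, tConst]

theorem tval_true (x : Idx X ℓ → K) (k : Idx X ℓ) :
    tval x (tConst (D := D) true k) = x none ^ (D + 2) := by
  rw [tval_prod x _ (fun _ _ => true) (by simp [tConst])]
  simp

theorem tval_copy (x : Idx X ℓ → K) (i k : Idx X ℓ) :
    tval x (tCopy (D := D) i k) = x i * x none ^ (D + 1) := by
  rw [tval_prod x _ (Fin.cons (fun b => b) fun _ _ => true)
    (fun y => by rw [Fin.forall_fin_succ]; simp [tCopy]), Fin.prod_univ_succ]
  simp [tCopy]

theorem tval_bool (x : Idx X ℓ → K) (k : Idx X ℓ) :
    tval x (tBool (D := D) k) = x k * (x none - x k) * x none ^ D := by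
  rw [tval_prod x _ (Fin.cons (fun b => b) (Fin.cons (fun b => !b) fun _ _ => true))
    (by simp [tBool, Fin.forall_fin_succ]), Fin.prod_univ_succ, Fin.prod_univ_succ]
  simp [tBool, mul_assoc]

theorem tval_bits {β : Idx X ℓ → Bool} (h0 : β none = true) (T : Term D (Idx X ℓ)) :
    tval (fun k => (bK (β k) : K)) T = bK (T.fn fun d => β (T.rd d)) := by
  have h1 : ∀ (y : Fin (D + 2) → Bool) d, (if y d then (bK (β (T.rd d)) : K) else
      bK (β none) - bK (β (T.rd d))) = if y d = β (T.rd d) then 1 else 0 := by
    intro y d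
    cases y d <;> cases β (T.rd d) <;> simp [h0]
  simp only [tval, h1]
  rw [Finset.sum_eq_single fun d => β (T.rd d)]
  · simp [bK]
  · intro y _ hy
    obtain ⟨d, hd⟩ := Function.ne_iff.1 hy
    rw [Finset.prod_eq_zero (Finset.mem_univ d) (if_neg hd), ite_self]
  · simp

/-- the bits of the vector of a state -/
def bitL (x : X → Bool) : Idx X ℓ → Bool
  | none => true
  | some (.inl v) => x v
  | some (.inr _) => false

theorem hat_eq (x : X → Bool) : (hat x : Idx X ℓ → K) = fun k => bK (bitL x k) := by
  funext k
  rcases k with _ | v | i <;> rfl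

theorem tval_rule (x : X → Bool) (ρ : Rule 0 D X Bool Bool) (ng : Bool) (k : Idx X ℓ) :
    tval (hat x : Idx X ℓ → K) (tRule ρ ng k) = bK (xor ng (ρ.eval noInp x)) := by
  rw [hat_eq, tval_bits rfl]
  simp only [tRule, Rule.eval]
  congr 3
  funext d
  rw [dif_pos (by simp)]
  have h : (ρ.rd d).1 = none := by
    rcases (ρ.rd d).1 with _ | i
    · rfl
    · exact i.elim0
  rw [h]
  rfl

variable [Fintype X] [DecidableEq X] (M : LBL c ℓ D X)

omit [Fintype X] [DecidableEq X] in
theorem tg_inl (i : Fin 10) (k : Idx X ℓ) : (term M (.inl i) k).tg = k := by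
  fin_cases i <;> rcases k with _ | v | i <;> rfl

theorem oc_inl (i : Fin 10) (x : Idx X ℓ → K) (k : Idx X ℓ) :
    Oc M (.inl i) x k = tval x (term M (.inl i) k) := by
  simp [Oc, tg_inl]

theorem oc_inr (β : Bool) (j : Fin c) (x : Idx X ℓ → K) (k : Idx X ℓ) :
    Oc M (.inr (β, j)) x k = ∑ i, if some (Sum.inl (M.inp j i)) = k then
      x (if β then some (.inr i) else some (.inl (M.inp j i))) * x none ^ (D + 1) else 0 := by
  rw [Oc, Fintype.sum_option, Fintype.sum_sum_type]
  cases β <;> simp [term, tval_false, tval_copy] <;> rfl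

end Ring

variable [Field K]

theorem bK_inj {a b : Bool} (h : (bK a : K) = bK b) : a = b := by
  cases a <;> cases b <;> simp_all

theorem bK_eq_zero {a : Bool} : (bK a : K) = 0 ↔ a = false := by
  cases a <;> simp

theorem bK_mul (a : Bool) : (bK a : K) * (1 - bK a) = 0 := by
  cases a <;> simp

variable [Fintype X] [DecidableEq X] {M : LBL c ℓ D X}

omit [Fintype X] in
theorem inpV_at (h : M.WF0) (j : Fin c) (σ : Sym ℓ) (j' : Fin c) (i : Fin ℓ) :
    (inpV M j σ : Idx X ℓ → K) (some (.inl (M.inp j' i))) = if j = j' then bK (σ i) else 0 := by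
  have h1 : ∀ i', (some (Sum.inl (M.inp j i')) : Idx X ℓ) = some (.inl (M.inp j' i)) ↔
      j = j' ∧ i' = i := by
    intro i'
    simp only [Option.some.injEq, Sum.inl.injEq]
    exact ⟨fun e => by simpa using h.inj (a₁ := (j, i')) (a₂ := (j', i)) e,
      fun e => by rw [e.1, e.2]⟩
  simp only [inpV, h1]
  by_cases e : j = j' <;> simp [e]

theorem shape {x : Idx X ℓ → K} (h0 : Oc M (.inl 0) x = x) (h1 : Oc M (.inl 1) x = 0)
    (h8 : Oc M (.inl 8) x none = 1) : x none = 1 ∧ ∃ β : Idx X ℓ → Bool, ∀ k, x k = bK (β k) := by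
  classical
  have e0 := congrFun h0 none
  rw [oc_inl] at e0 h8
  simp only [term, tval_copy, tval_true] at e0 h8
  have e1 : x none = 1 := by rw [← e0, ← h8]; ring
  refine ⟨e1, fun k => decide (x k = 1), fun k => ?_⟩
  have e2 := congrFun h1 k
  rw [oc_inl] at e2
  simp only [term, tval_bool, e1, one_pow, mul_one, Pi.zero_apply, mul_eq_zero] at e2
  rcases e2 with e | e
  · simp [e]
  · simp [(sub_eq_zero.1 e).symm]

end OcQ

open OcQ in
theorem ocP {c ℓ D : ℕ} {X : Type} [Fintype X] [DecidableEq X] (M : LBL c ℓ D X) (h : M.WF0)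
    (K : Type) [Field K] : OcP M K where
  oc0 x k := by rw [oc_inl]; exact tval_copy _ _ _
  oc1 x k := by rw [oc_inl]; exact tval_bool _ _
  oc8 x k := by
    rw [oc_inl]
    rcases k with _ | k <;> simp [term, tval_true, tval_false]
  id_hat x := by
    funext k
    rw [oc_inl]
    simp [term, tval_copy, hat]
  id_hatS σ := by
    funext k
    rw [oc_inl]
    simp [term, tval_copy, hatS]
  bool_hat x := by
    funext k
    rw [oc_inl]
    rcases k with _ | v | i <;> simp [term, tval_bool, hat, bK_mul]
  bool_hatS σ := by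
    funext k
    rw [oc_inl]
    rcases k with _ | v | i <;> simp [term, tval_bool, hatS, bK_mul]
  val x := by
    constructor
    · intro e v
      have e1 := congrFun e (some (.inl v))
      rw [oc_inl] at e1
      simpa [term, tval_rule, bK_eq_zero] using e1
    · intro e
      funext k
      rw [oc_inl]
      rcases k with _ | v | i <;> simp [term, tval_rule, tval_false, tval_copy, e, hat]
  suc x := by
    funext k
    rw [oc_inl]
    rcases k with _ | v | i <;> simp [term, tval_rule, tval_false, tval_true, hat, sucx]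
  pre x := by
    funext k
    rw [oc_inl]
    rcases k with _ | v | i <;> simp [term, tval_rule, tval_false, tval_true, hat, prex]
  out x := by
    funext k
    rw [oc_inl]
    rcases k with _ | v | i <;> simp [term, tval_copy, tval_false, tval_true, hat, hatS, outx]
  first x k := by
    rw [oc_inl]
    rcases k with _ | k <;> simp [term, tval_copy, tval_false, hat]
  last x k := by
    rw [oc_inl]
    rcases k with _ | k <;> simp [term, tval_copy, tval_false, hat]
  symz σ := by
    funext k
    rw [oc_inl]
    rcases k with _ | v | i <;> simp [term, tval_copy, tval_false, hatS]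
  inp j x := by
    funext k
    rw [oc_inr]
    simp [inpV, hat]
  slot j σ := by
    funext k
    rw [oc_inr]
    simp [inpV, hatS]
  inpV_inj j σ σ' e := by
    funext i
    have e1 := congrFun e (some (.inl (M.inp j i)))
    rw [inpV_at h, inpV_at h, if_pos rfl, if_pos rfl] at e1
    exact bK_inj e1
  start σ k := by
    rcases k with _ | v | i
    · simp [hat, inpV]
    · by_cases hv : ∃ j i, M.inp j i = v
      · obtain ⟨j, i, rfl⟩ := hv
        have h1 : M.start σ (M.inp j i) = σ j i := by
          rw [Bool.eq_iff_iff]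
          simp only [LBL.start, decide_eq_true_eq]
          constructor
          · rintro (e | ⟨j', i', e, e'⟩)
            · exact absurd e (h.first_ne j i)
            · obtain ⟨rfl, rfl⟩ : j' = j ∧ i' = i := by
                simpa using h.inj (a₁ := (j', i')) (a₂ := (j, i)) e
              exact e'
          · exact fun e => Or.inr ⟨j, i, rfl, e⟩
        simp [hat, h1, inpV_at h, h.first_ne]
      · have h1 : ∀ j i, M.inp j i ≠ v := fun j i e => hv ⟨j, i, e⟩
        by_cases e : v = M.first
        · subst e
          simp [hat, LBL.start, inpV, h1]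
        · simp [hat, LBL.start, inpV, h1, e]
    · simp [hat, inpV]
  shapeL x h0 h1 h8 h2 := by
    obtain ⟨e1, β, hβ⟩ := shape h0 h1 h8
    refine ⟨fun v => β (some (.inl v)), funext fun k => ?_⟩
    rcases k with _ | v | i
    · exact e1
    · exact hβ _
    · have e2 := congrFun h2 (some (.inr i))
      rw [oc_inl] at e2
      simpa [term, tval_copy, e1, hat] using e2
  shapeS x h0 h1 h8 h9 := by
    obtain ⟨e1, β, hβ⟩ := shape h0 h1 h8
    refine ⟨fun i => β (some (.inr i)), funext fun k => ?_⟩
    rcases k with _ | v | i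
    · exact e1
    · have e2 := congrFun h9 (some (.inl v))
      rw [oc_inl] at e2
      simpa [term, tval_copy, e1, hatS] using e2
    · exact hβ _
  hat_inj x x' e := funext fun v => bK_inj (congrFun e (some (.inl v)))
  hatS_inj σ σ' e := funext fun i => bK_inj (congrFun e (some (.inr i)))

end Vale.Agent.P330.Bohr
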