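import Vale.Agent.P330.Bohr.Stm
import Vale.Agent.P330.Bohr.CompPT

/-!
P330, inner system: the types, the functions of the clock, the coefficient vectors and the
positions of the reads are computable in polynomial time.
-/

namespace Vale.Agent.P330.Bohr

open Finset
open Vale.Agent.Lib.PolyTime hiding C P
open Vale.Agent.Lib.Dep

namespace P1

section Clock

variable {α : Type} [Enc α] {N : α → ℕ} {c D r : ℕ} {τ : ∀ a, Option (Ck (N a))}

theorem clockCases {T : α → Type} [∀ a, Enc (T a)] (F : ∀ a, Option (Ck (N a)) → T a)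
    (h1 : DPT fun a => F a none)
    (h2 : DPT fun p : Σ a, Ck (N a) => F p.1 (some (p.2.1, p.2.2))) (hτ : DPT τ) :
    DPT fun a => F a (τ a) :=
  DPT.app (F := F) (dpt_optCases (U := fun a _ => T a) (F := F) h1 h2) hτ

theorem ph (i : Fin 5) : DPr fun p : Σ a, Ck (N a) => p.2.1 = i := DPr.eq DPT.ssnd.fst (DPT.const i)

theorem cj : DPT fun p : Σ a, Ck (N a) => (p.2.2 : ℕ) := dpt_finVal DPT.ssnd.snd

theorem cje (i : ℕ) : DPr fun p : Σ a, Ck (N a) => (p.2.2 : ℕ) = i := DPr.eq cj (DPT.const i)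

theorem cjN (hN : DPT N) : DPr fun p : Σ a, Ck (N a) => (p.2.2 : ℕ) = N p.1 + 1 :=
  DPr.eq cj ((hN.comp DPT.id.sfst).natAdd (DPT.const 1))

theorem dpt_mkCk (hN : DPT N) (i : Fin 5) {j : α → ℕ} (hj : DPT j) :
    DPT fun a => mkCk (N a) i (j a) :=
  (DPT.const i).pair (dpt_finMk (hj.natMin (hN.natAdd (DPT.const 1))))

theorem dpt_mkCk' (hN : DPT N) {i : α → Fin 5} {j : α → ℕ} (hi : DPT i) (hj : DPT j) :
    DPT fun a => mkCk (N a) (i a) (j a) :=
  hi.pair (dpt_finMk (hj.natMin (hN.natAdd (DPT.const 1))))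

theorem dpt_stage (hN : DPT N) (b : Fin 2) (hτ : DPT τ) : DPT fun a => stage b (τ a) := by
  refine clockCases (fun _ τ => stage b τ) (DPT.const 0) ?_ hτ
  have h1 : DPT fun p : Σ a, Ck (N a) => N p.1 + 1 := (hN.comp DPT.id.sfst).natAdd (DPT.const 1)
  exact DPT.ite (ph 0) (DPT.ite (DPr.const _) cj (DPT.const 0))
    (DPT.ite (ph 2) (DPT.ite (DPr.const _) cj h1)
      (DPT.ite (ph 4) (DPT.ite (DPr.const _) (DPT.const 0) h1) (DPT.ite (DPr.const _) h1 cj)))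

theorem dpt_src (hN : DPT N) (b : Fin 2) (hτ : DPT τ) : DPT fun a => src c b (τ a) :=
  DPT.ite (DPr.eq (dpt_stage hN b hτ) (DPT.const 0)) (DPT.const none)
    (dpt_optMap hτ (dpt_finComp (src0 c b) DPT.ssnd.fst))

theorem dpt_req (b : Fin 2) (ch : Ch c) (hτ : DPT τ) : DPT fun a => req b ch (τ a) := by
  refine clockCases (fun _ τ => req b ch τ) (DPT.const none) ?_ hτ
  refine (dpt_finComp (fun z : Fin 5 × Bool =>
    req (N := 0) b ch (some (z.1, if z.2 then 0 else 1)))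
      (DPT.ssnd.fst.pair (DPT.decide (cje 0)))).congr fun p => ?_
  by_cases h : (p.2.2 : ℕ) = 0 <;> simp [req, h]

theorem dpt_allowed (md : Bool) (hτ : DPT τ) : DPT fun a => allowed md (τ a) := by
  refine clockCases (fun _ τ => allowed md τ) (DPT.const (!md)) ?_ hτ
  exact DPT.ite (DPr.const _) (DPT.decide ((ph 4).and (cje 0)))
    (DPT.decide ((ph 4).not.and (dpr_imp ((ph 0).or (ph 3)) (cje 0).not)))

theorem dpt_nxt (hN : DPT N) (fl : Bool) (hτ : DPT τ) : DPT fun a => nxt fl (τ a) := by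
  refine clockCases (fun _ τ => nxt fl τ) (dpt_mkCk hN 0 (DPT.const 1)).some ?_ hτ
  have h0 : DPT fun p : Σ a, Ck (N a) => N p.1 := hN.comp DPT.id.sfst
  have h1 := (cj (N := N)).natAdd (DPT.const 1)
  exact DPT.ite (ph 0) (DPT.ite (cjN hN) (dpt_mkCk h0 1 (DPT.const 0)).some (dpt_mkCk h0 0 h1).some)
    (DPT.ite (ph 1) (DPT.ite ((cje 0).and (DPr.const _)) (dpt_mkCk h0 3 (DPT.const 1)).some
      (DPT.ite (cjN hN) (dpt_mkCk h0 2 (h0.natAdd (DPT.const 1))).some (dpt_mkCk h0 1 h1).some))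
    (DPT.ite (ph 2) (DPT.ite (cje 0) (dpt_mkCk h0 1 (DPT.const 0)).some
      (dpt_mkCk h0 2 (cj.natSub (DPT.const 1))).some) (dpt_mkCk' h0 DPT.ssnd.fst h1).some))

theorem dpt_prv (hN : DPT N) (fl : Bool) (hτ : DPT τ) : DPT fun a => prv fl (τ a) := by
  refine clockCases (fun _ τ => prv fl τ) DPT.none ?_ hτ
  have h0 : DPT fun p : Σ a, Ck (N a) => N p.1 := hN.comp DPT.id.sfst
  have h1 := (cj (N := N)).natSub (DPT.const 1)
  have h2 := DPr.le (cj (N := N)) (DPT.const 1)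
  have h3 := h0.natAdd (DPT.const 1)
  exact DPT.ite (ph 0) (DPT.ite h2 DPT.none (dpt_mkCk h0 0 h1).some)
    (DPT.ite (ph 1) (DPT.ite (cje 0) (DPT.ite (DPr.const _) (dpt_mkCk h0 0 h3).some
      (dpt_mkCk h0 2 (DPT.const 0)).some) (dpt_mkCk h0 1 h1).some)
    (DPT.ite (ph 2) (DPT.ite (cjN hN) (dpt_mkCk h0 1 h3).some
      (dpt_mkCk h0 2 (cj.natAdd (DPT.const 1))).some)
    (DPT.ite h2 (dpt_mkCk h0 1 (DPT.const 0)).some (dpt_mkCk' h0 DPT.ssnd.fst h1).some)))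

theorem dpt_nx (hN : DPT N) (dr fl : Bool) (hτ : DPT τ) : DPT fun a => nx dr fl (τ a) :=
  DPT.ite (DPr.const _) (dpt_nxt hN fl hτ) (dpt_prv hN fl hτ)

theorem dpt_opS (hN : DPT N) (fl : Bool) (b : Fin 2) (hτ : DPT τ) :
    DPT fun a => opS c fl b (τ a) := by
  refine clockCases (fun _ τ => opS c fl b τ) (DPT.const _) ?_ hτ
  exact DPT.ite (ph 0) (DPT.ite ((DPr.const _).and (cjN hN).not) (DPT.const _) (DPT.const _))
    (DPT.ite (ph 2) (DPT.ite (cje 0) (DPT.const _) (DPT.ite (DPr.const _)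
      (DPT.ite (cje 1) (DPT.const _) (DPT.const _)) (DPT.const _)))
    (DPT.ite ((DPr.const _).or (cjN hN)) (DPT.const _)
      (DPT.ite (cje 0) (DPT.const _) (DPT.const _))))

theorem dpt_opP (hN : DPT N) (fl : Bool) (b : Fin 2) (hτ : DPT τ) :
    DPT fun a => opP c fl b (τ a) := by
  refine clockCases (fun _ τ => opP c fl b τ) (DPT.const _) ?_ hτ
  exact DPT.ite (ph 0) (DPT.ite (DPr.const _)
      (DPT.ite (DPr.le cj (DPT.const 1)) (DPT.const _) (DPT.const _)) (DPT.const _))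
    (DPT.ite (ph 2) (DPT.ite ((DPr.const _).or (cjN hN)) (DPT.const _)
      (DPT.ite (cje 0) (DPT.const _) (DPT.const _)))
    (DPT.ite (cje 0) (DPT.const _) (DPT.ite (DPr.const _) (DPT.const _)
      (DPT.ite (cje 1) (DPT.const _) (DPT.const _)))))

theorem dpt_opD (hN : DPT N) (dr fl : Bool) (b : Fin 2) (hτ : DPT τ) :
    DPT fun a => opD c dr fl b (τ a) :=
  DPT.ite (DPr.const _) (dpt_opS hN fl b hτ) (dpt_opP hN fl b hτ)

end Clock

section Coef

variable {α : Type} [Enc α] {N : α → ℕ} {q c D r : ℕ} [NeZero r] {y y' : ∀ a, Yv c D (N a) r}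
  (hN : DPT N) (hb : PBd N)

include hN hb

theorem elCk : DPT fun a => elems (Ck (N a)) :=
  dpt_elems_prod (DPT.const _) (dpt_elems_fin (hN.natAdd (DPT.const 2)) (hb.add (PBd.const 2)))

theorem elTI : DPT fun a => elems (TI c D (N a)) :=
  dpt_elems_sum (dpt_elems_prod (DPT.const _)
    (dpt_elems_fin (hN.natAdd (DPT.const 1)) (hb.add (PBd.const 1)))) (DPT.const _)

theorem elHx : DPT fun a => elems (Hx c D (N a)) :=
  dpt_elems_sum (dpt_elems_prod (DPT.const _) (elTI hN hb)) (elCk hN hb)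

theorem dpt_ent {i : ∀ a, Hx c D (N a)} (hy : DPT y) (hi : DPT i) : DPT fun a => y a (i a) :=
  dpt_vecAt (elHx hN hb) hy hi

theorem dpt_cf {b : α → Fin 2} {ch : α → Ch c} {l : α → ℕ} (hy : DPT y) (h1 : DPT b) (h2 : DPT ch)
    (hl : DPT l) : DPT fun a => cf (y a) (b a) (ch a) (l a) := by
  have hv : DPT fun x : {a // l a < N a + 1} => x.1 :=
    DPT.val (p := fun _ a => l a < N a + 1) (f := fun x => x) DPT.id
  exact dpt_dite (DPr.lt hl (hN.natAdd (DPT.const 1)))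
    (dpt_ent (hN.comp hv) (pbd_comp hb hv) (hy.comp hv)
      (dpt_inl ((h1.comp hv).pair (dpt_inl ((h2.comp hv).pair (dpt_finMk (hl.comp hv)))))))
    (DPT.const 0)

theorem dpt_cDn {b : α → Fin 2} {ch : α → Ch c} {l : α → ℕ} (hy : DPT y) (h1 : DPT b) (h2 : DPT ch)
    (hl : DPT l) : DPT fun a => cDn (y a) (b a) (ch a) (l a) :=
  DPT.ite (DPr.eq hl (DPT.const 0)) (DPT.const 0)
    (dpt_cf hN hb hy h1 h2 (hl.natSub (DPT.const 1)))

theorem dpt_cF {b : α → Fin 2} {d : α → Fin (D + 2)} (hy : DPT y) (h1 : DPT b) (h2 : DPT d) :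
    DPT fun a => cF (y a) (b a) (d a) := dpt_ent hN hb hy (dpt_inl (h1.pair (dpt_inr h2)))

theorem dpt_ckE {τ : ∀ a, Ck (N a)} (hy : DPT y) (hτ : DPT τ) : DPT fun a => y a (.inr (τ a)) :=
  dpt_ent hN hb hy (dpt_inr hτ)

omit [NeZero r] hN hb in
theorem mkY_inl {N : ℕ} (b : Fin 2) (f : Ch c → ℕ → ZMod r) (g : Fin (D + 2) → ZMod r)
    (k : Ck N → ZMod r) (z : Fin 2 × TI c D N) : mkY b f g k (.inl z) =
      if z.1 = b then Sum.elim (fun w => f w.1 w.2) g z.2 else 0 := by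
  obtain ⟨b', w | d⟩ := z <;> rfl

theorem dpt_mkY (b : Fin 2) {f : α → Ch c → ℕ → ZMod r} {g : α → Fin (D + 2) → ZMod r}
    {k : ∀ a, Ck (N a) → ZMod r} (hf : DPT fun x : α × Ch c × ℕ => f x.1 x.2.1 x.2.2)
    (hg : ∀ d, DPT fun a => g a d) (hk : DPT fun x : Σ a, Ck (N a) => k x.1 x.2) :
    DPT fun a => (mkY b (f a) (g a) (k a) : Yv c D (N a) r) := by
  refine dpt_vecMk (elHx hN hb)
    (dpt_sumCases (F := fun a i => (mkY b (f a) (g a) (k a) : Yv c D (N a) r) i) ?_ hk)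
  simp only [mkY_inl]
  refine DPT.ite (DPr.eq DPT.ssnd.fst (DPT.const b)) (dpt_sumElim DPT.ssnd.snd ?_ ?_) (DPT.const 0)
  · exact DPT.comp (f := fun p : Σ x : Σ a, Fin 2 × TI c D (N a), Ch c × Fin (N x.1 + 1) =>
      (p.1.1, p.2.1, (p.2.2 : ℕ))) hf
      (DPT.id.sfst.sfst.pair (DPT.ssnd.fst.pair (dpt_finVal DPT.ssnd.snd)))
  · exact dpt_cases (f := fun d (p : Σ _ : Σ a, Fin 2 × TI c D (N a), Fin (D + 2)) => g p.1.1 d)
      DPT.ssnd fun d => (hg d).comp DPT.id.sfst.sfst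

theorem dpt_ckY {k : ∀ a, Ck (N a) → ZMod r} (hk : DPT fun x : Σ a, Ck (N a) => k x.1 x.2) :
    DPT fun a => (ckY (k a) : Yv c D (N a) r) :=
  dpt_mkY hN hb 0 (f := fun _ _ _ => 0) (g := fun _ _ => 0) (DPT.const 0) (fun _ => DPT.const 0) hk

theorem dpt_unitY {i : ∀ a, Hx c D (N a)} (hi : DPT i) :
    DPT fun a => (unitV (i a) : Yv c D (N a) r) :=
  dpt_vecMk (elHx hN hb)
    (DPT.ite (DPr.eq DPT.ssnd (hi.comp DPT.id.sfst)) (DPT.const 1) (DPT.const 0))

theorem dpt_addY (hy : DPT y) (hy' : DPT y') : DPT fun a => y a + y' a :=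
  dpt_vecMk (elHx hN hb) (DPT.add ptRing_zc (dpt_vecEnt (elHx hN hb) hy)
    (dpt_vecEnt (elHx hN hb) hy'))

omit hN hb in
theorem dpt_hF (b : Fin 2) (d : Fin (D + 2)) : DPT fun a => (hF b d : Hx c D (N a)) :=
  dpt_inl ((DPT.const b).pair (dpt_inr (DPT.const d)))

omit hN hb in
theorem dpt_hV (b : Fin 2) (ch : Ch c) : DPT fun a => (hV b ch : Hx c D (N a)) :=
  dpt_inl ((DPT.const b).pair (dpt_inl ((DPT.const ch).pair (dpt_fin_of_val (DPT.const 0)))))

theorem dpt_cv (i : CI c) {τ : ∀ a, Option (Ck (N a))} (hy : DPT y) (hτ : DPT τ) :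
    DPT fun a => cv (y a) i (τ a) := by
  cases i with
  | alw md => exact dpt_finComp (fun b => (bK (!b) : ZMod r)) (dpt_allowed md hτ)
  | src b sr =>
    exact DPT.ite (DPr.eq (dpt_src hN b hτ) (DPT.const _)) (DPT.const 1) (DPT.const 0)
  | top b ch => exact dpt_cDn hN hb hy (DPT.const b) (DPT.const ch) (dpt_stage hN b hτ)
  | req b ch β =>
    exact DPT.ite (DPr.eq (dpt_req b ch hτ) (DPT.const _)) (DPT.const 1) (DPT.const 0)
  | op dr fl b o =>
    exact DPT.ite (DPr.eq (dpt_opD hN dr fl b hτ) (DPT.const _)) (DPT.const 1) (DPT.const 0)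
  | nx dr fl =>
    exact dpt_optElim (dpt_nx hN dr fl hτ) (DPT.const 0) (dpt_ckE (hN.comp DPT.id.sfst)
      (pbd_comp hb DPT.id.sfst) (hy.comp DPT.id.sfst) DPT.ssnd)

theorem ckEnt (hy : DPT y) : DPT fun x : Σ a, Ck (N a) => y x.1 (.inr x.2) :=
  dpt_ckE (hN.comp DPT.id.sfst) (pbd_comp hb DPT.id.sfst) (hy.comp DPT.id.sfst) DPT.ssnd

theorem cfEnt (hy : DPT y) (b : Fin 2) {l : α × Ch c × ℕ → ℕ} (hl : DPT l) :
    DPT fun x : α × Ch c × ℕ => cf (y x.1) b x.2.1 (l x) :=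
  dpt_cf (hN.comp DPT.id.fst) (pbd_comp hb DPT.id.fst) (hy.comp DPT.id.fst) (DPT.const b)
    DPT.id.snd.fst hl

theorem cDnEnt (hy : DPT y) (b : Fin 2) : DPT fun x : α × Ch c × ℕ => cDn (y x.1) b x.2.1 x.2.2 :=
  dpt_cDn (hN.comp DPT.id.fst) (pbd_comp hb DPT.id.fst) (hy.comp DPT.id.fst) (DPT.const b)
    DPT.id.snd.fst DPT.id.snd.snd

theorem dpt_lv (i : LI c D) (hy : DPT y) (hy' : DPT y') : DPT fun a => lv (y a) (y' a) i := by
  have hF' : ∀ b d, DPT fun a => cF (y a) b d := fun b d =>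
    dpt_cF hN hb hy (DPT.const b) (DPT.const d)
  cases i with
  | ck0 => exact dpt_ckY hN hb (ckEnt hN hb hy)
  | ck1 => exact dpt_ckY hN hb (ckEnt hN hb hy')
  | ck2 => exact dpt_ckY hN hb (DPT.mul ptRing_zc (ckEnt hN hb hy) (ckEnt hN hb hy'))
  | regs b =>
    exact dpt_mkY hN hb b (cfEnt hN hb hy b DPT.id.snd.snd) (fun _ => DPT.const 0) (DPT.const 0)
  | blk b => exact dpt_mkY hN hb b (cfEnt hN hb hy b DPT.id.snd.snd) (hF' b) (DPT.const 0)
  | swp b => exact dpt_mkY hN hb _ (cfEnt hN hb hy b DPT.id.snd.snd) (hF' b) (DPT.const 0)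
  | upA b =>
    exact dpt_mkY hN hb b (f := fun a ch l => cf (y a) b ch (l + 1)) (k := fun _ _ => 0)
      (cfEnt hN hb hy b (DPT.id.snd.snd.natAdd (DPT.const 1))) (hF' b) (DPT.const 0)
  | dn b => exact dpt_mkY hN hb b (cDnEnt hN hb hy b) (hF' b) (DPT.const 0)
  | F b d => exact dpt_unitY hN hb (dpt_hF b d)
  | V b ch => exact dpt_unitY hN hb (dpt_hV b ch)

theorem dpt_co (i : RI q c D) (hy : DPT y) (hy' : DPT y') : DPT fun a => co (y a) (y' a) i := by
  cases i with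
  | ck i =>
    exact dpt_ckY hN hb (DPT.sub ptRing_zc (dpt_cv (hN.comp DPT.id.sfst) (pbd_comp hb DPT.id.sfst) i
      (hy.comp DPT.id.sfst) DPT.ssnd.some) ((dpt_cv hN hb i hy DPT.none).comp DPT.id.sfst))
  | lin i => exact dpt_lv hN hb i hy hy'
  | far => exact dpt_ckY hN hb (ckEnt hN hb hy)
  | av t b β =>
    cases β
    · exact dpt_mkY hN hb b (cDnEnt hN hb hy b) (fun _ => DPT.const 0) (DPT.const 0)
    · exact dpt_mkY hN hb b (f := fun a ch l => if l = 0 then cf (y a) b ch 0 else 0)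
        (g := fun _ _ => 0) (k := fun _ _ => 0) (DPT.ite (DPr.eq DPT.id.snd.snd (DPT.const 0))
        (cfEnt hN hb hy b (DPT.const 0)) (DPT.const 0)) (fun _ => DPT.const 0) (DPT.const 0)
  | zi b d => exact dpt_unitY hN hb (dpt_hF b d)
  | sv d b ch => exact dpt_unitY hN hb (dpt_hV b ch)
  | inP j => exact dpt_unitY hN hb (dpt_hV _ _)
  | inS j d => exact dpt_unitY hN hb (dpt_hV _ _)

end Coef

section Geo

variable {α : Type} [Enc α] {q Cw c D r : ℕ} [Fact q.Prime] {X : α → Type} {ℓ m n : α → ℕ}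
  {Γ : ∀ a, Geo q (m a) (n a) Cw (Idx (X a) (ℓ a))} {p δ : ∀ a, Pt q (m a)} {z : ∀ a, Zs q (n a)}
  (hn : DPT n) (hb : PBd n) (hg : DPT fun a => (Γ a).a)

include hn hb hg

theorem dpt_sgI (hp : DPT p) : DPT fun a => sgI (Γ a) D (p a) :=
  fv_compInvIter hg ((DPT.const _).natMul hn) ((PBd.const _).mul hb) hp

theorem dpt_sgN (hp : DPT p) : DPT fun a => sgN (Γ a) D (p a) :=
  fv_compIter hg ((DPT.const _).natMul hn) ((PBd.const _).mul hb) hp

theorem dpt_avP {t : α → ZMod q} (hp : DPT p) (ht : DPT t) : DPT fun a => avP (Γ a) D (p a) (t a) :=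
  fv_add (fv_comp hg hp) (fv_smul ht (dpt_sgN hn hb hg
    (fv_unitV (fv_dim hp) (fv_dimb hp) (dpt_fin_of_val (DPT.const 0)))))

theorem dpt_piD {d : α → ℕ} (hd : DPT d) (hp : DPT p) : DPT fun a => piD (Γ a) D (d a) (p a) :=
  fv_swapSlot hn hb hd (DPT.const _) (dpt_sgI hn hb hg hp)

theorem dpt_ziP (hp : DPT p) (hz : DPT z) : DPT fun a => ziP (Γ a) D (p a) (z a) :=
  fv_add hp (dpt_sgN hn hb hg (fv_inSlot (fv_dim' hp) (fv_dimb' hp) (DPT.const _) hz))

theorem dpt_pt (i : RI q c D) (hp : DPT p) (hδ : DPT δ) (hz : DPT z) :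
    DPT fun a => pt (Γ a) (p a) (δ a) (z a) i := by
  cases i with
  | ck i => exact hp
  | lin i => exact hp
  | far => exact fv_add hp hδ
  | av t b β => exact dpt_avP hn hb hg hp (DPT.const t)
  | zi b d => exact dpt_ziP hn hb hg hp hz
  | sv d b ch => exact dpt_piD hn hb hg (DPT.const _) hp
  | inP j => exact hp
  | inS j d => exact dpt_piD hn hb hg (DPT.const _) hp

theorem dpt_dir (hw : ∀ j, DPT fun a => (Γ a).w j) (E : ℕ) {j : ∀ a, Fin Cw × Fin (m a + 1)}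
    (hj : DPT j) : DPT fun a => (Γ a).dir E (j a) :=
  fv_compIter hg (((DPT.const E).natMul hn).natAdd (dpt_finVal hj.snd))
    (((PBd.const E).mul hb).add (pbd_finVal (fv_dimb hg)))
    (dpt_cases (f := fun i a => (Γ a).w i) hj.fst hw)

theorem dpt_rdP [Fact r.Prime] (hw : ∀ j, DPT fun a => (Γ a).w j)
    {x : ∀ a, Pos q (m a) c D ((D + 2) * n a) r}
    {s : ∀ a, Seed q (m a) (n a) Cw c D ((D + 2) * n a) r} (hx : DPT x) (hs : DPT s)
    (i : RR q ⊕ RI q c D × Bool) : DPT fun a => rdP (Γ a) (x a) (s a) i := by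
  have hN : DPT fun a => (D + 2) * n a := (DPT.const _).natMul hn
  have hNb : PBd fun a => (D + 2) * n a := (PBd.const _).mul hb
  have hl : ∀ t : ZMod q, DPT fun a => (x a).1 + t • (Γ a).dir (D + 2) (s a).1 := fun t =>
    fv_add hx.fst (fv_smul (DPT.const t) (dpt_dir hn hb hg hw _ hs.fst))
  rcases i with (i | t | ⟨t, β⟩) | ⟨i, β⟩
  · match i with
    | 0 => exact hx
    | 1 => exact hx.fst.pair hs.snd.snd.fst
    | 2 => exact hx.fst.pair (dpt_addY hN hNb hx.snd hs.snd.snd.fst)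
  · exact (hl t).pair hx.snd
  · exact (hl t).pair (DPT.ite (DPr.const _) (dpt_addY hN hNb hx.snd hs.snd.fst) hs.snd.fst)
  · exact (dpt_pt hn hb hg i hx.fst hs.snd.snd.snd.fst hs.snd.snd.snd.snd).pair
      (DPT.ite (DPr.const _) (dpt_addY hN hNb (dpt_co hN hNb i hx.snd hs.snd.snd.fst) hs.snd.fst)
        hs.snd.fst)

end Geo

theorem card_Hx (c D N : ℕ) : Fintype.card (Hx c D N) =
    2 * (Fintype.card (Ch c) * (N + 1) + (D + 2)) + 5 * (N + 2) := by
  simp only [Fintype.card_eq_nat_card, Nat.card_sum, Nat.card_prod, Nat.card_fin]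

end P1

section Main

open P1

variable {q Cw c D : ℕ} [Fact q.Prime] {α : Type} [Enc α] {ℓ m n : α → ℕ} {X : TF α}
  {Γ : ∀ a, Geo q (m a) (n a) Cw (Idx (X.T a) (ℓ a))} {M : ∀ a, LBL c (ℓ a) D (X.T a)}

theorem PTx.mb (h : PTx Γ M) : PBd m := fv_dimb' h.ga

theorem PTx.n_le (h : PTx Γ M) (a : α) : (D + 2 + 1) * n a ≤ m a + 1 := (h.dim a).ge

theorem PTx.nb (h : PTx Γ M) : PBd n :=
  (h.mb.add (PBd.const 1)).mono fun a => le_trans (Nat.le_mul_of_pos_left _ (by omega)) (h.n_le a)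

theorem PTx.hN (h : PTx Γ M) : DPT fun a => (D + 2) * n a := (DPT.const _).natMul h.hn

theorem PTx.Nb (h : PTx Γ M) : PBd fun a => (D + 2) * n a := (PBd.const _).mul h.nb

theorem PTx.pwLin (h : PTx Γ M) {b : ℕ} (hb : 0 < b) (A B : ℕ) {k : α → ℕ}
    (hk : ∀ a, k a ≤ A * m a + B) : PBd fun a => b ^ k a :=
  ((h.pw (b ^ A)).mul (PBd.const (b ^ B))).mono fun a => by
    rw [← pow_mul, ← pow_add]
    exact Nat.pow_le_pow_right hb (hk a)

theorem pt1 (h : PTx Γ M) (r : ℕ) [Fact r.Prime] : PT1 Γ r c D := by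
  have hq : 0 < q := (Fact.out : q.Prime).pos
  have hr : 0 < r := (Fact.out : r.Prime).pos
  have hm1 : DPT fun a => elems (Fin (m a + 1)) :=
    dpt_elems_fin (h.hm.natAdd (DPT.const 1)) (h.mb.add (PBd.const 1))
  have ePt : DPT fun a => elems (Pt q (m a)) := dpt_elems_vec hm1 (DPT.const _) (by
    simp only [length_elems, ZMod.card, Fintype.card_fin]
    exact h.pwLin hq 1 1 fun a => by omega)
  have eZs : DPT fun a => elems (Zs q (n a)) := dpt_elems_vec (dpt_elems_fin h.hn h.nb)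
    (DPT.const _) (by
      simp only [length_elems, ZMod.card, Fintype.card_fin]
      refine h.pwLin hq 1 1 fun a => ?_
      have h1 := h.n_le a
      have h2 : n a ≤ (D + 2 + 1) * n a := Nat.le_mul_of_pos_left _ (by omega)
      omega)
  have eYv : DPT fun a => elems (Yv c D ((D + 2) * n a) r) :=
    dpt_elems_vec (elHx h.hN h.Nb) (DPT.const _) (by
      simp only [length_elems, ZMod.card, card_Hx]
      refine h.pwLin hr (2 * Fintype.card (Ch c) + 5) (4 * Fintype.card (Ch c) + 2 * D + 19)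
        fun a => ?_
      have h1 : (D + 2) * n a ≤ m a + 1 := le_trans (Nat.mul_le_mul_right _ (by omega)) (h.n_le a)
      have h2 := Nat.mul_le_mul_left (Fintype.card (Ch c)) h1
      generalize (D + 2) * n a = N at h1 h2
      nlinarith)
  have hn' : ∀ {V : α → Type} [∀ a, Enc (V a)], DPT fun x : Σ a, V a => n x.1 :=
    h.hn.comp DPT.id.sfst
  have hb' : ∀ {V : α → Type} [∀ a, Enc (V a)], PBd fun x : Σ a, V a => n x.1 :=
    pbd_comp h.nb DPT.id.sfst
  have hg' : ∀ {V : α → Type} [∀ a, Enc (V a)], DPT fun x : Σ a, V a => (Γ x.1).a :=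
    h.ga.comp DPT.id.sfst
  exact
    { eIdx := dpt_elems_option (dpt_elems_sum X.pt (dpt_elems_fin h.l h.lb))
      eHx := elHx h.hN h.Nb
      ePt := ePt
      eZs := eZs
      eYv := eYv
      ePos := dpt_elems_prod ePt eYv
      eSeed := dpt_elems_prod (dpt_elems_prod (DPT.const _) hm1)
        (dpt_elems_prod eYv (dpt_elems_prod eYv (dpt_elems_prod ePt eZs)))
      sgI := dpt_sgI (Γ := fun x : Σ a, Pt q (m a) => Γ x.1) hn' hb' hg' DPT.ssnd
      piD := fun d => dpt_piD (Γ := fun x : Σ a, Pt q (m a) => Γ x.1) hn' hb' hg' (DPT.const d)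
        DPT.ssnd
      avP := fun t => dpt_avP (Γ := fun x : Σ a, Pt q (m a) => Γ x.1) hn' hb' hg' DPT.ssnd
        (DPT.const t)
      cv0 := fun i => dpt_cv ((DPT.const _).natMul hn') ((PBd.const _).mul hb') i DPT.ssnd
        DPT.none
      rd := fun i => dpt_rdP (Γ := fun x : Σ a, Pos q (m a) c D ((D + 2) * n a) r ×
        Seed q (m a) (n a) Cw c D ((D + 2) * n a) r => Γ x.1) hn' hb' hg'
        (fun j => (h.gw j).comp DPT.id.sfst) DPT.ssnd.fst DPT.ssnd.snd i }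

end Main

end Vale.Agent.P330.Bohr
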