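import Vale.Agent.P330.Bohr.Stm
import Vale.Agent.P330.Bohr.CompPT

/-!
P330, inner system: characters and kernels in polynomial time.
-/

namespace Vale.Agent.P330.Bohr

open Finset
open Vale.Agent.Lib.PolyTime hiding C P
open Vale.Agent.Lib.Dep

namespace P2

section Gen

variable {κ : Type} [Enc κ] {r : ℕ} [NeZero r] {S : Type} [Fintype S]

theorem sumC {f : S → κ → ZMod r} (h : ∀ s, DPT (f s)) : DPT fun a => ∑ s, f s a :=
  dpt_finComp (fun g : S → ZMod r => ∑ s, g s) (dpt_piMk (g := fun a s => f s a) h)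

theorem prodC {f : S → κ → ZMod r} (h : ∀ s, DPT (f s)) : DPT fun a => ∏ s, f s a :=
  dpt_finComp (fun g : S → ZMod r => ∏ s, g s) (dpt_piMk (g := fun a s => f s a) h)

end Gen

/-- polynomial time families of terms -/
structure TermPT {κ : Type} [Enc κ] {D : ℕ} {I : κ → Type} [∀ x, Enc (I x)]
    (T : ∀ x, Term D (I x)) : Prop where
  rd : ∀ d, DPT fun x => (T x).rd d
  fn : ∀ y, DPT fun x => (T x).fn y
  tg : DPT fun x => (T x).tg

section Terms

variable {κ : Type} [Enc κ] {D : ℕ} {X : κ → Type} [∀ x, Enc (X x)] {ℓ : κ → ℕ}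
  {i k : ∀ x, Idx (X x) (ℓ x)}

theorem tConst_pt (b : Bool) (hk : DPT k) : TermPT (D := D) fun x => tConst b (k x) :=
  ⟨fun _ => DPT.none, fun _ => DPT.const b, hk⟩

theorem tCopy_pt (hi : DPT i) (hk : DPT k) : TermPT (D := D) fun x => tCopy (i x) (k x) :=
  ⟨fun _ => hi, fun y => DPT.const (y 0), hk⟩

theorem tBool_pt (hk : DPT k) : TermPT (D := D) fun x => tBool (k x) :=
  ⟨fun _ => hk, fun y => DPT.const (y 0 && !y 1), hk⟩

theorem tRule_pt {ρ : ∀ x, Rule 0 D (X x) Bool Bool} (ng : Bool)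
    (h1 : ∀ j, DPT fun x => (ρ x).rd j) (h2 : ∀ y, DPT fun x => (ρ x).fn y) (hk : DPT k) :
    TermPT fun x => tRule (ρ x) ng (k x) := by
  refine ⟨fun d => ?_, fun y => dpt_xor (DPT.const ng) (h2 _), hk⟩
  by_cases h : (d : ℕ) < D
  · simp only [tRule, dif_pos h]
    exact (dpt_inl (h1 _).snd).some
  · simp only [tRule, dif_neg h]
    exact DPT.none

theorem termPT_cases {T : ∀ x, Idx (X x) (ℓ x) → Term D (Idx (X x) (ℓ x))}
    (h0 : TermPT fun x => T x none) (h1 : TermPT fun p : Σ x, X x => T p.1 (some (.inl p.2)))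
    (h2 : TermPT fun p : Σ x, Fin (ℓ x) => T p.1 (some (.inr p.2))) :
    TermPT fun p : Σ x, Idx (X x) (ℓ x) => T p.1 p.2 :=
  ⟨fun d => dpt_optCases (F := fun x s => (T x s).rd d) (h0.rd d)
      (dpt_sumCases (F := fun x s => (T x (some s)).rd d) (h1.rd d) (h2.rd d)),
    fun y => dpt_optCases (F := fun x s => (T x s).fn y) (h0.fn y)
      (dpt_sumCases (F := fun x s => (T x (some s)).fn y) (h1.fn y) (h2.fn y)),
    dpt_optCases (F := fun x s => (T x s).tg) h0.tg
      (dpt_sumCases (F := fun x s => (T x (some s)).tg) h1.tg h2.tg)⟩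

theorem term_pt {c : ℕ} {M : ∀ a, LBL c (ℓ a) D (X a)} (hM : LBL.IsPT M) (ch : Ch c) :
    TermPT fun p : Σ a, Idx (X a) (ℓ a) => term (M p.1) ch p.2 := by
  have l : DPT fun p : Σ x, X x => (some (.inl p.2) : Idx (X p.1) (ℓ p.1)) :=
    (dpt_inl DPT.ssnd).some
  have rr : DPT fun p : Σ x, Fin (ℓ x) => (some (.inr p.2) : Idx (X p.1) (ℓ p.1)) :=
    (dpt_inr DPT.ssnd).some
  have rl : ∀ {ρ : ∀ a, X a → Rule 0 D (X a) Bool Bool} (ng : Bool),
      RulePT (S := fun _ => Unit) (A := fun _ => Bool) (B := fun _ => Bool) (fun a v _ => ρ a v) →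
      TermPT fun p : Σ x, X x => tRule (ρ p.1 p.2) ng (some (.inl p.2) : Idx (X p.1) (ℓ p.1)) :=
    fun ng h => tRule_pt ng (h.rd' DPT.id.sfst DPT.ssnd (DPT.const ()))
      (fun y => h.fn' DPT.id.sfst DPT.ssnd (DPT.const ()) (DPT.const y)) l
  rcases ch with ch | ⟨b, j⟩
  · fin_cases ch
    · exact tCopy_pt DPT.ssnd DPT.ssnd
    · exact tBool_pt DPT.ssnd
    · exact termPT_cases (T := fun x => term (M x) (.inl 2)) (tConst_pt false DPT.none)
        (rl true hM.val) (tCopy_pt rr rr)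
    · exact termPT_cases (T := fun x => term (M x) (.inl 3)) (tConst_pt true DPT.none)
        (rl false hM.suc) (tConst_pt false rr)
    · exact termPT_cases (T := fun x => term (M x) (.inl 4)) (tConst_pt true DPT.none)
        (rl false hM.pre) (tConst_pt false rr)
    · exact termPT_cases (T := fun x => term (M x) (.inl 5)) (tConst_pt true DPT.none)
        (tConst_pt false l) (tCopy_pt (dpt_inl hM.out).some rr)
    · exact termPT_cases (T := fun x => term (M x) (.inl 6))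
        (tCopy_pt (dpt_inl hM.first).some DPT.none) (tConst_pt false l) (tConst_pt false rr)
    · exact termPT_cases (T := fun x => term (M x) (.inl 7))
        (tCopy_pt (dpt_inl hM.last).some DPT.none) (tConst_pt false l) (tConst_pt false rr)
    · exact termPT_cases (T := fun x => term (M x) (.inl 8)) (tConst_pt true DPT.none)
        (tConst_pt false l) (tConst_pt false rr)
    · exact termPT_cases (T := fun x => term (M x) (.inl 9)) (tConst_pt false DPT.none)
        (tCopy_pt l l) (tConst_pt false rr)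
  · cases b
    · exact termPT_cases (T := fun x => term (M x) (.inr (false, j))) (tConst_pt false DPT.none)
        (tConst_pt false l) (tCopy_pt (dpt_inl (hM.inp j)).some (dpt_inl (hM.inp j)).some)
    · exact termPT_cases (T := fun x => term (M x) (.inr (true, j))) (tConst_pt false DPT.none)
        (tConst_pt false l) (tCopy_pt rr (dpt_inl (hM.inp j)).some)

end Terms

variable {q r Cw c D : ℕ} [Fact q.Prime] [Fact r.Prime] {α : Type} [Enc α] {ℓ m n : α → ℕ}
  {X : TF α} {ψ : AddChar (ZMod q) (ZMod r)} {Γ : ∀ a, Geo q (m a) (n a) Cw (Idx (X.T a) (ℓ a))}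
  {M : ∀ a, LBL c (ℓ a) D (X.T a)}

theorem mb (h : PTx Γ M) : PBd m := fv_dimb' h.ga

theorem nb (h : PTx Γ M) : PBd n :=
  ((mb h).add (PBd.const 1)).mono fun a => by
    rw [h.dim a]
    exact Nat.le_mul_of_pos_left _ (by omega)

variable {κ : Type} [Enc κ] {e : κ → α} {k : ∀ x, Idx (X.T (e x)) (ℓ (e x))}
  {z : ∀ x, Zs q (n (e x))}

theorem dot_pt (h : PTx Γ M) (he : DPT e) (hk : DPT k) (hz : DPT z) :
    DPT fun x => ∑ i, (Γ (e x)).al (k x) i * z x i :=
  fv_dot' (DPT.comp (f := fun x => (⟨e x, k x⟩ : Σ a, Idx (X.T a) (ℓ a))) h.gal (DPT.smk he hk)) hz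

theorem chi_pt (h : PTx Γ M) (he : DPT e) (hk : DPT k) (hz : DPT z) :
    DPT fun x => chi ψ (Γ (e x)) (k x) (z x) := dpt_finComp ψ (dot_pt h he hk hz)

theorem chib_pt (h : PTx Γ M) (he : DPT e) (hk : DPT k) (hz : DPT z) :
    DPT fun x => chib ψ (Γ (e x)) (k x) (z x) :=
  dpt_finComp (fun u => ψ (-u)) (dot_pt h he hk hz)

theorem phi_pt (h : PTx Γ M) (he : DPT e) (hk : DPT k) (b : Bool) (hz : DPT z) :
    DPT fun x => phi ψ (Γ (e x)) (k x) b (z x) := by
  cases b
  · exact DPT.sub ptRing_zc (chib_pt h he DPT.none hz) (chib_pt h he hk hz)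
  · exact chib_pt h he hk hz

theorem slot_pt (h : PTx Γ M) (he : DPT e) (d : ℕ) {p : ∀ x, Pt q (m (e x))} (hp : DPT p) :
    DPT fun x => slot (n (e x)) d (p x) :=
  fv_slot (h.hn.comp he) ((nb h).comp he) (DPT.const d) hp

end P2

variable {q r Cw c D : ℕ} [Fact q.Prime] [Fact r.Prime] {α : Type} [Enc α] {ℓ m n : α → ℕ}
  {X : TF α} {ψ : AddChar (ZMod q) (ZMod r)} {Γ : ∀ a, Geo q (m a) (n a) Cw (Idx (X.T a) (ℓ a))}
  {M : ∀ a, LBL c (ℓ a) D (X.T a)}

open P2 in
theorem pt2 (h : PTx Γ M) (h1 : PT1 Γ r c D) : PT2 ψ Γ M := by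
  refine ⟨chi_pt h DPT.id.sfst DPT.ssnd.fst DPT.ssnd.snd,
    chib_pt h DPT.id.sfst DPT.ssnd.fst DPT.ssnd.snd, fun ch => ?_⟩
  have hT := term_pt h.lbl ch
  have he : DPT fun x : Σ x : Σ a, Pt q (m a), Idx (X.T x.1) (ℓ x.1) => x.1.1 := DPT.id.sfst.sfst
  have hc : DPT fun x : Σ x : Σ a, Pt q (m a), Idx (X.T x.1) (ℓ x.1) =>
      (⟨x.1.1, x.2⟩ : Σ a, Idx (X.T a) (ℓ a)) := DPT.smk he DPT.ssnd
  have hp : DPT fun x : Σ x : Σ a, Pt q (m a), Idx (X.T x.1) (ℓ x.1) => x.1.2 :=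
    DPT.ssnd.comp DPT.id.sfst
  refine dpt_sum ptRing_zc (h1.eIdx.comp DPT.id.sfst) (sumC fun y => ?_)
  exact DPT.ite (DPr.eq ((hT.fn y).comp hc) (DPT.const true))
    (DPT.mul ptRing_zc (prodC fun d => phi_pt h he ((hT.rd d).comp hc) (y d) (slot_pt h he d hp))
      (chi_pt h he (hT.tg.comp hc) (slot_pt h he (D + 2) hp))) (DPT.const 0)

end Vale.Agent.P330.Bohr
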