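import Vale.Agent.P330.Bohr.Stm
import Vale.Agent.P330.Bohr.CompPT

/-!
P330, inner system: the rules are computed in polynomial time.
-/

namespace Vale.Agent.P330.Bohr

open Vale.Agent.Lib.PolyTime hiding C P
open Vale.Agent.Lib.Dep

variable {q r Cw c D : ℕ} [Fact q.Prime] [Fact r.Prime] {α : Type} [Enc α] {ℓ m n : α → ℕ}
  {X : TF α} {ψ : AddChar (ZMod q) (ZMod r)}
  {Γ : ∀ a, Geo q (m a) (n a) Cw (Idx (X.T a) (ℓ a))} {M : ∀ a, LBL c (ℓ a) D (X.T a)}

namespace P3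

variable {κ : Type} [Enc κ]

/-- any function of finitely many computed field elements -/
theorem comb {S B : Type} [Finite S] [Enc B] (G : (S → ZMod r) → B) {f : κ → S → ZMod r}
    (hf : ∀ s, DPT fun k => f k s) : DPT fun k => G (f k) :=
  ((FinSel.pi fun s => FinSel.of_dpt' (hf s)).map G).dpt

theorem csum {S : Type} [Fintype S] {f : κ → S → ZMod r} (hf : ∀ s, DPT fun k => f k s) :
    DPT fun k => ∑ s, f k s := comb (fun g => ∑ s, g s) hf

theorem cprod {S : Type} [Fintype S] {f : κ → S → ZMod r} (hf : ∀ s, DPT fun k => f k s) :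
    DPT fun k => ∏ s, f k s := comb (fun g => ∏ s, g s) hf

theorem cadd {f g : κ → ZMod r} (hf : DPT f) (hg : DPT g) : DPT fun k => f k + g k :=
  DPT.add ptRing_zc hf hg

theorem csub {f g : κ → ZMod r} (hf : DPT f) (hg : DPT g) : DPT fun k => f k - g k :=
  DPT.sub ptRing_zc hf hg

theorem cmul {f g : κ → ZMod r} (hf : DPT f) (hg : DPT g) : DPT fun k => f k * g k :=
  DPT.mul ptRing_zc hf hg

theorem pbd_n (h : PTx Γ M) : PBd n :=
  (((h.pw 2).mono fun _ => Nat.lt_two_pow_self.le).add (PBd.const 1)).mono fun a => by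
    rw [h.dim a]
    exact Nat.le_mul_of_pos_left _ (by omega)

variable {e : κ → α} {x : ∀ k, Pos q (m (e k)) c D ((D + 2) * n (e k)) r}
  {y : ∀ k, Yv c D ((D + 2) * n (e k)) r} {p : ∀ k, Pt q (m (e k))}
  {w : κ → RR q → ZMod r} {v : κ → RI q c D → ZMod r}

theorem d_Hc (h1 : PT1 Γ r c D) (he : DPT e) (hy : DPT y) (hv : ∀ i, DPT fun k => v k i)
    (i : CI c) : DPT fun k => Hc (y k) (v k) i :=
  cadd (DPT.comp (f := fun k => (⟨e k, y k⟩ : Σ a, Yv c D ((D + 2) * n a) r)) (h1.cv0 i)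
    (DPT.smk he hy)) (hv _)

theorem d_piD (h1 : PT1 Γ r c D) (he : DPT e) (hp : DPT p) (d : ℕ) :
    DPT fun k => piD (Γ (e k)) D d (p k) :=
  DPT.comp (f := fun k => (⟨e k, p k⟩ : Σ a, Pt q (m a))) (h1.piD d) (DPT.smk he hp)

theorem d_kap (h1 : PT1 Γ r c D) (h2 : PT2 ψ Γ M) (he : DPT e) (hp : DPT p) (ch : Ch c) :
    DPT fun k => kap ψ (Γ (e k)) (M (e k)) ch (sgI (Γ (e k)) D (p k)) :=
  DPT.comp (f := fun k => (⟨e k, sgI (Γ (e k)) D (p k)⟩ : Σ a, Pt q (m a))) (h2.kap ch)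
    (DPT.smk he (DPT.comp (f := fun k => (⟨e k, p k⟩ : Σ a, Pt q (m a))) h1.sgI (DPT.smk he hp)))

theorem d_chi (h : PTx Γ M) (h2 : PT2 ψ Γ M) (he : DPT e) (hp : DPT p)
    {i : ∀ k, Idx (X.T (e k)) (ℓ (e k))} (hi : DPT i) :
    DPT fun k => chi ψ (Γ (e k)) (i k) (slot (n (e k)) (D + 2) (p k)) :=
  DPT.comp (f := fun k => (⟨e k, i k, slot (n (e k)) (D + 2) (p k)⟩ :
    Σ a, Idx (X.T a) (ℓ a) × Zs q (n a))) h2.chi
    (DPT.smk he (hi.pair (fv_slot (h.hn.comp he) (pbd_comp (pbd_n h) he) (DPT.const _) hp)))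

theorem d_at (h1 : PT1 Γ r c D) (he : DPT e) (hy : DPT y)
    {i : ∀ k, Hx c D ((D + 2) * n (e k))} (hi : DPT i) : DPT fun k => y k (i k) :=
  dpt_vecAt (h1.eHx.comp he) hy hi

theorem d_cF (h1 : PT1 Γ r c D) (he : DPT e) (hy : DPT y) (b : Fin 2) (d : Fin (D + 2)) :
    DPT fun k => cF (y k) b d :=
  d_at h1 he hy (dpt_inl ((DPT.const b).pair (dpt_inr (DPT.const d))))

theorem d_cf0 (h1 : PT1 Γ r c D) (he : DPT e) (hy : DPT y) (b : Fin 2) (ch : Ch c) :
    DPT fun k => cf (y k) b ch 0 :=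
  (d_at h1 he hy (i := fun _ => .inl (b, .inl (ch, 0))) (dpt_inl ((DPT.const b).pair
    (dpt_inl ((DPT.const ch).pair (dpt_fin_of_val (DPT.const 0))))))).congr fun k => by
      rw [cf, dif_pos (Nat.succ_pos _)]
      rfl

theorem d_svv (h : PTx Γ M) (h1 : PT1 Γ r c D) (h2 : PT2 ψ Γ M) (he : DPT e) (hp : DPT p)
    (hv : ∀ i, DPT fun k => v k i) (d : Fin (D + 2)) (sr : Src c) :
    DPT fun k => svv ψ (Γ (e k)) (M (e k)) (p k) (v k) d sr := by
  rcases sr with _ | ⟨b, ch⟩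
  · exact cadd (cadd (d_chi h h2 he (d_piD h1 he hp d) DPT.none)
      (d_chi h h2 he (d_piD h1 he hp d) (DPT.some (dpt_inl (h.lbl.first.comp he)))))
      (csum fun j => hv _)
  · exact hv _

theorem d_tgt (h : PTx Γ M) (h2 : PT2 ψ Γ M) (he : DPT e) (hp : DPT p)
    (hv : ∀ i, DPT fun k => v k i) (ch : Ch c) :
    DPT fun k => tgt (D := D) ψ (Γ (e k)) (p k) (v k) ch := by
  rcases ch with i | ⟨b, j⟩
  · exact d_chi h h2 he hp DPT.none
  · exact hv _

theorem d_eqn (h : PTx Γ M) (h1 : PT1 Γ r c D) (h2 : PT2 ψ Γ M) (he : DPT e) (hx : DPT x)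
    (hv : ∀ i, DPT fun k => v k i) (md : Bool) (i : EI c D) :
    DPT fun k => eqn ψ (Γ (e k)) (M (e k)) md (x k) (v k) i := by
  have hH := d_Hc h1 he hx.snd hv
  cases i with
  | const => exact csub (hv _) (hv _)
  | mul => exact csub (cmul (hv _) (hv _)) (hv _)
  | alw => exact hH _
  | F b d => exact csub (hv _) (csum fun sr => cmul (hH _) (d_svv h h1 h2 he hx.fst hv d sr))
  | zinv b d => exact csub (hv _) (hv _)
  | rc b =>
    exact csub (csub (hv _) (cmul (DPT.const _) (csum fun _ => hv _)))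
      (cmul (csum fun ch => cmul (hH _) (d_kap h1 h2 he hx.fst ch)) (cprod fun _ => hv _))
  | chk b ch β =>
    refine cmul (hH _) (csub (hv _) ?_)
    cases β
    · exact DPT.const 0
    · exact d_tgt h h2 he hx.fst hv ch

theorem d_opv (h : PTx Γ M) (h1 : PT1 Γ r c D) (h2 : PT2 ψ Γ M) (he : DPT e) (hx : DPT x)
    (hv : ∀ i, DPT fun k => v k i) (b : Fin 2) (o : Op c) :
    DPT fun k => opv ψ (Γ (e k)) (M (e k)) (x k) (v k) b o := by
  have hs := d_svv h h1 h2 he hx.fst hv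
  match o with
  | .inl 0 => exact hv _
  | .inl 1 => exact DPT.const 0
  | .inl 2 => exact hv _
  | .inl 3 => exact cadd (hv _) (cmul (DPT.const _) (csum fun _ => hv _))
  | .inl 4 => exact hv _
  | .inr sr =>
    exact cadd (csum fun d => cmul (d_cF h1 he hx.snd b d) (hs d sr))
      (cmul (csum fun ch => cmul (d_cf0 h1 he hx.snd b ch) (d_kap h1 h2 he hx.fst ch))
        (cprod fun d => hs d sr))

theorem d_stepv (h : PTx Γ M) (h1 : PT1 Γ r c D) (h2 : PT2 ψ Γ M) (he : DPT e) (hx : DPT x)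
    (hv : ∀ i, DPT fun k => v k i) (dr : Bool) :
    DPT fun k => stepv ψ (Γ (e k)) (M (e k)) dr (x k) (v k) := by
  have hH := d_Hc h1 he hx.snd hv
  exact dpt_cases (c := fun k => flag dr (v k)) (f := fun fl k =>
    (∑ b, ∑ o, Hc (x k).2 (v k) (.op dr fl b o) * opv ψ (Γ (e k)) (M (e k)) (x k) (v k) b o) +
      Hc (x k).2 (v k) (.nx dr fl)) (comb (flag dr) hv) fun fl =>
    cadd (csum fun b => csum fun o => cmul (hH _) (d_opv h h1 h2 he hx hv b o)) (hH _)

theorem d_outv (h1 : PT1 Γ r c D) (he : DPT e) (hx : DPT x) (hv : ∀ i, DPT fun k => v k i) :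
    DPT fun k => outv (x k) (v k) :=
  cadd (hv _) (d_at h1 he hx.snd (dpt_inr ((DPT.const (4 : Fin 5)).pair
    (dpt_fin_of_val ((DPT.const 0).congr fun _ => (Nat.zero_min _).symm)))))

theorem d_tstF (h : PTx Γ M) (h1 : PT1 Γ r c D) (h2 : PT2 ψ Γ M) (he : DPT e) (hx : DPT x)
    (hw : ∀ i, DPT fun k => w k i) (hv : ∀ i, DPT fun k => v k i) (s : ℕ) (md : Bool) :
    DPT fun k => tstF ψ (Γ (e k)) (M (e k)) s md (x k) (w k) (v k) := by
  classical
  have h3 : DPr fun k => LineCode ψ s fun t => w k (.line t) :=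
    DPr.of_decide (comb (fun g : RR q → ZMod r => decide (LineCode ψ s fun t => g (.line t))) hw)
  exact DPT.decide ((DPr.eq (hw _) (cadd (hw _) (hw _))).and (h3.and
    (dpr_forall_const fun i => DPr.eq (d_eqn h h1 h2 he hx hv md i) (DPT.const 0))))

omit [Fact q.Prime] in
theorem d_noIn (hv : ∀ i, DPT fun k => v k i) (i : RI q c D) : DPT fun k => noIn (v k) i := by
  unfold noIn
  cases i.inp
  · exact hv i
  · exact DPT.const 0

/-- The base type of the functions of the rules. -/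
abbrev Bs (q r Cw c D : ℕ) [NeZero q] (m n : α → ℕ) : Type :=
  Σ a, (Pos q (m a) c D ((D + 2) * n a) r × Seed q (m a) (n a) Cw c D ((D + 2) * n a) r) ×
    (Fin (kk q c D) → ZMod r)

noncomputable instance instEncPS {m n N : ℕ} : Enc (Pos q m c D N r × Seed q m n Cw c D N r) :=
  @instEncProd _ _ inferInstance inferInstance

noncomputable instance instEncPSW {m n N : ℕ} :
    Enc ((Pos q m c D N r × Seed q m n Cw c D N r) × (Fin (kk q c D) → ZMod r)) :=
  @instEncProd _ _ instEncPS inferInstance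

theorem rule_mk (h1 : PT1 Γ r c D) {c' : ℕ} {B : Type} [Enc B] (sr : RI q c D → Option (Fin c'))
    {F : ∀ a, Pos q (m a) c D ((D + 2) * n a) r → (RR q → ZMod r) → (RI q c D → ZMod r) → B}
    (hF : ∀ {w : Bs q r Cw c D m n → RR q → ZMod r} {v : Bs q r Cw c D m n → RI q c D → ZMod r},
      (∀ i, DPT fun k => w k i) → (∀ i, DPT fun k => v k i) →
        DPT fun k : Bs q r Cw c D m n => F k.1 k.2.1.1 (w k) (v k)) :
    RulePT (A := fun _ => ZMod r) (B := fun _ => B)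
      fun a x s => mkRule (Γ a) sr (F a x) x s where
  rd j := (DPT.const _).pair (h1.rd ((rdE q c D).symm j))
  fn := by
    have h3 : ∀ j, DPT fun k : Bs q r Cw c D m n => k.2.2 j := dpt_piAt DPT.ssnd.snd
    exact hF (fun _ => h3 _) fun _ => csub (h3 _) (h3 _)

end P3

open P3

theorem pt3 (h : PTx Γ M) (h1 : PT1 Γ r c D) (h2 : PT2 ψ Γ M) : PT3 ψ Γ M := by
  have he : DPT fun k : Bs q r Cw c D m n => k.1 := DPT.id.sfst
  have hx : DPT fun k : Bs q r Cw c D m n => k.2.1.1 := DPT.ssnd.fst.fst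
  have hc : ∀ s, RulePT (A := fun _ => ZMod r) (B := fun _ => ZMod r)
      fun a => corR ψ (Γ a) c D s := fun s =>
    rule_mk h1 _ (F := fun _ _ w _ => dec0 ψ s fun t => w (.cor t true) - w (.cor t false))
      fun hw _ => comb (fun w : RR q → ZMod r =>
        dec0 ψ s fun t => w (.cor t true) - w (.cor t false)) hw
  refine ⟨fun s => ⟨⟨?_, hc s⟩, ?_, ?_, ?_, DPT.const 0⟩, fun s => ⟨?_, hc s⟩⟩
  · exact rule_mk h1 _ (F := fun a x => tstF ψ (Γ a) (M a) s false x)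
      fun hw hv => d_tstF h h1 h2 he hx hw hv s false
  · exact rule_mk h1 _ (F := fun a x _ v => stepv ψ (Γ a) (M a) true x v)
      fun _ hv => d_stepv h h1 h2 he hx hv true
  · exact rule_mk h1 _ (F := fun a x _ v => stepv ψ (Γ a) (M a) false x v)
      fun _ hv => d_stepv h h1 h2 he hx hv false
  · exact rule_mk h1 _ (F := fun _ x _ v => outv x v) fun _ hv => d_outv h1 he hx hv
  · exact rule_mk h1 (fun _ => none)
      (F := fun a x w v => tstF ψ (Γ a) (M a) s true x w (noIn v))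
      fun hw hv => d_tstF h h1 h2 he hx hw (d_noIn hv) s true

end Vale.Agent.P330.Bohr
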