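import Vale.Agent.P330.Bohr.PT2

/-!
P330, inner system: the words of the symbols and the decoders in polynomial time.
-/

namespace Vale.Agent.P330.Bohr

open Finset
open Vale.Agent.Lib.PolyTime hiding C P
open Vale.Agent.Lib.Dep

variable {q r Cw c D : ℕ} [Fact q.Prime] [Fact r.Prime] {α : Type} [Enc α] {ℓ m n : α → ℕ}
  {X : TF α} {ψ : AddChar (ZMod q) (ZMod r)} {Γ : ∀ a, Geo q (m a) (n a) Cw (Idx (X.T a) (ℓ a))}
  {M : ∀ a, LBL c (ℓ a) D (X.T a)}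

namespace P4

open P2

variable {κ : Type} [Enc κ] {e : κ → α} {x : ∀ y, Idx (X.T (e y)) (ℓ (e y)) → ZMod r}
  {p : ∀ y, Pt q (m (e y))}

theorem encv_pt (h : PTx Γ M) (h1 : PT1 Γ r c D) (he : DPT e)
    (hx : DPT fun w : Σ y, Idx (X.T (e y)) (ℓ (e y)) => x w.1 w.2) {z : ∀ y, Zs q (n (e y))}
    (hz : DPT z) : DPT fun y => encv ψ (Γ (e y)) (x y) (z y) :=
  dpt_sum ptRing_zc (h1.eIdx.comp he) (DPT.mul ptRing_zc hx
    (chi_pt h (he.comp DPT.id.sfst) DPT.ssnd (hz.comp DPT.id.sfst)))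

theorem sgI_pt (h1 : PT1 Γ r c D) (he : DPT e) (hp : DPT p) :
    DPT fun y => sgI (Γ (e y)) D (p y) :=
  DPT.comp (f := fun y => (⟨e y, p y⟩ : Σ a, Pt q (m a))) h1.sgI (DPT.smk he hp)

theorem facs_pt (h : PTx Γ M) (h1 : PT1 Γ r c D) (he : DPT e)
    (hx : DPT fun w : Σ y, Idx (X.T (e y)) (ℓ (e y)) => x w.1 w.2) (d : Fin (D + 2)) (hp : DPT p) :
    DPT fun y => facs ψ (Γ (e y)) D (x y) d (p y) :=
  encv_pt h h1 he hx (slot_pt h he d (sgI_pt h1 he hp))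

theorem topF_pt (h : PTx Γ M) (h1 : PT1 Γ r c D) (h2 : PT2 ψ Γ M) (he : DPT e)
    (hx : DPT fun w : Σ y, Idx (X.T (e y)) (ℓ (e y)) => x w.1 w.2) (ch : Ch c) (hp : DPT p) :
    DPT fun y => topF ψ (Γ (e y)) (M (e y)) (facs ψ (Γ (e y)) D (x y)) ch (p y) :=
  DPT.mul ptRing_zc
    (DPT.comp (f := fun y => (⟨e y, sgI (Γ (e y)) D (p y)⟩ : Σ a, Pt q (m a))) (h2.kap ch)
      (DPT.smk he (sgI_pt h1 he hp)))
    (prodC fun d => facs_pt h h1 he hx d hp)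

/-- The average as a map of tables. -/
theorem aop_pt (h1 : PT1 Γ r c D) (he : DPT e) {f : ∀ y, Vec (Pt q (m (e y))) (ZMod r)}
    (hf : DPT f) : DPT fun y => Vec.of (Aop (Γ (e y)) D (f y)) :=
  dpt_vecMk (h1.ePt.comp he) (DPT.mul ptRing_zc (DPT.const _) (sumC fun t =>
    dpt_vecAt (V := fun w : Σ y, Pt q (m (e y)) => Pt q (m (e w.1))) (f := fun w => f w.1)
      (h1.ePt.comp (he.comp DPT.id.sfst)) (hf.comp DPT.id.sfst)
      (DPT.comp (f := fun w : Σ y, Pt q (m (e y)) => (⟨e w.1, w.2⟩ : Σ a, Pt q (m a)))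
        (h1.avP t) (DPT.smk (he.comp DPT.id.sfst) DPT.ssnd))))

theorem aop_iter_pt (h1 : PT1 Γ r c D) (he : DPT e) {f : ∀ y, Pt q (m (e y)) → ZMod r}
    (hf : DPT fun w : Σ y, Pt q (m (e y)) => f w.1 w.2) {j : κ → ℕ} (hj : DPT j) (hb : PBd j)
    (hp : DPT p) : DPT fun y => (Aop (Γ (e y)) D)^[j y] (f y) (p y) :=
  dpt_vecAt (h1.ePt.comp he)
    (dpt_iterate_bdd (T := fun y => Vec (Pt q (m (e y))) (ZMod r))
      (f := fun y g => Vec.of (Aop (Γ (e y)) D g)) (s := fun y => Vec.of (f y))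
      (exists_esize_vec_le (h1.ePt.comp he) (exists_esize_le (DPT.const (elems (ZMod r))))) hj hb
      (dpt_vecMk (h1.ePt.comp he) hf) (aop_pt h1 (he.comp DPT.id.sfst) DPT.ssnd)) hp

theorem tab_pt (h : PTx Γ M) (h1 : PT1 Γ r c D) (h2 : PT2 ψ Γ M) (he : DPT e)
    (hx : DPT fun w : Σ y, Idx (X.T (e y)) (ℓ (e y)) => x w.1 w.2) {j : κ → ℕ} (hj : DPT j)
    (hb : PBd j) (hp : DPT p) {i : ∀ y, TI c D ((D + 2) * n (e y))} (hi : DPT i) :
    DPT fun y => Tab ψ (Γ (e y)) (M (e y)) (x y) (j y) (p y) (i y) := by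
  refine DPT.app (F := fun y i => Tab ψ (Γ (e y)) (M (e y)) (x y) (j y) (p y) i) ?_ hi
  refine dpt_sumCases (F := fun y i => Tab ψ (Γ (e y)) (M (e y)) (x y) (j y) (p y) i) ?_ ?_
  · have hl : DPT fun w : Σ y, Ch c × Fin ((D + 2) * n (e y) + 1) => (w.2.2 : ℕ) :=
      dpt_finVal DPT.ssnd.snd
    have hj' : DPT fun w : Σ y, Ch c × Fin ((D + 2) * n (e y) + 1) => j w.1 := hj.comp DPT.id.sfst
    refine DPT.ite (DPr.lt hl hj') ?_ (DPT.const 0)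
    refine dpt_cases (c := fun w : Σ y, Ch c × Fin ((D + 2) * n (e y) + 1) => w.2.1)
      (f := fun ch w => (Aop (Γ (e w.1)) D)^[j w.1 - 1 - w.2.2]
        (topF ψ (Γ (e w.1)) (M (e w.1)) (facs ψ (Γ (e w.1)) D (x w.1)) ch) (p w.1))
      DPT.ssnd.fst fun ch => ?_
    refine aop_iter_pt h1 (he.comp DPT.id.sfst) ?_ ((hj'.natSub (DPT.const 1)).natSub hl)
      ((hb.comp DPT.id.sfst).mono fun w => by omega) (hp.comp DPT.id.sfst)
    refine topF_pt h h1 h2 (he.comp DPT.id.sfst.sfst) ?_ ch DPT.ssnd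
    exact DPT.comp (f := fun u : Σ v : Σ w : Σ y, Ch c × Fin ((D + 2) * n (e y) + 1),
        Pt q (m (e w.1)), Idx (X.T (e v.1.1)) (ℓ (e v.1.1)) =>
      (⟨u.1.1.1, u.2⟩ : Σ y, Idx (X.T (e y)) (ℓ (e y)))) hx (DPT.smk DPT.id.sfst.sfst.sfst DPT.ssnd)
  · have h3 : DPT fun y (d : Fin (D + 2)) => facs ψ (Γ (e y)) D (x y) d (p y) :=
      dpt_piMk fun d => facs_pt h h1 he hx d hp
    have h4 : DPT fun w : Σ _ : κ, Fin (D + 2) => w.1 := DPT.id.sfst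
    have h5 := dpt_piApp (h3.comp h4) (s := fun w => w.2) DPT.ssnd
    exact DPT.ite (DPr.eq (hj.comp h4) (DPT.const 0)) (DPT.const 0) h5

theorem hatS_pt (h : PTx Γ M) (he : DPT e) {σ : ∀ y, Sym (ℓ (e y))} (hσ : DPT σ) :
    DPT fun w : Σ y, Idx (X.T (e y)) (ℓ (e y)) => (hatS (σ w.1) w.2 : ZMod r) :=
  dpt_optCases (F := fun y k => (hatS (σ y) k : ZMod r)) (DPT.const 1)
    (dpt_sumCases (F := fun y k => (hatS (σ y) (some k) : ZMod r)) (DPT.const 0)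
      (dpt_finComp bK (dpt_vecEnt (dpt_elems_fin (h.l.comp he) (h.lb.comp he)) hσ)))

theorem gSym_pt (h : PTx Γ M) (h1 : PT1 Γ r c D) (h2 : PT2 ψ Γ M) (he : DPT e)
    {σ : ∀ y, Sym (ℓ (e y))} (hσ : DPT σ) (hp : DPT p) :
    DPT fun w : Σ y, Hx c D ((D + 2) * n (e y)) =>
      gSym ψ (Γ (e w.1)) (M (e w.1)) (σ w.1) (p w.1) w.2 := by
  refine dpt_sumCases (F := fun y i => gSym ψ (Γ (e y)) (M (e y)) (σ y) (p y) i) ?_ ?_
  · have he' : DPT fun w : Σ y, Fin 2 × TI c D ((D + 2) * n (e y)) => e w.1 := he.comp DPT.id.sfst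
    have hN : DPT fun w : Σ y, Fin 2 × TI c D ((D + 2) * n (e y)) => (D + 2) * n (e w.1) + 1 :=
      ((DPT.const (D + 2)).natMul (h.hn.comp he')).natAdd (DPT.const 1)
    have hB : PBd fun w : Σ y, Fin 2 × TI c D ((D + 2) * n (e y)) => (D + 2) * n (e w.1) + 1 :=
      ((PBd.const (D + 2)).mul ((nb h).comp he')).add (PBd.const 1)
    exact tab_pt (j := fun w => if w.2.1 = 0 then 0 else (D + 2) * n (e w.1) + 1) h h1 h2 he'
      (hatS_pt h he' (hσ.comp DPT.id.sfst))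
      (DPT.ite (DPr.eq DPT.ssnd.fst (DPT.const 0)) (DPT.const 0) hN)
      (hB.mono fun w => by split_ifs <;> omega) (hp.comp DPT.id.sfst) DPT.ssnd.snd
  · have h3 : DPT fun w : Σ y, Ck ((D + 2) * n (e y)) => mkCk ((D + 2) * n (e w.1)) 4 0 :=
      (DPT.const (4 : Fin 5)).pair (dpt_fin_of_val ((DPT.const 0).congr fun _ => by simp))
    exact DPT.ite (DPr.eq h3.some DPT.ssnd.some) (DPT.const 1) (DPT.const 0)

variable {W : ∀ y, Vec (Pos q (m (e y)) c D ((D + 2) * n (e y)) r) (ZMod r)}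

theorem spec_pt (h : PTx Γ M) (h1 : PT1 Γ r c D) (he : DPT e) (hW : DPT W) (b : Fin 2)
    {k : ∀ y, Idx (X.T (e y)) (ℓ (e y))} (hk : DPT k) :
    DPT fun y => spec ψ (Γ (e y)) (W y) b (k y) := by
  have he' : DPT fun w : Σ y, Zs q (n (e y)) => e w.1 := he.comp DPT.id.sfst
  have hu : DPT fun y => (unitV (hV b (.inl 0)) : Yv c D ((D + 2) * n (e y)) r) := by
    have h3 : DPT fun y => (hV b (.inl 0) : Hx c D ((D + 2) * n (e y))) :=
      dpt_inl ((DPT.const b).pair (dpt_inl ((DPT.const (.inl 0 : Ch c)).pair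
        (dpt_fin_of_val (DPT.const 0)))))
    exact dpt_vecMk (h1.eHx.comp he)
      (DPT.ite (DPr.eq DPT.ssnd (h3.comp DPT.id.sfst)) (DPT.const 1) (DPT.const 0))
  refine DPT.mul ptRing_zc (dpt_finComp (fun u : ZMod r => u⁻¹)
    (DPT.pow ptRing_zc ((nb h).comp he) (DPT.const _) (h.hn.comp he))) ?_
  refine dpt_sum ptRing_zc (h1.eZs.comp he) (DPT.mul ptRing_zc ?_
    (chib_pt h he' (hk.comp DPT.id.sfst) DPT.ssnd))
  exact dpt_vecAt (f := fun w : Σ y, Zs q (n (e y)) => W w.1) (h1.ePos.comp he')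
    (hW.comp DPT.id.sfst)
    ((fv_inSlot (h.hm.comp he') ((mb h).comp he') (DPT.const _) DPT.ssnd).pair
      (hu.comp DPT.id.sfst))

theorem bank_pt (h : PTx Γ M) (h1 : PT1 Γ r c D) (he : DPT e) (hW : DPT W) :
    DPT fun y => W y (0, ckY fun τ => if τ.1 = 2 then 1 else 0) := by
  refine dpt_vecAt (h1.ePos.comp he) hW (DPT.pair (fv_zero ((h.hm.comp he).natAdd (DPT.const 1))
    (((mb h).comp he).add (PBd.const 1))) (dpt_vecMk (h1.eHx.comp he) ?_))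
  refine dpt_sumCases (F := fun y i =>
    (ckY (fun τ => if τ.1 = 2 then 1 else 0) : Yv c D ((D + 2) * n (e y)) r) i) ?_ ?_
  · exact (DPT.const (0 : ZMod r)).congr fun ⟨_, _, i⟩ => by
      rcases i with ⟨ch, l⟩ | d <;> simp [ckY, mkY]
  · exact DPT.ite (DPr.eq DPT.ssnd.fst (DPT.const 2)) (DPT.const 1) (DPT.const 0)

end P4

open P4 in
theorem pt4 (h : PTx Γ M) (h1 : PT1 Γ r c D) (h2 : PT2 ψ Γ M) : PT4 ψ Γ M := by
  refine ⟨?_, ?_, ?_⟩
  · have he : DPT fun x : Σ a, Sym (ℓ a) × Pos q (m a) c D ((D + 2) * n a) r => x.1 := DPT.id.sfst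
    have hs : DPT fun x : Σ a, Sym (ℓ a) × Pos q (m a) c D ((D + 2) * n a) r => x.2 := DPT.ssnd
    have h3 := dpt_vecEnt (h1.eHx.comp he) hs.snd.snd
    have h4 := gSym_pt h h1 h2 he hs.fst hs.snd.fst
    exact dpt_sum ptRing_zc (h1.eHx.comp he) (DPT.mul ptRing_zc h3 h4)
  · have he : DPT fun w : Σ x : Σ a, Vec (Pos q (m a) c D ((D + 2) * n a) r) (ZMod r), X.T x.1 =>
      w.1.1 := DPT.id.sfst.sfst
    have hW : DPT fun w : Σ x : Σ a, Vec (Pos q (m a) c D ((D + 2) * n a) r) (ZMod r), X.T x.1 =>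
      w.1.2 := DPT.ssnd.comp DPT.id.sfst
    have h3 := dpt_piMk fun b => spec_pt (ψ := ψ) h h1 he hW b (k := fun w => some (.inl w.2))
      (dpt_inl DPT.ssnd).some
    have h4 := dpt_piApp h3
      (DPT.ite (DPr.eq (bank_pt h h1 he hW) (DPT.const 1)) (DPT.const (1 : Fin 2)) (DPT.const 0))
    exact dpt_vecMk (X.pt.comp DPT.id.sfst) (DPT.decide (DPr.eq h4 (DPT.const 1)))
  · have he : DPT fun w : Σ x : Σ a, Vec (Pos q (m a) c D ((D + 2) * n a) r) (ZMod r),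
      Fin (ℓ x.1) => w.1.1 := DPT.id.sfst.sfst
    have hW : DPT fun w : Σ x : Σ a, Vec (Pos q (m a) c D ((D + 2) * n a) r) (ZMod r),
      Fin (ℓ x.1) => w.1.2 := DPT.ssnd.comp DPT.id.sfst
    have h3 := spec_pt (ψ := ψ) h h1 he hW 1 (k := fun w => some (.inr w.2))
      (dpt_inr DPT.ssnd).some
    exact dpt_vecMk (dpt_elems_fin (h.l.comp DPT.id.sfst) (h.lb.comp DPT.id.sfst))
      (DPT.decide (DPr.eq h3 (DPT.const 1)))

end Vale.Agent.P330.Bohr
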