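import Vale.Agent.P330.Bohr.Stm

/-!
P330, inner system: from approximate equations to the exact clock, invariance and recurrence.
-/

namespace Vale.Agent.P330.Bohr

open Finset

namespace S0

section General

/-- A subset of density above one half which is closed under addition is everything. -/
theorem dense_all {A : Type} [AddCommGroup A] [Fintype A] {S : A → Prop}
    (hadd : ∀ a b, S a → S b → S (a + b)) (h : frac (fun a => ¬ S a) < 1 / 2) (a : A) : S a := by
  have h1 : frac (fun b => ¬ S (a - b)) = frac fun a => ¬ S a :=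
    frac_equiv (Equiv.subLeft a) fun a => ¬ S a
  obtain ⟨b, hb, hb'⟩ := exists_not_and_not (p := fun b => ¬ S b) (q := fun b => ¬ S (a - b))
    (by linarith)
  simpa using hadd _ _ (not_not.1 hb') (not_not.1 hb)

theorem sum_unitV {H H' K : Type} [Fintype H'] [DecidableEq H] [CommRing K] {ι : H' → H}
    (hι : Function.Injective ι) (v : H' → K) (h : H') :
    ∑ h', (unitV (ι h) : Vec H K) (ι h') * v h' = v h := by
  classical
  rw [Finset.sum_eq_single h]
  · simp [unitV]
  · intro h' _ hne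
    have : ι h' ≠ ι h := fun e => hne (hι e)
    simp [unitV, this]
  · simp

/-- A linear form which vanishes on more than one half is zero. -/
theorem lin_dense {H H' K : Type} [Fintype H] [Fintype H'] [DecidableEq H] [CommRing K]
    [Fintype K] {ι : H' → H} (hι : Function.Injective ι) {v : H' → K}
    (h : frac (fun y : Vec H K => ∑ h', y (ι h') * v h' ≠ 0) < 1 / 2) : v = 0 := by
  funext k
  have := dense_all (S := fun y : Vec H K => ∑ h', y (ι h') * v h' = 0)
    (fun a b ha hb => by simp only [vadd_ap, add_mul, sum_add_distrib, ha, hb, add_zero]) h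
    (unitV (ι k))
  rwa [sum_unitV hι] at this

theorem vec_frac {G H H' K : Type} [Fintype G] [Fintype H] [Fintype H'] [DecidableEq H]
    [CommRing K] [Fintype K] {ι : H' → H} (hι : Function.Injective ι) (R : G → H' → K) :
    frac (fun p => R p ≠ 0) ≤
      2 * frac fun x : G × Vec H K => ∑ h', x.2 (ι h') * R x.1 h' ≠ 0 := by
  have h := frac_rows_le (fun x : G × Vec H K => ∑ h', x.2 (ι h') * R x.1 h' ≠ 0)
    (t := 1 / 2) (by norm_num)
  refine ((frac_mono fun p hp => ?_).trans h).trans (le_of_eq (by ring))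
  exact not_lt.1 fun hlt => hp (lin_dense hι hlt)

variable {G Y J Z : Type} [Fintype G] [Fintype Y] [Fintype J] [Fintype Z] [Nonempty G]
  [Nonempty Y] [Nonempty J] [Nonempty Z]

omit [Nonempty G] in
theorem marg1 (p : G × G × Y → Prop) :
    frac (fun x : (G × Y) × J × Y × Y × G × Z => p (x.2.2.2.2.1, x.1)) = frac p := by
  let e : (G × Y) × J × Y × Y × G × Z ≃ (G × G × Y) × J × Y × Y × Z :=
    ⟨fun x => ((x.2.2.2.2.1, x.1), x.2.1, x.2.2.1, x.2.2.2.1, x.2.2.2.2.2),
      fun y => (y.1.2, y.2.1, y.2.2.1, y.2.2.2.1, y.1.1, y.2.2.2.2), fun _ => rfl, fun _ => rfl⟩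
  exact (frac_equiv e fun y => p y.1).trans (frac_fst p)

theorem marg2 (p : Y × Y → Prop) :
    frac (fun x : (G × Y) × J × Y × Y × G × Z => p (x.2.2.2.1, x.1.2)) = frac p := by
  let e : (G × Y) × J × Y × Y × G × Z ≃ (Y × Y) × G × J × Y × G × Z :=
    ⟨fun x => ((x.2.2.2.1, x.1.2), x.1.1, x.2.1, x.2.2.1, x.2.2.2.2),
      fun y => ((y.2.1, y.1.2), y.2.2.1, y.2.2.2.1, y.1.1, y.2.2.2.2), fun _ => rfl, fun _ => rfl⟩
  exact (frac_equiv e fun y => p y.1).trans (frac_fst p)

omit [Nonempty Z] in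
theorem marg3 (p : Z × G → Prop) :
    frac (fun x : (G × Y) × J × Y × Y × G × Z => p (x.2.2.2.2.2, x.1.1)) = frac p := by
  let e : (G × Y) × J × Y × Y × G × Z ≃ (Z × G) × Y × J × Y × Y × G :=
    ⟨fun x => ((x.2.2.2.2.2, x.1.1), x.1.2, x.2.1, x.2.2.1, x.2.2.2.1, x.2.2.2.2.1),
      fun y => ((y.1.2, y.2.1), y.2.2.1, y.2.2.2.1, y.2.2.2.2.1, y.2.2.2.2.2, y.1.1),
      fun _ => rfl, fun _ => rfl⟩
  exact (frac_equiv e fun y => p y.1).trans (frac_fst p)

end General

section Words

variable {G : Type} {c D N r : ℕ} [Fact r.Prime]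

theorem word_mkY (g : G → Hx c D N → ZMod r) (p : G) (b : Fin 2) (f : Ch c → ℕ → ZMod r)
    (k : Ck N → ZMod r) : word g (p, mkY b f (fun _ => 0) k) =
      (∑ i : Ch c × Fin (N + 1), f i.1 i.2 * g p (.inl (b, .inl i))) +
        ∑ τ, k τ * g p (.inr τ) := by
  simp only [word, Fintype.sum_sum_type, Fintype.sum_prod_type (α₁ := Fin 2), mkY, ite_self,
    zero_mul, sum_const_zero, add_zero, ite_mul]
  congr 1
  rw [Finset.sum_eq_single b]
  · simp
  · intro b' _ hb
    simp [hb]
  · simp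

theorem word_ckY (g : G → Hx c D N → ZMod r) (p : G) (k : Ck N → ZMod r) :
    word g (p, ckY k) = ∑ τ, k τ * g p (.inr τ) := by
  simp [ckY, word_mkY]

theorem word_unitV (g : G → Hx c D N → ZMod r) (p : G) (i : Hx c D N) :
    word g (p, unitV i) = g p i :=
  sum_unitV (ι := id) Function.injective_id (g p) i

theorem sum_cDn (y : Yv c D N r) (b : Fin 2) (ch : Ch c) (u : ℕ → ZMod r) (hu : u (N + 1) = 0) :
    ∑ l : Fin (N + 1), cDn y b ch l * u l =
      ∑ l : Fin (N + 1), y (.inl (b, .inl (ch, l))) * u (l + 1) := by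
  have h1 : ∑ l : Fin (N + 1), y (.inl (b, .inl (ch, l))) * u (l + 1) =
      ∑ l : Fin (N + 1), cf y b ch l * u (l + 1) :=
    sum_congr rfl fun l _ => by simp [cf, l.2]
  rw [h1, Fin.sum_univ_eq_sum_range (fun l => cDn y b ch l * u l),
    Fin.sum_univ_eq_sum_range (fun l => cf y b ch l * u (l + 1)), sum_range_succ',
    sum_range_succ, hu]
  simp [cDn]

theorem cDn_eq (y : Yv c D N r) (b : Fin 2) (ch : Ch c) (j : ℕ) (u : ZMod r) :
    cDn y b ch j * u =
      ∑ l : Fin (N + 1), y (.inl (b, .inl (ch, l))) * if (l : ℕ) + 1 = j then u else 0 := by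
  rcases j with _ | j
  · simp [cDn]
  · by_cases h : j < N + 1
    · rw [Finset.sum_eq_single ⟨j, h⟩]
      · simp [cDn, cf, h]
      · intro l _ hl
        have : (l : ℕ) ≠ j := fun e => hl (Fin.ext e)
        simp [this]
      · simp
    · rw [Finset.sum_eq_zero]
      · simp [cDn, cf, h]
      · intro l _
        have : (l : ℕ) ≠ j := fun e => h (e ▸ l.2)
        simp [this]

/-- An idempotent clock vector is the indicator of one value or zero. -/
theorem clock_shape {T K : Type} [DecidableEq T] [Field K] (k : T → K)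
    (h : ∀ a b, k a * k b = if a = b then k a else 0) :
    ∃ τ : Option T, ∀ a, k a = if τ = some a then 1 else 0 := by
  by_cases h0 : ∃ a, k a ≠ 0
  · obtain ⟨a, ha⟩ := h0
    refine ⟨some a, fun b => ?_⟩
    by_cases hab : a = b
    · subst hab
      have := h a a
      rw [if_pos rfl] at this
      simpa using mul_left_cancel₀ ha (this.trans (mul_one _).symm)
    · have := h a b
      rw [if_neg hab] at this
      simpa [hab] using (mul_eq_zero.1 this).resolve_left ha
  · push Not at h0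
    exact ⟨none, fun a => by simp [h0]⟩

end Words

section Inst

variable {q r m n Cw c ℓ D : ℕ} {X : Type} [Fact q.Prime] [Fact r.Prime] [Fintype X]
  [DecidableEq X] {ψ : AddChar (ZMod q) (ZMod r)} {Γ : Geo q m n Cw (Idx X ℓ)} {M : LBL c ℓ D X}
  {s : ℕ} {lam : ℝ}

omit [DecidableEq X] [Fintype X] in
theorem dist0 (hD : DistStmt) (hC : Cx ψ Γ M s lam) {E : Type} [AddCommGroup E]
    [Module (ZMod r) E] {J' : Fin Cw × Fin (m + 1) → Prop} (hJ : frac (fun j => ¬ J' j) ≤ 1 / 10)
    {f : Pt q m → E} (hf : ∀ j, J' j → InCode ψ (s2 D s) (Γ.dir (D + 2) j) f)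
    (h : frac (fun p => f p ≠ 0) ≤ 2 / 5) : f = 0 := by
  have : Nonempty (Fin Cw) := ⟨⟨0, hC.cw⟩⟩
  exact hD q (ZMod r) ψ hC.hψ E (Pt q m) _ (Γ.dir (D + 2))
    (fun a ha => (hC.geo.woz a ha).trans hC.lam_le) _ hC.deg J' hJ f hf h

theorem s1_le (D s : ℕ) : s1 D s ≤ s2 D s := by
  unfold s2
  nlinarith [Nat.zero_le (s1 D s), Nat.zero_le s]

variable {md : Bool} {ι : Fin c → Pt q m → ZMod r} {g : Pt q m → Hx c D ((D + 2) * n) → ZMod r}
  {J' : Fin Cw × Fin (m + 1) → Prop}

omit [DecidableEq X] in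
/-- The clock part does not depend on the point. -/
theorem clock_const (hD : DistStmt) (hC : Cx ψ Γ M s lam) (hJ : frac (fun j => ¬ J' j) ≤ 1 / 10)
    (hg : ∀ j, J' j → InCode ψ (s1 D s) (Γ.dir (D + 2) j) g)
    (h : frac (fun x : Pos q m c D ((D + 2) * n) r × Seed q m n Cw c D ((D + 2) * n) r =>
      eqn ψ Γ M md x.1 (iv Γ g ι x.1 x.2) .const ≠ 0) ≤ 1 / 100) (p : Pt q m)
    (τ : Ck ((D + 2) * n)) : g p (.inr τ) = g 0 (.inr τ) := by
  have : Nonempty (Fin Cw) := ⟨⟨0, hC.cw⟩⟩
  let E : Pt q m × Pt q m × Yv c D ((D + 2) * n) r → Prop := fun x =>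
    ∑ τ, x.2.2 (.inr τ) * (g x.2.1 (.inr τ) - g (x.2.1 + x.1) (.inr τ)) ≠ 0
  have h1 : frac E ≤ 1 / 100 := by
    rw [← marg1 (J := Fin Cw × Fin (m + 1)) (Z := Zs q n) E]
    refine le_trans (le_of_eq (frac_congr fun x => ?_)) h
    simp only [E, eqn, iv, RI.inp, Option.elim, pt, co, lv, word_ckY, mul_sub, sum_sub_distrib]
  have h2 := frac_rows_le E (t := 1 / 10) (by norm_num)
  have h3 := dense_all (S := fun δ : Pt q m => ∀ p τ, g (p + δ) (.inr τ) = g p (.inr τ))
    (fun a b ha hb p τ => by rw [← add_assoc, hb, ha])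
    (lt_of_le_of_lt ((frac_mono fun δ hδ => ?_).trans h2) (by linarith))
  · simpa using h3 p 0 τ
  refine not_lt.1 fun hlt => hδ fun p τ => ?_
  have h4 := vec_frac (H := Hx c D ((D + 2) * n)) Sum.inr_injective
    fun (p : Pt q m) (τ : Ck ((D + 2) * n)) => g p (.inr τ) - g (p + δ) (.inr τ)
  have h5 := dist0 hD hC hJ
    (f := fun (p : Pt q m) (τ : Ck ((D + 2) * n)) => g p (.inr τ) - g (p + δ) (.inr τ))
    (fun j hj => InCode.pi fun τ => (((hg j hj).apply (.inr τ)).sub
      (((hg j hj).apply (.inr τ)).shift δ)).mono (s1_le D s))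
    (h4.trans (by change 2 * frac (fun y => E (δ, y)) ≤ _; linarith))
  exact (sub_eq_zero.1 (congrFun (congrFun h5 p) τ)).symm

omit [DecidableEq X] in
/-- The constant clock part is idempotent. -/
theorem clock_mul (hC : Cx ψ Γ M s lam) {k : Ck ((D + 2) * n) → ZMod r}
    (hk : ∀ p τ, g p (.inr τ) = k τ)
    (h : frac (fun x : Pos q m c D ((D + 2) * n) r × Seed q m n Cw c D ((D + 2) * n) r =>
      eqn ψ Γ M md x.1 (iv Γ g ι x.1 x.2) .mul ≠ 0) ≤ 1 / 100) (a b : Ck ((D + 2) * n)) :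
    k a * k b = if a = b then k a else 0 := by
  have : Nonempty (Fin Cw) := ⟨⟨0, hC.cw⟩⟩
  let R : Yv c D ((D + 2) * n) r → Ck ((D + 2) * n) → ZMod r := fun y a =>
    k a * (∑ τ, y (.inr τ) * k τ) - y (.inr a) * k a
  have h1 : frac (fun x : Yv c D ((D + 2) * n) r × Yv c D ((D + 2) * n) r =>
      ∑ a, x.2 (.inr a) * R x.1 a ≠ 0) ≤ 1 / 100 := by
    rw [← marg2 (G := Pt q m) (J := Fin Cw × Fin (m + 1)) (Z := Zs q n)]
    refine le_trans (le_of_eq (frac_congr fun x => ?_)) h
    simp only [R, eqn, iv, RI.inp, Option.elim, pt, co, lv, word_ckY, mul_sub, sum_sub_distrib, hk,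
      ← mul_assoc, ← sum_mul]
  have h2 := vec_frac (H := Hx c D ((D + 2) * n)) Sum.inr_injective R
  have h3 := dense_all (S := fun y => R y = 0)
    (fun y y' hy hy' => funext fun a => by
      have e1 := congrFun hy a
      have e2 := congrFun hy' a
      simp only [R, vadd_ap, add_mul, sum_add_distrib, Pi.zero_apply] at e1 e2 ⊢
      linear_combination e1 + e2)
    (by linarith) (unitV (.inr b))
  have h4 := congrFun h3 a
  simp only [R, Pi.zero_apply] at h4
  rw [sum_unitV Sum.inr_injective] at h4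
  by_cases hab : a = b
  · subst hab
    simpa [unitV, sub_eq_zero] using h4
  · simpa [unitV, hab] using h4

omit [DecidableEq X] [Fintype X] [Fact q.Prime] in
theorem Hc_eq {τ : Option (Ck ((D + 2) * n))}
    (hk : ∀ p τ', g p (.inr τ') = if τ = some τ' then 1 else 0)
    (x : Pos q m c D ((D + 2) * n) r) (sd : Seed q m n Cw c D ((D + 2) * n) r) (i : CI c) :
    Hc x.2 (iv Γ g ι x sd) i = cv x.2 i τ := by
  simp only [Hc, iv, RI.inp, Option.elim, pt, co, word_ckY, hk]
  cases τ with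
  | none => simp
  | some a => simp

omit [DecidableEq X] in
/-- The factors do not depend on the last slot. -/
theorem z_inv (hD : DistStmt) (hC : Cx ψ Γ M s lam) (hJ : frac (fun j => ¬ J' j) ≤ 1 / 10)
    (hg : ∀ j, J' j → InCode ψ (s1 D s) (Γ.dir (D + 2) j) g) (b : Fin 2) (d : Fin (D + 2))
    (h : frac (fun x : Pos q m c D ((D + 2) * n) r × Seed q m n Cw c D ((D + 2) * n) r =>
      eqn ψ Γ M md x.1 (iv Γ g ι x.1 x.2) (.zinv b d) ≠ 0) ≤ 1 / 100) (p : Pt q m) (z : Zs q n) :
    g (ziP Γ D p z) (hF b d) = g p (hF b d) := by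
  have : Nonempty (Fin Cw) := ⟨⟨0, hC.cw⟩⟩
  let E : Zs q n × Pt q m → Prop := fun x => g x.2 (hF b d) - g (ziP Γ D x.2 x.1) (hF b d) ≠ 0
  have h1 : frac E ≤ 1 / 100 := by
    rw [← marg3 (J := Fin Cw × Fin (m + 1)) (Y := Yv c D ((D + 2) * n) r) E]
    refine le_trans (le_of_eq (frac_congr fun x => ?_)) h
    simp only [E, eqn, iv, RI.inp, Option.elim, pt, co, lv, word_unitV]
  have h2 := frac_rows_le E (t := 1 / 10) (by norm_num)
  refine dense_all (S := fun z : Zs q n => ∀ p, g (ziP Γ D p z) (hF b d) = g p (hF b d))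
    (fun a a' ha ha' p => ?_)
    (lt_of_le_of_lt ((frac_mono fun z hz => ?_).trans h2) (by linarith)) z p
  · have : ziP Γ D p (a + a') = ziP Γ D (ziP Γ D p a) a' := by
      simp only [ziP, sgN, ← inSlotL_apply, map_add, comp_iter_add, add_assoc]
    rw [this, ha', ha]
  refine not_lt.1 fun hlt => hz fun p => ?_
  have h5 := dist0 hD hC hJ (f := fun p : Pt q m => g p (hF b d) - g (ziP Γ D p z) (hF b d))
    (fun j hj => (((hg j hj).apply (hF b d)).sub
      (((hg j hj).apply (hF b d)).shift _)).mono (s1_le D s))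
    (by change frac (fun y => E (z, y)) ≤ _; linarith)
  exact (sub_eq_zero.1 (congrFun h5 p)).symm

/-- the directions which are good together with their image -/
def J2 (J' : Fin Cw × Fin (m + 1) → Prop) (j : Fin Cw × Fin (m + 1)) : Prop :=
  J' j ∧ j.2 ≠ Fin.last m ∧ J' (j.1, finRotate (m + 1) j.2)

theorem frac_J2 (hw : 0 < Cw) (hm : 100 ≤ m) (hJ : frac (fun j => ¬ J' j) ≤ 1 / 30) :
    frac (fun j => ¬ J2 J' j) ≤ 1 / 10 := by
  have : Nonempty (Fin Cw) := ⟨⟨0, hw⟩⟩
  have h1 : frac (fun j : Fin Cw × Fin (m + 1) => j.2 = Fin.last m) ≤ 1 / 100 := by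
    rw [frac_snd fun i : Fin (m + 1) => i = Fin.last m, frac_eq_single, Fintype.card_fin]
    have : (100 : ℝ) ≤ m := by exact_mod_cast hm
    push_cast
    exact one_div_le_one_div_of_le (by norm_num) (by linarith)
  have h2 : frac (fun j : Fin Cw × Fin (m + 1) => ¬ J' (j.1, finRotate (m + 1) j.2)) =
      frac fun j => ¬ J' j :=
    frac_equiv ((Equiv.refl _).prodCongr (finRotate (m + 1))) fun j => ¬ J' j
  have h3 := frac_le_add3 (p := fun j => ¬ J2 J' j) (q := fun j => ¬ J' j)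
    (r := fun j => j.2 = Fin.last m) (s := fun j => ¬ J' (j.1, finRotate (m + 1) j.2))
    fun j hj => by unfold J2 at hj; tauto
  linarith

omit [DecidableEq X] [Fintype X] [Fact q.Prime] in
theorem comp_dir {j : Fin Cw × Fin (m + 1)} (hj : j.2 ≠ Fin.last m) :
    comp Γ.a (Γ.dir (D + 2) j) = Γ.dir (D + 2) (j.1, finRotate (m + 1) j.2) := by
  have : ((finRotate (m + 1) j.2 : Fin (m + 1)) : ℕ) = j.2 + 1 := coe_finRotate_of_ne_last hj
  simp only [Geo.dir, this, ← add_assoc, Function.iterate_succ_apply']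

omit [DecidableEq X] [Fintype X] in
theorem code_Aop {s' : ℕ} {w : Pt q m} {f : Pt q m → ZMod r} (hf : InCode ψ s' (comp Γ.a w) f) :
    InCode ψ s' w (Aop Γ D f) :=
  (InCode.sum univ fun t _ =>
    InCode.comp (compL Γ.a) (hf.shift (t • sgN Γ D (unitV 0)))).smul (q : ZMod r)⁻¹

omit [DecidableEq X] [Fintype X] in
theorem code_lay {s' : ℕ} {w : Pt q m} (hg : InCode ψ s' w g) (b : Fin 2) (ch : Ch c)
    (l : ℕ) : InCode ψ s' w (lay g b ch l) := by
  unfold lay
  by_cases h : l < (D + 2) * n + 1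
  · simpa only [dif_pos h] using hg.apply _
  · simpa only [dif_neg h] using InCode.zero

/-- The recurrence of the layers. -/
theorem rec_eq (hD : DistStmt) (hC : Cx ψ Γ M s lam) (hT : TabP ψ Γ M s)
    (hJ : frac (fun j => ¬ J' j) ≤ 1 / 30)
    (hg : ∀ j, J' j → InCode ψ (s1 D s) (Γ.dir (D + 2) j) g) {τ : Option (Ck ((D + 2) * n))}
    (hk : ∀ p τ', g p (.inr τ') = if τ = some τ' then 1 else 0) (b : Fin 2)
    (h : frac (fun x : Pos q m c D ((D + 2) * n) r × Seed q m n Cw c D ((D + 2) * n) r =>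
      eqn ψ Γ M md x.1 (iv Γ g ι x.1 x.2) (.rc b) ≠ 0) ≤ 1 / 100) (ch : Ch c) (l : ℕ) (p : Pt q m)
    (hl : l < (D + 2) * n + 1) : lay g b ch l p = Aop Γ D (lay g b ch (l + 1)) p +
      if l + 1 = stage b τ then topF ψ Γ M (fun d p => g p (hF b d)) ch p else 0 := by
  have : Nonempty (Fin Cw) := ⟨⟨0, hC.cw⟩⟩
  let R : Pt q m → Ch c × Fin ((D + 2) * n + 1) → ZMod r := fun p i =>
    lay g b i.1 i.2 p - Aop Γ D (lay g b i.1 (i.2 + 1)) p -
      if (i.2 : ℕ) + 1 = stage b τ then topF ψ Γ M (fun d p => g p (hF b d)) i.1 p else 0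
  let e : Ch c × Fin ((D + 2) * n + 1) → Hx c D ((D + 2) * n) := fun i => .inl (b, .inl i)
  have he : Function.Injective e := fun i i' h => by simpa [e] using h
  have hl0 : ∀ (i : Ch c × Fin ((D + 2) * n + 1)) p, g p (.inl (b, .inl i)) = lay g b i.1 i.2 p :=
    fun i p => by simp only [lay, dif_pos i.2.2]
  have h1 : frac (fun x : Pt q m × Yv c D ((D + 2) * n) r => ∑ i, x.2 (e i) * R x.1 i ≠ 0) ≤
      1 / 100 := by
    rw [← frac_fst (Y := Seed q m n Cw c D ((D + 2) * n) r)]
    refine le_trans (le_of_eq (frac_congr fun x => ?_)) h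
    refine Iff.of_eq (congrArg (· ≠ 0) (Eq.symm ?_))
    simp only [eqn, Hc_eq hk]
    simp only [iv, RI.inp, Option.elim, pt, co, lv, word_unitV, word_mkY, cv, zero_mul,
      sum_const_zero, add_zero, hl0, R, e, mul_sub, sum_sub_distrib]
    congr 1
    · congr 1
      · exact sum_congr rfl fun i _ => by simp only [cf, dif_pos i.2.2]
      · simp only [Fintype.sum_prod_type, Aop]
        have h0 : ∀ t ch, ∑ l : Fin ((D + 2) * n + 1), cDn x.1.2 b ch l *
            lay g b ch l (avP Γ D x.1.1 t) = _ := fun t ch =>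
          sum_cDn x.1.2 b ch (fun l => lay g b ch l (avP Γ D x.1.1 t)) (by simp [lay])
        simp only [h0, mul_sum]
        rw [sum_comm]
        refine sum_congr rfl fun ch _ => ?_
        rw [sum_comm]
        exact sum_congr rfl fun l _ => sum_congr rfl fun t _ => by ring
    · simp only [Fintype.sum_prod_type, sum_mul]
      refine sum_congr rfl fun ch _ => ?_
      rw [mul_assoc, cDn_eq]
      rfl
  have h2 := vec_frac he R
  have h3 := dist0 hD hC (frac_J2 hC.cw hC.geo.big hJ) (f := R)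
    (fun j hj => InCode.pi fun i => by
      refine ((((code_lay (hg j hj.1) b i.1 i.2).sub (code_Aop (D := D) (Γ := Γ) ?_)).mono
        (s1_le D s))).sub ?_
      · rw [comp_dir hj.2.1]
        exact code_lay (hg _ hj.2.2) b i.1 _
      · split_ifs
        · have := (hT.codeKap i.1 j).mul
            (InCode.prod_const univ fun d _ => (hg j hj.1).apply (hF b d))
          rw [card_univ, Fintype.card_fin] at this
          exact this.mono (by unfold s2; omega)
        · exact InCode.zero)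
    (by linarith)
  have h4 := congrFun (congrFun h3 p) (ch, ⟨l, hl⟩)
  simp only [R, Pi.zero_apply] at h4
  linear_combination h4

end Inst

end S0

open S0

variable {q r m n Cw c ℓ D : ℕ} {X : Type} [Fact q.Prime] [Fact r.Prime] [Fintype X]
  [DecidableEq X] {ψ : AddChar (ZMod q) (ZMod r)} {Γ : Geo q m n Cw (Idx X ℓ)} {M : LBL c ℓ D X}
  {s : ℕ} {lam : ℝ}

/-- S4a: from approximate equations to the exact clock, invariance and recurrence. -/
theorem sound0P (hD : DistStmt) (hC : Cx ψ Γ M s lam) (hT : TabP ψ Γ M s) : Sound0P ψ Γ M s := by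
  intro md ι g J' hJ hg h
  have : Nonempty (Fin Cw) := ⟨⟨0, hC.cw⟩⟩
  have hJ' : frac (fun j => ¬ J' j) ≤ 1 / 10 := hJ.trans (by norm_num)
  have h1 := clock_const hD hC hJ' hg (h .const)
  obtain ⟨τ, hτ⟩ := clock_shape _ (clock_mul hC h1 (h .mul))
  have hk : ∀ p τ', g p (.inr τ') = if τ = some τ' then 1 else 0 := fun p τ' => by
    rw [h1, hτ]
  refine ⟨τ, ?_, hk, fun b d => z_inv hD hC hJ' hg b d (h _),
    fun b => rec_eq hD hC hT hJ hg hk b (h _)⟩
  by_contra ha
  have h2 := h .alw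
  rw [frac_eq_one fun x => by simp [eqn, Hc_eq hk, cv, bK, ha]] at h2
  norm_num at h2

end Vale.Agent.P330.Bohr
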