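import Vale.Agent.P330.Bohr.Stm

/-!
P330, inner system: from approximate equations to exact sources and conditions.
-/

namespace Vale.Agent.P330.Bohr

open Finset

namespace S1

set_option linter.unusedSectionVars false

variable {q r m n Cw c ℓ D : ℕ} {X : Type} [Fact q.Prime] [Fact r.Prime] [Fintype X]
  [DecidableEq X] {ψ : AddChar (ZMod q) (ZMod r)} {Γ : Geo q m n Cw (Idx X ℓ)} {M : LBL c ℓ D X}

theorem word_unit {G H K : Type} [Fintype H] [DecidableEq H] [CommRing K] (g : G → H → K) (p : G)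
    (h : H) : word g (p, unitV h) = g p h := by
  simp [word, unitV]

theorem word_ck {G : Type} {N : ℕ} {τ : Option (Ck N)} {g : G → Hx c D N → ZMod r}
    (hc : ∀ p τ', g p (.inr τ') = if τ = some τ' then 1 else 0) (p : G) (k : Ck N → ZMod r) :
    word g (p, ckY k) = τ.elim 0 k := by
  unfold word
  rw [Fintype.sum_sum_type]
  have h1 : ∀ i : Fin 2 × TI c D N, (ckY k : Yv c D N r) (.inl i) = 0 := by
    rintro ⟨b, ⟨ch, l⟩ | d⟩ <;> simp [ckY, mkY]
  have h2 : ∀ τ', (ckY k : Yv c D N r) (.inr τ') = k τ' := fun _ => rfl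
  simp only [h1, h2, hc, zero_mul, sum_const_zero, zero_add, mul_ite, mul_one, mul_zero]
  cases τ with
  | none => simp
  | some τ => simp

theorem Hc_iv {τ : Option (Ck ((D + 2) * n))} {g : Pt q m → Hx c D ((D + 2) * n) → ZMod r}
    (hc : ∀ p τ', g p (.inr τ') = if τ = some τ' then 1 else 0) (ι : Fin c → Pt q m → ZMod r)
    (x : Pos q m c D ((D + 2) * n) r) (s : Seed q m n Cw c D ((D + 2) * n) r) (i : CI c) :
    Hc x.2 (iv Γ g ι x s) i = cv x.2 i τ := by
  have h : iv Γ g ι x s (.ck i) = τ.elim 0 fun τ => cv x.2 i (some τ) - cv x.2 i none :=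
    word_ck hc _ _
  rw [Hc, h]
  cases τ <;> simp

theorem src_full {N : ℕ} {b b' : Fin 2} {ch : Ch c} {τ : Option (Ck N)}
    (h : src c b τ = some (some (b', ch))) : stage b' τ = N + 1 := by
  unfold src at h
  split_ifs at h
  obtain _ | ⟨ph, j⟩ := τ
  · simp at h
  · simp only [Option.map_some, Option.some.injEq] at h
    fin_cases ph <;> simp [src0] at h <;> obtain ⟨rfl, -⟩ := h <;> simp [stage]

theorem full {s : ℕ} (hT : TabP ψ Γ M s) {τ : Option (Ck ((D + 2) * n))}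
    {g : Pt q m → Hx c D ((D + 2) * n) → ZMod r} (h : Cons0 ψ Γ M τ g) {b : Fin 2}
    (hb : stage b τ = (D + 2) * n + 1) (ch : Ch c) :
    ∃ x : Idx X ℓ → ZMod r, ∀ p, g p (hV b ch) = encv ψ Γ x (slot n (D + 2) p) := by
  have key : ∀ i ≤ (D + 2) * n, lay g b ch ((D + 2) * n - i) =
      (Aop Γ D)^[i] (topF ψ Γ M (fun d p => g p (hF b d)) ch) := by
    intro i
    induction i with
    | zero =>
      intro _
      funext p
      rw [Nat.sub_zero, h.rc b ch _ p (Nat.lt_succ_self _), if_pos hb.symm]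
      simp [Aop, lay]
    | succ i ih =>
      intro hi
      funext p
      rw [h.rc b ch _ p (by omega), if_neg (by omega), add_zero,
        show (D + 2) * n - (i + 1) + 1 = (D + 2) * n - i by omega, ih (by omega),
        Function.iterate_succ_apply']
  obtain ⟨x, hx⟩ := hT.key (fun d p => g p (hF b d)) (fun d p z => h.zinv b d p z) ch
  refine ⟨x, fun p => ?_⟩
  rw [← hx, ← key _ le_rfl, Nat.sub_self]
  simp [lay, hV]

theorem chi_encv (k : Idx X ℓ) (z : Zs q n) :
    chi ψ Γ k z = encv ψ Γ (fun k' => if k' = k then 1 else 0) z := by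
  simp [encv]

theorem src_form {s : ℕ} (hT : TabP ψ Γ M s) {τ : Option (Ck ((D + 2) * n))}
    {g : Pt q m → Hx c D ((D + 2) * n) → ZMod r} (h : Cons0 ψ Γ M τ g)
    {ι : Fin c → Pt q m → ZMod r}
    (hι : ∀ j, ∃ x : Idx X ℓ → ZMod r, ∀ p, ι j p = encv ψ Γ x (slot n (D + 2) p)) (b : Fin 2) :
    ∃ x : Idx X ℓ → ZMod r, ∀ p,
      srcF ψ Γ M g ι (src c b τ) p = encv ψ Γ x (slot n (D + 2) p) := by
  rcases hs : src c b τ with _ | _ | ⟨b', ch⟩
  · exact ⟨0, fun p => by simp [srcF, encv]⟩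
  · choose y hy using hι
    refine ⟨fun k => (if k = none then 1 else 0) + (if k = some (.inl M.first) then 1 else 0) +
      ∑ j, y j k, fun p => ?_⟩
    simp only [srcF, hy, chi_encv (ψ := ψ) (Γ := Γ) none,
      chi_encv (ψ := ψ) (Γ := Γ) (some (.inl M.first))]
    simp only [encv, add_mul, sum_add_distrib, sum_mul]
    rw [sum_comm]
  · exact full hT h (src_full hs) ch

theorem exact {s : ℕ} {lam : ℝ} (hD : DistStmt) (hC : Cx ψ Γ M s lam)
    {J' : Fin Cw × Fin (m + 1) → Prop} (hJ : frac (fun j => ¬ J' j) ≤ 1 / 30)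
    {f : Pt q m → ZMod r} (hf : ∀ j, J' j → InCode ψ (s1 D s) (Γ.dir (D + 2) j) f)
    (h : frac (fun x : Pos q m c D ((D + 2) * n) r × Seed q m n Cw c D ((D + 2) * n) r =>
      f x.1.1 ≠ 0) ≤ 1 / 100) (p : Pt q m) : f p = 0 := by
  have : Nonempty (Fin Cw) := ⟨⟨0, hC.cw⟩⟩
  have hw : Woz (q := q) (1 / 100) (Γ.dir (D + 2)) := fun a ha => (hC.geo.woz a ha).trans hC.lam_le
  have hs : 4 * s1 D s < q := by
    have h1 := hC.deg
    have h2 : s1 D s ≤ s2 D s := by
      unfold s2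
      nlinarith [Nat.zero_le (s1 D s), Nat.zero_le ((D + 3) * s), Nat.zero_le (D * s1 D s)]
    omega
  rw [frac_fst fun x : Pos q m c D ((D + 2) * n) r => f x.1 ≠ 0,
    frac_fst fun x : Pt q m => f x ≠ 0] at h
  exact congrFun (hD q (ZMod r) ψ hC.hψ (ZMod r) (Pt q m) _ _ hw _ hs J'
    (hJ.trans (by norm_num)) f hf (h.trans (by norm_num))) p

end S1

open S1 in
theorem sound1P {q r m n Cw c ℓ D : ℕ} {X : Type} [Fact q.Prime] [Fact r.Prime] [Fintype X]
    [DecidableEq X] {ψ : AddChar (ZMod q) (ZMod r)} {Γ : Geo q m n Cw (Idx X ℓ)}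
    {M : LBL c ℓ D X} {s : ℕ} {lam : ℝ} (hD : DistStmt) (hC : Cx ψ Γ M s lam)
    (hT : TabP ψ Γ M s) : Sound1P ψ Γ M s := by
  intro md ι g J' hJ hg hι he τ h0
  have hs : s ≤ s1 D s := Nat.le_mul_of_pos_left _ (by omega)
  have hchk : ∀ b ch β, req b ch τ = some β → ∀ p, g p (hV b ch) =
      if β then ch.elim (fun _ => chi ψ Γ none (slot n (D + 2) p)) fun j => ι j.2 p else 0 := by
    intro b ch β hr p
    have h1 : ∃ x : Idx X ℓ → ZMod r, ∀ p,
        (if β then ch.elim (fun _ => chi ψ Γ none (slot n (D + 2) p)) fun j => ι j.2 p else 0) =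
          encv ψ Γ x (slot n (D + 2) p) := by
      cases β
      · exact ⟨0, fun p => by simp [encv]⟩
      · rcases ch with i | j
        · exact ⟨_, fun p => chi_encv _ _⟩
        · exact hι j.2
    obtain ⟨x, hx⟩ := h1
    rw [hx, ← sub_eq_zero]
    refine exact (f := fun p => g p (hV b ch) - encv ψ Γ x (slot n (D + 2) p)) hD hC hJ
      (fun j hj => ((hg j hj).apply _).sub ((hT.codeLast x j).mono hs))
      (le_trans (le_of_eq (frac_congr fun y => ?_)) (he (.chk b ch β))) p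
    have h2 : iv Γ g ι y.1 y.2 (.lin (.V b ch)) = g y.1.1 (hV b ch) := word_unit _ _ _
    have h3 : tgt ψ Γ y.1.1 (iv Γ g ι y.1 y.2) ch =
        ch.elim (fun _ => chi ψ Γ none (slot n (D + 2) y.1.1)) fun j => ι j.2 y.1.1 := by
      rcases ch with i | ⟨β', j⟩ <;> rfl
    simp only [eqn, Hc_iv h0.clock, cv, hr, if_true, one_mul, h2, h3, hx]
  refine ⟨h0, fun b d p => ?_, fun b ch p hr => by simpa using hchk b ch _ hr p,
    fun b ch p hr => by simpa using hchk b ch _ hr p⟩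
  obtain ⟨x, hx⟩ := src_form hT h0 hι b
  rw [hx, hT.slot_piD, ← sub_eq_zero]
  refine exact (f := fun p => g p (hF b d) - facs ψ Γ D x d p) hD hC hJ
    (fun j hj => ((hg j hj).apply _).sub ((hT.codeFac x d j).mono hs))
    (le_trans (le_of_eq (frac_congr fun y => ?_)) (he (.F b d))) p
  have h2 : iv Γ g ι y.1 y.2 (.lin (.F b d)) = g y.1.1 (hF b d) := word_unit _ _ _
  have h3 : ∀ sr, svv ψ Γ M y.1.1 (iv Γ g ι y.1 y.2) d sr =
      srcF ψ Γ M g ι (some sr) (piD Γ D d y.1.1) := by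
    rintro (_ | ⟨b', ch⟩)
    · rfl
    · exact word_unit _ _ _
  have h4 : ∑ sr, (if src c b τ = some sr then (1 : ZMod r) else 0) *
      srcF ψ Γ M g ι (some sr) (piD Γ D d y.1.1) = facs ψ Γ D x d y.1.1 := by
    rw [facs, ← hT.slot_piD, ← hx]
    rcases src c b τ with _ | sr
    · simp [srcF]
    · simp
  simp only [eqn, Hc_iv h0.clock, cv, h2, h3, h4]

end Vale.Agent.P330.Bohr
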