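import Vale.Agent.P330.Bohr.Ideal

/-!
P330, inner system: successor, predecessor and output of a state.
-/

namespace Vale.Agent.P330.Bohr

open Finset

set_option linter.unusedSectionVars false
set_option linter.unnecessarySeqFocus false

namespace Stp

section Clock

variable {c N : ℕ}

theorem nx_flag {τ : Option (Ck N)} (h : τ ≠ some (1, 0)) (dr fl fl' : Bool) :
    nx dr fl τ = nx dr fl' τ := by
  rcases τ with _ | ⟨ph, j⟩
  · cases dr <;> rfl
  · have h1 : ph = 1 → (j : ℕ) ≠ 0 := fun h1 h2 => h (by rw [h1, show j = 0 from Fin.ext h2])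
    by_cases h2 : ph = 1
    · cases dr <;> simp [nx, nxt, prv, h1 h2]
    · cases dr <;> simp [nx, nxt, prv, h2]

theorem opD_flag {τ : Option (Ck N)} (ha : allowed false τ = true) (h : τ ≠ some (1, 0))
    (dr fl fl' : Bool) (b : Fin 2) : opD c dr fl b τ = opD c dr fl' b τ := by
  rcases τ with _ | ⟨ph, j⟩
  · cases dr <;> rfl
  · have h1 : ph = 1 → (j : ℕ) ≠ 0 := fun h1 h2 => h (by rw [h1, show j = 0 from Fin.ext h2])
    simp only [allowed, Bool.false_eq_true, if_false, decide_eq_true_eq] at ha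
    by_cases h2 : (j : ℕ) = 0
    · have h3 : ph = 2 := by
        have h4 : ph ≠ 0 := fun e => ha.2 (Or.inl e) h2
        have h5 : ph ≠ 3 := fun e => ha.2 (Or.inr e) h2
        have h6 : ph ≠ 1 := fun e => h1 e h2
        have h7 := ha.1
        omega
      cases dr <;> simp [opD, opS, opP, h3]
    · cases dr <;> simp [opD, opS, opP, h2]

end Clock

variable {q r m n Cw c ℓ D : ℕ} {X : Type} [Fact q.Prime] [Fact r.Prime] [Fintype X]
  [DecidableEq X] (ψ : AddChar (ZMod q) (ZMod r)) (Γ : Geo q m n Cw (Idx X ℓ)) (M : LBL c ℓ D X)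

/-- the block `b` of the word of a table -/
noncomputable def Bk (y : Pos q m c D ((D + 2) * n) r) (b : Fin 2) (x : Idx X ℓ → ZMod r)
    (j : ℕ) : ZMod r :=
  ∑ i, y.2 (.inl (b, i)) * Tab ψ Γ M x j y.1 i

variable {ψ Γ M} {y : Pos q m c D ((D + 2) * n) r} {b : Fin 2}
  {τ : Option (Ck ((D + 2) * n))} {v : Fin 2 → Idx X ℓ → ZMod r} {ι : Fin c → Pt q m → ZMod r}
  {sd : Seed q m n Cw c D ((D + 2) * n) r} {x' : Idx X ℓ → ZMod r} {j' : ℕ}

theorem Bk_eq (x : Idx X ℓ → ZMod r) (j : ℕ) : Bk ψ Γ M y b x j =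
    ∑ ch, ∑ l ∈ range ((D + 2) * n + 1), cf y.2 b ch l *
      (if l < j then (Aop Γ D)^[j - 1 - l] (topF ψ Γ M (facs ψ Γ D x) ch) y.1 else 0) +
      ∑ d, cF y.2 b d * (if j = 0 then 0 else facs ψ Γ D x d y.1) := by
  rw [Bk, Fintype.sum_sum_type (α₂ := Fin (D + 2)), Fintype.sum_prod_type (α₁ := Ch c)]
  congr 1
  refine sum_congr rfl fun ch _ => ?_
  rw [← Fin.sum_univ_eq_sum_range (fun l => cf y.2 b ch l *
    (if l < j then (Aop Γ D)^[j - 1 - l] (topF ψ Γ M (facs ψ Γ D x) ch) y.1 else 0))]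
  exact sum_congr rfl fun l _ => by rw [cf_lt]; rfl

theorem Bk_zero (x : Idx X ℓ → ZMod r) : Bk ψ Γ M y b x 0 = 0 := by
  simp [Bk_eq]

theorem Bk_congr {x : Idx X ℓ → ZMod r} {j : ℕ} (h1 : j = j') (h2 : j' ≠ 0 → x = x') :
    Bk ψ Γ M y b x j = Bk ψ Γ M y b x' j' := by
  subst h1
  by_cases h : j = 0
  · rw [h, Bk_zero, Bk_zero]
  · rw [h2 h]

theorem word_tabs : word (tabs ψ Γ M τ v) y =
    ∑ b, Bk ψ Γ M y b (v b) (stage b τ) + τ.elim 0 fun τ' => y.2 (.inr τ') := by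
  rw [← sum_clock (tabs_clock Γ ψ M τ v y.1)]
  exact word_blocks _ y.1 y.2

theorem op_keep (h1 : stage b τ = j') (h2 : j' ≠ 0 → v b = x') :
    opv ψ Γ M y (iv Γ (tabs ψ Γ M τ v) ι y sd) b (.inl 0) = Bk ψ Γ M y b x' j' :=
  (iv_blk Γ _ ι y sd b).trans (Bk_congr h1 h2)

theorem op_zero (h1 : j' = 0) :
    opv ψ Γ M y (iv Γ (tabs ψ Γ M τ v) ι y sd) b (.inl 1) = Bk ψ Γ M y b x' j' := by
  rw [h1, Bk_zero]
  rfl

theorem op_swap (h1 : stage (b + 1) τ = j') (h2 : j' ≠ 0 → v (b + 1) = x') :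
    opv ψ Γ M y (iv Γ (tabs ψ Γ M τ v) ι y sd) b (.inl 2) = Bk ψ Γ M y b x' j' :=
  (iv_swp Γ _ ι y sd b).trans (Bk_congr h1 h2)

theorem op_up (h0 : stage b τ ≠ 0) (h1 : stage b τ + 1 = j') (h2 : v b = x') :
    opv ψ Γ M y (iv Γ (tabs ψ Γ M τ v) ι y sd) b (.inl 3) = Bk ψ Γ M y b x' j' := by
  subst h1 h2
  change iv Γ _ ι y sd (.lin (.upA b)) + _ * ∑ t, iv Γ _ ι y sd (.av t b true) = _
  rw [iv_upA, av_true_eq, Bk_eq, add_right_comm, ← sum_add_distrib]
  congr 1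
  · refine sum_congr rfl fun ch _ => ?_
    rw [sum_range_succ, cf_ge _ _ _ le_rfl, zero_mul, add_zero, sum_range_succ']
    congr 1
    · refine sum_congr rfl fun l _ => ?_
      rw [lay_tabs, show stage b τ + 1 - 1 - (l + 1) = stage b τ - 1 - l by omega]
      simp only [Nat.add_lt_add_iff_right]
      split_ifs <;> rfl
    · rw [lay_tabs, if_pos (by omega), if_pos (by omega),
        show stage b τ + 1 - 1 - 0 = stage b τ - 1 - 0 + 1 by omega, Function.iterate_succ_apply']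
  · exact sum_congr rfl fun d _ => by rw [tabs_F, if_neg h0, if_neg (by omega)]

theorem op_down (h0 : j' ≠ 0) (h1 : stage b τ = j' + 1) (h2 : v b = x') :
    opv ψ Γ M y (iv Γ (tabs ψ Γ M τ v) ι y sd) b (.inl 4) = Bk ψ Γ M y b x' j' := by
  subst h2
  change iv Γ _ ι y sd (.lin (.dn b)) = _
  rw [iv_dn, Bk_eq]
  congr 1
  · refine sum_congr rfl fun ch _ => sum_congr rfl fun l _ => ?_
    rw [lay_tabs, h1, show j' + 1 - 1 - (l + 1) = j' - 1 - l by omega]
    simp only [Nat.add_lt_add_iff_right]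
    split_ifs <;> rfl
  · exact sum_congr rfl fun d _ => by rw [tabs_F, if_neg h0, if_neg (by omega)]

theorem op_new {s : ℕ} (hT : TabP ψ Γ M s) {g : Pt q m → Hx c D ((D + 2) * n) → ZMod r}
    {sr : Src c} (h1 : j' = 1)
    (h2 : ∀ p, srcF ψ Γ M g ι (some sr) p = encv ψ Γ x' (slot n (D + 2) p)) :
    opv ψ Γ M y (iv Γ g ι y sd) b (.inr sr) = Bk ψ Γ M y b x' j' := by
  have h3 : ∀ d, svv ψ Γ M y.1 (iv Γ g ι y sd) d sr = facs ψ Γ D x' d y.1 := fun d => by
    rw [svv_iv, h2, hT.slot_piD]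
    rfl
  simp only [opv, h3]
  rw [h1, Bk_eq, add_comm, sum_mul]
  congr 1
  refine sum_congr rfl fun ch _ => ?_
  rw [sum_range_succ', sum_eq_zero fun l _ => by rw [if_neg (by omega), mul_zero], zero_add,
    if_pos one_pos, mul_assoc]
  rfl

theorem tabs_V {s : ℕ} (hT : TabP ψ Γ M s) (h : stage b τ = (D + 2) * n + 1) (ch : Ch c)
    (p : Pt q m) :
    tabs ψ Γ M τ v p (hV b ch) = encv ψ Γ (Oc M ch (v b)) (slot n (D + 2) p) := by
  rw [← lay_zero (tabs ψ Γ M τ v), lay_tabs, h, if_pos (by omega), ← hT.res]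
  rfl

theorem op_ch {s : ℕ} (hT : TabP ψ Γ M s) {b' : Fin 2} {ch : Ch c} (h1 : j' = 1)
    (h2 : stage b' τ = (D + 2) * n + 1) (h3 : Oc M ch (v b') = x') :
    opv ψ Γ M y (iv Γ (tabs ψ Γ M τ v) ι y sd) b (.inr (some (b', ch))) = Bk ψ Γ M y b x' j' :=
  op_new hT h1 fun p => h3 ▸ tabs_V hT h2 ch p

theorem encv_single (k : Idx X ℓ) (a : ZMod r) (z : Zs q n) :
    encv ψ Γ (fun k' => if k' = k then a else 0) z = a * chi ψ Γ k z := by
  simp [encv]

theorem op_start {s : ℕ} (hT : TabP ψ Γ M s) (hO : OcP M (ZMod r)) {σ : Fin c → Sym ℓ}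
    {g : Pt q m → Hx c D ((D + 2) * n) → ZMod r} (h1 : j' = 1) (h2 : hat (M.start σ) = x') :
    opv ψ Γ M y (iv Γ g (inpF ψ Γ M σ) y sd) b (.inr none) = Bk ψ Γ M y b x' j' := by
  refine op_new hT h1 fun p => ?_
  rw [← h2]
  simp only [srcF, inpF, encv, hO.start, add_mul, sum_add_distrib, sum_mul, ite_mul, one_mul,
    zero_mul, sum_ite_eq', mem_univ, if_true]
  rw [sum_comm]

theorem chi_ne (k : Idx X ℓ) (z : Zs q n) : chi ψ Γ k z ≠ 0 := by
  intro h
  have h1 := ψ.map_add_eq_mul (∑ i, Γ.al k i * z i) (-∑ i, Γ.al k i * z i)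
  rw [add_neg_cancel, ψ.map_zero_eq_one] at h1
  rw [chi] at h
  rw [h, zero_mul] at h1
  exact one_ne_zero h1

theorem flag_eq {s : ℕ} (hT : TabP ψ Γ M s) (hO : OcP M (ZMod r)) (dr : Bool) (x : X → Bool) :
    flag dr (iv Γ (gS ψ Γ M (some (1, 0)) x) ι y sd) = x (if dr then M.last else M.first) := by
  have h1 : Oc M (.inl (if dr then 7 else 6)) (hat x : Idx X ℓ → ZMod r) =
      fun k => if k = none then bK (x (if dr then M.last else M.first)) else 0 := by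
    cases dr
    · exact funext (hO.first x)
    · exact funext (hO.last x)
  have h2 : vecs (r := r) (n := n) M (some (1, 0)) x 0 = hat x := by simp [vecs]
  rw [flag, iv_V, gS, tabs_V hT (by simp [stage]), h2, h1, encv_single]
  cases x (if dr then M.last else M.first) <;> simp [bK, chi_ne]

theorem step_eq {s : ℕ} (hT : TabP ψ Γ M s) (hO : OcP M (ZMod r)) (dr : Bool) {x : X → Bool}
    (ha : allowed false τ = true) {fl : Bool} (hf : x (if dr then M.last else M.first) = fl)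
    {v' : Fin 2 → Idx X ℓ → ZMod r}
    (h : ∀ b, opv ψ Γ M y (iv Γ (tabs ψ Γ M τ (vecs M τ x)) ι y sd) b (opD c dr fl b τ) =
      Bk ψ Γ M y b (v' b) (stage b (nx dr fl τ))) :
    stepv ψ Γ M dr y (iv Γ (gS ψ Γ M τ x) ι y sd) = word (tabs ψ Γ M (nx dr fl τ) v') y := by
  rw [stepv_iv Γ (gS ψ Γ M τ x) ι y sd ψ M dr (tabs_clock Γ ψ M τ _ y.1), word_tabs,
    ← sum_congr rfl fun b _ => h b]
  by_cases h1 : τ = some (1, 0)
  · subst h1
    rw [flag_eq hT hO, hf]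
    rfl
  · rw [nx_flag h1 dr _ fl, sum_congr rfl fun b _ => by rw [opD_flag ha h1 dr _ fl b]]
    rfl

variable (M) in
/-- the operation `o` produces the table of `x'` with `j'` layers -/
def Ok (σ : Fin c → Sym ℓ) (τ : Option (Ck ((D + 2) * n))) (v : Fin 2 → Idx X ℓ → ZMod r)
    (b : Fin 2) (x' : Idx X ℓ → ZMod r) (j' : ℕ) : Op c → Prop
  | .inl 0 => stage b τ = j' ∧ (j' ≠ 0 → v b = x')
  | .inl 1 => j' = 0
  | .inl 2 => stage (b + 1) τ = j' ∧ (j' ≠ 0 → v (b + 1) = x')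
  | .inl 3 => stage b τ ≠ 0 ∧ stage b τ + 1 = j' ∧ v b = x'
  | .inl 4 => j' ≠ 0 ∧ stage b τ = j' + 1 ∧ v b = x'
  | .inr none => j' = 1 ∧ hat (M.start σ) = x'
  | .inr (some (b', ch)) => j' = 1 ∧ stage b' τ = (D + 2) * n + 1 ∧ Oc M ch (v b') = x'

theorem op_ok {s : ℕ} (hT : TabP ψ Γ M s) (hO : OcP M (ZMod r)) {σ : Fin c → Sym ℓ} :
    ∀ {o : Op c}, Ok M σ τ v b x' j' o →
      opv ψ Γ M y (iv Γ (tabs ψ Γ M τ v) (inpF ψ Γ M σ) y sd) b o = Bk ψ Γ M y b x' j'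
  | .inl 0, h => op_keep h.1 h.2
  | .inl 1, h => op_zero h
  | .inl 2, h => op_swap h.1 h.2
  | .inl 3, h => op_up h.1 h.2.1 h.2.2
  | .inl 4, h => op_down h.1 h.2.1 h.2.2
  | .inr none, h => op_start hT hO h.1 h.2
  | .inr (some _), h => op_ch hT h.1 h.2.1 h.2.2

theorem suc_ok (hO : OcP M (ZMod r)) {σ : Fin c → Sym ℓ} {x : X → Bool} (h : LSt M σ τ x)
    (b : Fin 2) : Ok (r := r) M σ τ (vecs M τ x) b
      ((if τ = some (mkCk _ 1 ((D + 2) * n + 1)) then vecs M τ x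
        else vecs M (nxt (x M.last) τ) x) b) (stage b (nxt (x M.last) τ))
      (opS c (x M.last) b τ) := by
  obtain ⟨ha, -, h⟩ := h
  have hb : b = 0 ∨ b = 1 := by omega
  rcases τ with _ | ⟨ph, j, hj⟩
  · change x = _ at h
    rcases hb with rfl | rfl <;> simp [Ok, opS, stage, nxt, mkCk, vecs, ← h]
  simp only [allowed, Bool.false_eq_true, if_false, decide_eq_true_eq] at ha
  have hph : ph = 0 ∨ ph = 1 ∨ ph = 2 ∨ ph = 3 := by have := ha.1; omega
  rcases hph with rfl | rfl | rfl | rfl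
  · have h1 : j ≠ 0 := ha.2 (Or.inl rfl)
    by_cases h2 : j = (D + 2) * n + 1 <;> rcases hb with rfl | rfl <;>
      simp [Ok, opS, stage, nxt, mkCk, vecs, h1, h2] <;> omega
  · by_cases h1 : j = 0
    · subst h1
      cases x M.last <;> rcases hb with rfl | rfl <;>
        simp [Ok, opS, stage, nxt, mkCk, vecs, hO.suc, hO.out]
    · by_cases h2 : j = (D + 2) * n + 1 <;> rcases hb with rfl | rfl <;>
        simp [Ok, opS, stage, nxt, mkCk, vecs, h1, h2] <;> omega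
  · by_cases h1 : j = 0
    · rcases hb with rfl | rfl <;> simp [Ok, opS, stage, nxt, mkCk, vecs, h1]
    · by_cases h2 : j = 1 <;> rcases hb with rfl | rfl <;>
        simp [Ok, opS, stage, nxt, mkCk, vecs, h1, h2] <;> omega
  · have h1 : j ≠ 0 := ha.2 (Or.inr rfl)
    by_cases h2 : j = (D + 2) * n + 1 <;> rcases hb with rfl | rfl <;>
      simp [Ok, opS, stage, nxt, mkCk, vecs, h1, h2] <;> omega

theorem pre_ok (hO : OcP M (ZMod r)) {σ : Fin c → Sym ℓ} {x : X → Bool} (h : LSt M σ τ x)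
    (b : Fin 2) : Ok (r := r) M σ τ (vecs M τ x) b
      ((if τ = some (mkCk _ 2 ((D + 2) * n + 1)) then vecs M τ x
        else vecs M (prv (x M.first) τ) x) b) (stage b (prv (x M.first) τ))
      (opP c (x M.first) b τ) := by
  obtain ⟨ha, -, -⟩ := h
  have hb : b = 0 ∨ b = 1 := by omega
  rcases τ with _ | ⟨ph, j, hj⟩
  · rcases hb with rfl | rfl <;> simp [Ok, opP, stage, prv]
  simp only [allowed, Bool.false_eq_true, if_false, decide_eq_true_eq] at ha
  have hph : ph = 0 ∨ ph = 1 ∨ ph = 2 ∨ ph = 3 := by have := ha.1; omega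
  rcases hph with rfl | rfl | rfl | rfl
  · by_cases h2 : j ≤ 1 <;> rcases hb with rfl | rfl <;>
      simp [Ok, opP, stage, prv, mkCk, vecs, h2] <;> omega
  · by_cases h1 : j = 0
    · subst h1
      cases x M.first <;> rcases hb with rfl | rfl <;> simp [Ok, opP, stage, prv, mkCk, vecs]
    · by_cases h2 : j = 1 <;> rcases hb with rfl | rfl <;>
        simp [Ok, opP, stage, prv, mkCk, vecs, h1, h2] <;> omega
  · by_cases h1 : j = 0
    · rcases hb with rfl | rfl <;> simp [Ok, opP, stage, prv, mkCk, vecs, h1, hO.pre]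
    · by_cases h2 : j = (D + 2) * n + 1 <;> rcases hb with rfl | rfl <;>
        simp [Ok, opP, stage, prv, mkCk, vecs, h1, h2] <;> omega
  · have h1 : j ≠ 0 := ha.2 (Or.inr rfl)
    by_cases h2 : j = 1
    · rcases hb with rfl | rfl <;> simp [Ok, opP, stage, prv, mkCk, vecs, h2]
    · have h3 : ¬j ≤ 1 := by omega
      rcases hb with rfl | rfl <;> simp [Ok, opP, stage, prv, mkCk, vecs, h1, h2, h3] <;> omega

end Stp

variable {q r m n Cw c ℓ D : ℕ} {X : Type} [Fact q.Prime] [Fact r.Prime] [Fintype X]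
  [DecidableEq X] {ψ : AddChar (ZMod q) (ZMod r)} {Γ : Geo q m n Cw (Idx X ℓ)} {M : LBL c ℓ D X}

theorem stepP {s : ℕ} {lam : ℝ} (_hC : Cx ψ Γ M s lam) (hT : TabP ψ Γ M s)
    (hO : OcP M (ZMod r)) : StepP ψ Γ M where
  suc _ _ _ _ h _ _ := Stp.step_eq hT hO true h.1 rfl fun b => Stp.op_ok hT hO (Stp.suc_ok hO h b)
  pre _ _ _ _ h _ _ := Stp.step_eq hT hO false h.1 rfl fun b => Stp.op_ok hT hO (Stp.pre_ok hO h b)
  out σ x y sd := by
    rw [outv, iv_blk, symW, gSym, Stp.word_tabs, Fin.sum_univ_two,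
      Stp.Bk_congr (b := 0) (j' := 0) (x' := 0) (by simp [stage, mkCk]) (by simp), Stp.Bk_zero,
      zero_add]
    congr 1
    exact Stp.Bk_congr (by simp [stage, mkCk]) (by simp [vecs, mkCk])

end Vale.Agent.P330.Bohr
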