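import Vale.Agent.P330.Bohr.Stm

/-!
P330, inner system: the tables are in the line codes; geometry of the probe points.
-/

namespace Vale.Agent.P330.Bohr

open Finset

variable {q r m n Cw c ℓ D : ℕ} {X : Type} [Fact q.Prime] [Fact r.Prime] [Fintype X]
  [DecidableEq X] {ψ : AddChar (ZMod q) (ZMod r)} {Γ : Geo q m n Cw (Idx X ℓ)} {M : LBL c ℓ D X}
  {s : ℕ} {lam : ℝ}

namespace TabC

theorem stage_le {N : ℕ} (b : Fin 2) (τ : Option (Ck N)) : stage b τ ≤ N + 1 := by
  rcases τ with _ | ⟨ph, j⟩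
  · exact Nat.zero_le _
  · have := j.2
    simp only [stage]
    split_ifs <;> omega

theorem chi_code (hC : Cx ψ Γ M s lam) (k : Idx X ℓ) {e i : ℕ} (he : e ≤ D + 2)
    (hi : i < (D + 2) * n + (m + 1)) (j : Fin Cw) :
    InCode ψ s ((comp Γ.a)^[i] (Γ.w j)) fun p : Pt q m => chi ψ Γ k (slot n e p) := by
  obtain ⟨u, hu, h⟩ := hC.geo.small k ⟨e, by omega⟩ j i hi
  exact InCode.char ((dotL (Γ.al k)).comp (slotL n e)) hu h

theorem chib_code (hC : Cx ψ Γ M s lam) (k : Idx X ℓ) {e i : ℕ} (he : e ≤ D + 2)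
    (hi : i < (D + 2) * n + (m + 1)) (j : Fin Cw) :
    InCode ψ s ((comp Γ.a)^[i] (Γ.w j)) fun p : Pt q m => chib ψ Γ k (slot n e p) := by
  obtain ⟨u, hu, h⟩ := hC.geo.small k ⟨e, by omega⟩ j i hi
  refine InCode.char (-(dotL (Γ.al k)).comp (slotL n e)) (u := -u) ?_ ?_
  · rw [mem_Icc] at hu ⊢
    omega
  · rw [Int.cast_neg, ← h]
    rfl

theorem encv_code (hC : Cx ψ Γ M s lam) (x : Idx X ℓ → ZMod r) {e i : ℕ} (he : e ≤ D + 2)
    (hi : i < (D + 2) * n + (m + 1)) (j : Fin Cw) :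
    InCode ψ s ((comp Γ.a)^[i] (Γ.w j)) fun p : Pt q m => encv ψ Γ x (slot n e p) :=
  InCode.sum univ fun k _ => (chi_code hC k he hi j).smul (x k)

theorem kap_code (hC : Cx ψ Γ M s lam) (ch : Ch c) {i : ℕ}
    (hi : i < (D + 2) * n + (m + 1)) (j : Fin Cw) :
    InCode ψ ((D + 3) * s) ((comp Γ.a)^[i] (Γ.w j)) (kap ψ Γ M ch) := by
  refine InCode.sum univ fun k _ => InCode.sum univ fun y _ => ?_
  by_cases h : (term M ch k).fn y
  · simp only [if_pos h]
    refine ((InCode.prod_const (s := s) univ fun d _ => ?_).mul (chi_code hC _ le_rfl hi j)).mono ?_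
    · have hd : (d : ℕ) ≤ D + 2 := d.2.le
      unfold phi
      cases y d
      · exact (chib_code hC _ hd hi j).sub (chib_code hC _ hd hi j)
      · exact chib_code hC _ hd hi j
    · rw [card_univ, Fintype.card_fin]
      exact le_of_eq (by ring)
  · simp only [if_neg h]
    exact InCode.zero

theorem sgI_code (hC : Cx ψ Γ M s lam) {s' i : ℕ} {w : Pt q m} {f : Pt q m → ZMod r}
    (hf : InCode ψ s' ((comp Γ.a)^[i] w) f) :
    InCode ψ s' ((comp Γ.a)^[(D + 2) * n + i] w) fun p => f (sgI Γ D p) := by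
  refine (InCode.comp (compInvL Γ.a ^ ((D + 2) * n)) (f := f) ?_).congr fun p => ?_
  · rwa [compInvL_pow_apply, compInv_iter_comp_add hC.geo.unit]
  · rw [compInvL_pow_apply, sgI]

omit [Fintype X] [DecidableEq X] in
theorem aop_code {s' : ℕ} {w : Pt q m} {f : Pt q m → ZMod r} (hf : InCode ψ s' (comp Γ.a w) f) :
    InCode ψ s' w (Aop Γ D f) :=
  (InCode.sum univ fun t _ => InCode.comp (compL Γ.a)
    (hf.shift (t • sgN Γ D (unitV 0)))).smul (q : ZMod r)⁻¹

omit [Fintype X] [DecidableEq X] in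
theorem aop_iter_code {s' : ℕ} {f : Pt q m → ZMod r} (l : ℕ) {w : Pt q m}
    (hf : InCode ψ s' ((comp Γ.a)^[l] w) f) : InCode ψ s' w ((Aop Γ D)^[l] f) := by
  induction l generalizing w with
  | zero => exact hf
  | succ l ih =>
    rw [Function.iterate_succ_apply']
    exact aop_code (ih hf)

theorem facs_code (hC : Cx ψ Γ M s lam) (x : Idx X ℓ → ZMod r) (d : Fin (D + 2)) {i : ℕ}
    (hi : i < (D + 2) * n + (m + 1)) (j : Fin Cw) :
    InCode ψ s ((comp Γ.a)^[(D + 2) * n + i] (Γ.w j)) (facs ψ Γ D x d) :=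
  sgI_code hC (encv_code hC x d.2.le hi j)

theorem top_code (hC : Cx ψ Γ M s lam) (x : Idx X ℓ → ZMod r) (ch : Ch c) {i : ℕ}
    (hi : i < (D + 2) * n + (m + 1)) (j : Fin Cw) :
    InCode ψ (s1 D s) ((comp Γ.a)^[(D + 2) * n + i] (Γ.w j))
      (topF ψ Γ M (facs ψ Γ D x) ch) := by
  refine ((sgI_code hC (kap_code hC ch hi j)).mul
    (InCode.prod_const (s := s) univ fun d _ => facs_code hC x d hi j)).mono ?_
  rw [card_univ, Fintype.card_fin, s1]
  exact le_of_eq (by ring)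

theorem layer_code (hC : Cx ψ Γ M s lam) (x : Idx X ℓ → ZMod r) (ch : Ch c) {i l : ℕ}
    (hi : l + i < (D + 2) * n + (m + 1)) (j : Fin Cw) :
    InCode ψ (s1 D s) ((comp Γ.a)^[(D + 2) * n + i] (Γ.w j))
      ((Aop Γ D)^[l] (topF ψ Γ M (facs ψ Γ D x) ch)) := by
  refine aop_iter_code l ?_
  rw [← Function.iterate_add_apply, add_left_comm]
  exact top_code hC x ch hi j

theorem le_s1 (D s : ℕ) : s ≤ s1 D s := Nat.le_mul_of_pos_left _ (Nat.succ_pos _)

end TabC

open TabC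

theorem tab_codeLast (hC : Cx ψ Γ M s lam) : ∀ (x : Idx X ℓ → ZMod r) j,
    InCode ψ s (Γ.dir (D + 2) j) fun p : Pt q m => encv ψ Γ x (slot n (D + 2) p) :=
  fun x j => encv_code hC x le_rfl (Nat.add_lt_add_left j.2.2 _) j.1

theorem tab_codeFac (hC : Cx ψ Γ M s lam) : ∀ (x : Idx X ℓ → ZMod r) d j,
    InCode ψ s (Γ.dir (D + 2) j) (facs ψ Γ D x d) :=
  fun x d j => facs_code hC x d (j.2.2.trans_le (Nat.le_add_left _ _)) j.1

theorem tab_codeKap (hC : Cx ψ Γ M s lam) : ∀ ch j,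
    InCode ψ ((D + 3) * s) (Γ.dir (D + 2) j) fun p : Pt q m => kap ψ Γ M ch (sgI Γ D p) :=
  fun ch j => sgI_code hC (kap_code hC ch (j.2.2.trans_le (Nat.le_add_left _ _)) j.1)

theorem tab_code (hC : Cx ψ Γ M s lam) :
    ∀ τ x j, InCode ψ (s1 D s) (Γ.dir (D + 2) j) (tabs ψ Γ M τ x) := by
  intro τ x j
  refine InCode.pi fun i => ?_
  rcases i with ⟨b, ⟨ch, l⟩ | d⟩ | τ'
  · by_cases h : (l : ℕ) < stage b τ
    · simp only [tabs, Tab, if_pos h]
      have h1 := stage_le b τ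
      have h2 := j.2.2
      exact layer_code hC _ ch (by omega) j.1
    · simp only [tabs, Tab, if_neg h]
      exact InCode.zero
  · by_cases h : stage b τ = 0
    · simp only [tabs, Tab, if_pos h]
      exact InCode.zero
    · simp only [tabs, Tab, if_neg h]
      exact (tab_codeFac hC _ d j).mono (le_s1 D s)
  · exact InCode.const _

theorem tab_slot_piD (hC : Cx ψ Γ M s lam) : ∀ (d : Fin (D + 2)) (p : Pt q m),
    slot n (D + 2) (piD Γ D d p) = slot n d (sgI Γ D p) := fun d p => by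
  rw [piD, slot_swapSlot hC.geo.dim le_rfl, swapN_right]

theorem tab_facs_zi (hC : Cx ψ Γ M s lam) : ∀ (x : Idx X ℓ → ZMod r) d p z,
    facs ψ Γ D x d (ziP Γ D p z) = facs ψ Γ D x d p := fun x d p z => by
  rw [facs, facs, ziP, sgI, compInv_iter_add, sgN, compInv_iter_comp hC.geo.unit, slot_add,
    slot_inSlot hC.geo.dim d.2.le, if_neg d.2.ne, add_zero, sgI]

theorem tab_pt_bij (hC : Cx ψ Γ M s lam) :
    ∀ δ z (i : RI q c D), Function.Bijective fun p : Pt q m => pt Γ p δ z i := by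
  intro δ z i
  have h1 : ∀ d : Fin (D + 2), Function.Bijective fun p : Pt q m => piD Γ D d p := fun d =>
    (swapSlot_bijective hC.geo.dim d.2.le le_rfl).comp
      ((compInv_bijective hC.geo.unit).iterate _)
  cases i with
  | ck _ => exact Function.bijective_id
  | lin _ => exact Function.bijective_id
  | far => exact (Equiv.addRight δ).bijective
  | av t _ _ => exact (Equiv.addRight _).bijective.comp (comp_bijective hC.geo.unit)
  | zi _ _ => exact (Equiv.addRight _).bijective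
  | sv d _ _ => exact h1 d
  | inP _ => exact Function.bijective_id
  | inS _ d => exact h1 d

end Vale.Agent.P330.Bohr
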