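import Vale.Agent.P330.Bohr.TabAlg
import Vale.Agent.P330.Bohr.TabCode

/-!
# The tables of the Bohr gadget: assembly of `TabP`
-/

namespace Vale.Agent.P330.Bohr

variable {q r m n Cw c ℓ D : ℕ} {X : Type} [Fact q.Prime] [Fact r.Prime] [Fintype X]
  [DecidableEq X] {ψ : AddChar (ZMod q) (ZMod r)} {Γ : Geo q m n Cw (Idx X ℓ)} {M : LBL c ℓ D X}
  {s : ℕ} {lam : ℝ}

theorem tabP (hC : Cx ψ Γ M s lam) : TabP ψ Γ M s :=
  ⟨tab_coef_encv hC, tab_encv_inj hC, tab_key hC, tab_res hC, tab_code hC, tab_codeLast hC,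
    tab_codeFac hC, tab_codeKap hC, tab_slot_piD hC, tab_facs_zi hC, tab_pt_bij hC⟩

end Vale.Agent.P330.Bohr
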