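import Vale.Agent.P330.Bohr.Asm
import Vale.Agent.P330.Bohr.Geo
import Vale.Agent.P330.Bohr.Mix
import Vale.Agent.P330.Bohr.LTC
import Vale.Agent.P330.Bohr.Had
import Vale.Agent.P330.Bohr.Oc
import Vale.Agent.P330.Bohr.Tab
import Vale.Agent.P330.Bohr.Lift
import Vale.Agent.P330.Bohr.Sound0
import Vale.Agent.P330.Bohr.Sound1
import Vale.Agent.P330.Bohr.Cons
import Vale.Agent.P330.Bohr.Compl
import Vale.Agent.P330.Bohr.Step
import Vale.Agent.P330.Bohr.Graph
import Vale.Agent.P330.Bohr.Good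
import Vale.Agent.P330.Bohr.PT1
import Vale.Agent.P330.Bohr.PT2
import Vale.Agent.P330.Bohr.PT3
import Vale.Agent.P330.Bohr.PT4

/-!
P330: the inner robust line system.
-/

namespace Vale.Agent.P330

open Bohr

theorem Bohr.allInst : AllInst := by
  intro q r m n Cw c ℓ D X _ _ _ _ ψ Γ M s lam hC
  have hO := ocP M hC.wf0 (ZMod r)
  have hT : TabP ψ Γ M s := tabP hC
  have hL : LiftP ψ Γ M s := liftP hC hT hO
  have hK : CompP ψ Γ M := compP hC hT hO
  have hS : StepP ψ Γ M := stepP hC hT hO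
  exact ⟨hT, hL, sound0P distStmt hC hT, sound1P distStmt hC hT, consP hC hT hO, hK,
    graphP hC hO hL hK hS⟩

theorem Bohr.allPT : AllPT := by
  intro q r Cw c D _ _ α _ ℓ m n X ψ Γ M hx
  have h1 : PT1 Γ r c D := pt1 hx r
  have h2 : PT2 ψ Γ M := pt2 hx h1
  exact ⟨h1, pt3 hx h1 h2, pt4 hx h1 h2⟩

theorem bohrStmt : BohrStmt :=
  bohr_of_parts geoStmt (goodStmt (hadStmt (ltcStmt mixStmt)) corStmt distStmt) allInst allPT

end Vale.Agent.P330
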