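import Vale.Agent.P330.Bohr.Defs
import Vale.Agent.P330.BasicPT

/-!
P330, inner system: the statements of the parts.
-/

namespace Vale.Agent.P330.Bohr

open Finset
open Vale.Agent.Lib.PolyTime hiding C P
open Vale.Agent.Lib.Dep

/-- the degree bound of the tables -/
def s1 (D s : ℕ) : ℕ := (2 * (D + 2) + 1) * s

/-- the degree bound of the equations -/
def s2 (D s : ℕ) : ℕ := (D + 2) * s1 D s + (D + 3) * s

/-! ### The values of the channels -/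

/-- S1: the results of the channels (pure algebra). -/
structure OcP {c ℓ D : ℕ} {X : Type} [Fintype X] [DecidableEq X] (M : LBL c ℓ D X) (K : Type)
    [Field K] : Prop where
  oc0 : ∀ (x : Idx X ℓ → K) k, Oc M (.inl 0) x k = x k * x none ^ (D + 1)
  oc1 : ∀ (x : Idx X ℓ → K) k, Oc M (.inl 1) x k = x k * (x none - x k) * x none ^ D
  oc8 : ∀ (x : Idx X ℓ → K) k, Oc M (.inl 8) x k = if k = none then x none ^ (D + 2) else 0
  id_hat : ∀ x : X → Bool, Oc M (.inl 0) (hat x : Idx X ℓ → K) = hat x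
  id_hatS : ∀ σ : Sym ℓ, Oc M (.inl 0) (hatS σ : Idx X ℓ → K) = hatS σ
  bool_hat : ∀ x : X → Bool, Oc M (.inl 1) (hat x : Idx X ℓ → K) = 0
  bool_hatS : ∀ σ : Sym ℓ, Oc M (.inl 1) (hatS σ : Idx X ℓ → K) = 0
  val : ∀ x : X → Bool,
    Oc M (.inl 2) (hat x : Idx X ℓ → K) = 0 ↔ ∀ v, (M.val v).eval noInp x = true
  suc : ∀ x : X → Bool, Oc M (.inl 3) (hat x : Idx X ℓ → K) = hat (sucx M x)
  pre : ∀ x : X → Bool, Oc M (.inl 4) (hat x : Idx X ℓ → K) = hat (prex M x)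
  out : ∀ x : X → Bool, Oc M (.inl 5) (hat x : Idx X ℓ → K) = hatS (outx M x)
  first : ∀ (x : X → Bool) k,
    Oc M (.inl 6) (hat x : Idx X ℓ → K) k = if k = none then bK (x M.first) else 0
  last : ∀ (x : X → Bool) k,
    Oc M (.inl 7) (hat x : Idx X ℓ → K) k = if k = none then bK (x M.last) else 0
  symz : ∀ σ : Sym ℓ, Oc M (.inl 9) (hatS σ : Idx X ℓ → K) = 0
  inp : ∀ j (x : X → Bool),
    Oc M (.inr (false, j)) (hat x : Idx X ℓ → K) = inpV M j fun i => x (M.inp j i)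
  slot : ∀ j (σ : Sym ℓ), Oc M (.inr (true, j)) (hatS σ : Idx X ℓ → K) = inpV M j σ
  inpV_inj : ∀ j (σ σ' : Sym ℓ), (inpV M j σ : Idx X ℓ → K) = inpV M j σ' → σ = σ'
  start : ∀ (σ : Fin c → Sym ℓ) k, (hat (M.start σ) : Idx X ℓ → K) k =
    (if k = none then 1 else 0) + (if k = some (.inl M.first) then 1 else 0) +
      ∑ j, inpV M j (σ j) k
  shapeL : ∀ x : Idx X ℓ → K, Oc M (.inl 0) x = x → Oc M (.inl 1) x = 0 →
    Oc M (.inl 8) x none = 1 → Oc M (.inl 2) x = 0 → ∃ x', x = hat x'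
  shapeS : ∀ x : Idx X ℓ → K, Oc M (.inl 0) x = x → Oc M (.inl 1) x = 0 →
    Oc M (.inl 8) x none = 1 → Oc M (.inl 9) x = 0 → ∃ σ, x = hatS σ
  hat_inj : ∀ x x' : X → Bool, (hat x : Idx X ℓ → K) = hat x' → x = x'
  hatS_inj : ∀ σ σ' : Sym ℓ, (hatS σ : Idx X ℓ → K) = hatS σ' → σ = σ'

section Inst

variable {q r m n Cw c ℓ D : ℕ} {X : Type} [Fact q.Prime] [Fact r.Prime] [Fintype X]
  [DecidableEq X] (ψ : AddChar (ZMod q) (ZMod r)) (Γ : Geo q m n Cw (Idx X ℓ)) (M : LBL c ℓ D X)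

/-- The standing assumptions on an instance. -/
structure Cx (s : ℕ) (lam : ℝ) : Prop where
  hψ : ψ ≠ 1
  hq : (q : ZMod r) ≠ 0
  cw : 0 < Cw
  geo : Γ.Ok (D + 2) s lam
  lam_le : lam ≤ 1 / 100
  wf0 : M.WF0
  deg : 4 * s2 D s < q

/-- S2: the algebra of the tables. -/
structure TabP (s : ℕ) : Prop where
  coef_encv : ∀ (x : Idx X ℓ → ZMod r) k, coef ψ Γ (encv ψ Γ x) k = x k
  encv_inj : ∀ x x' : Idx X ℓ → ZMod r,
    (∀ p : Pt q m, encv ψ Γ x (slot n (D + 2) p) = encv ψ Γ x' (slot n (D + 2) p)) → x = x'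
  key : ∀ F : Fin (D + 2) → Pt q m → ZMod r, (∀ d p z, F d (ziP Γ D p z) = F d p) → ∀ ch,
    ∃ x : Idx X ℓ → ZMod r, ∀ p,
      (Aop Γ D)^[(D + 2) * n] (topF ψ Γ M F ch) p = encv ψ Γ x (slot n (D + 2) p)
  res : ∀ (x : Idx X ℓ → ZMod r) ch p,
    (Aop Γ D)^[(D + 2) * n] (topF ψ Γ M (facs ψ Γ D x) ch) p =
      encv ψ Γ (Oc M ch x) (slot n (D + 2) p)
  code : ∀ τ x j, InCode ψ (s1 D s) (Γ.dir (D + 2) j) (tabs ψ Γ M τ x)
  codeLast : ∀ (x : Idx X ℓ → ZMod r) j,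
    InCode ψ s (Γ.dir (D + 2) j) fun p : Pt q m => encv ψ Γ x (slot n (D + 2) p)
  codeFac : ∀ (x : Idx X ℓ → ZMod r) d j, InCode ψ s (Γ.dir (D + 2) j) (facs ψ Γ D x d)
  codeKap : ∀ ch j,
    InCode ψ ((D + 3) * s) (Γ.dir (D + 2) j) fun p : Pt q m => kap ψ Γ M ch (sgI Γ D p)
  slot_piD : ∀ (d : Fin (D + 2)) (p : Pt q m), slot n (D + 2) (piD Γ D d p) = slot n d (sgI Γ D p)
  facs_zi : ∀ (x : Idx X ℓ → ZMod r) d p z, facs ψ Γ D x d (ziP Γ D p z) = facs ψ Γ D x d p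
  pt_bij : ∀ δ z (i : RI q c D), Function.Bijective fun p : Pt q m => pt Γ p δ z i

/-- the values of the probes which are obtained from two reads -/
noncomputable def rv {c' : ℕ} (sr : RI q c D → Option (Fin c'))
    (inp : Fin c' → Pos q m c D ((D + 2) * n) r → ZMod r)
    (T : Pos q m c D ((D + 2) * n) r → ZMod r) (x : Pos q m c D ((D + 2) * n) r)
    (s : Seed q m n Cw c D ((D + 2) * n) r) (i : RI q c D) : ZMod r :=
  (sr i).elim T inp (rdP Γ x s (.inr (i, true))) - (sr i).elim T inp (rdP Γ x s (.inr (i, false)))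

/-- S3: real reads and ideal values. -/
structure LiftP (s : ℕ) : Prop where
  bal : ∀ i, Bal 1 fun x : Pos q m c D ((D + 2) * n) r × Seed q m n Cw c D ((D + 2) * n) r =>
    rdP Γ x.1 x.2 i
  balL : (sysL ψ Γ M (s1 D s)).Bal 1
  balE : (codeE ψ Γ M (s1 D s)).Bal 1
  eval : ∀ {c' : ℕ} {B : Type} (sr : RI q c D → Option (Fin c'))
    (F : (RR q → ZMod r) → (RI q c D → ZMod r) → B) x sd inp T,
    (mkRule Γ sr F x sd).eval inp T = F (fun i => T (rawP Γ x sd i)) (rv Γ sr inp T x sd)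
  exL : ∀ (σ : Fin c → Sym ℓ) g x sd,
    rv Γ RI.inp (fun j => symW ψ Γ M (σ j)) (word g) x sd = iv Γ g (inpF ψ Γ M σ) x sd
  exE : ∀ (g : Pt q m → Hx c D ((D + 2) * n) → ZMod r) x sd,
    noIn (rv Γ (fun _ => none) noInp (word g) x sd) = iv Γ g (fun _ _ => 0) x sd
  apL : ∀ (σ : Fin c → Sym ℓ) g T,
    frac (fun x : Pos q m c D ((D + 2) * n) r × Seed q m n Cw c D ((D + 2) * n) r =>
      rv Γ RI.inp (fun j => symW ψ Γ M (σ j)) T x.1 x.2 ≠ iv Γ g (inpF ψ Γ M σ) x.1 x.2) ≤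
      kk q c D * frac fun x => T x ≠ word g x
  apE : ∀ (g : Pt q m → Hx c D ((D + 2) * n) → ZMod r) T,
    frac (fun x : Pos q m c D ((D + 2) * n) r × Seed q m n Cw c D ((D + 2) * n) r =>
      noIn (rv Γ (fun _ => none) noInp T x.1 x.2) ≠ iv Γ g (fun _ _ => 0) x.1 x.2) ≤
      kk q c D * frac fun x => T x ≠ word g x

/-- S4a: from approximate equations to the exact clock, invariance and recurrence. -/
def Sound0P (s : ℕ) : Prop :=
  ∀ (md : Bool) (ι : Fin c → Pt q m → ZMod r) (g : Pt q m → Hx c D ((D + 2) * n) → ZMod r)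
    (J' : Fin Cw × Fin (m + 1) → Prop), frac (fun j => ¬ J' j) ≤ 1 / 30 →
    (∀ j, J' j → InCode ψ (s1 D s) (Γ.dir (D + 2) j) g) →
    (∀ e, frac (fun x : Pos q m c D ((D + 2) * n) r × Seed q m n Cw c D ((D + 2) * n) r =>
      eqn ψ Γ M md x.1 (iv Γ g ι x.1 x.2) e ≠ 0) ≤ 1 / 100) →
    ∃ τ, allowed md τ = true ∧ Cons0 ψ Γ M τ g

/-- S4b: from approximate equations to exact sources and conditions. -/
def Sound1P (s : ℕ) : Prop :=
  ∀ (md : Bool) (ι : Fin c → Pt q m → ZMod r) (g : Pt q m → Hx c D ((D + 2) * n) → ZMod r)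
    (J' : Fin Cw × Fin (m + 1) → Prop), frac (fun j => ¬ J' j) ≤ 1 / 30 →
    (∀ j, J' j → InCode ψ (s1 D s) (Γ.dir (D + 2) j) g) →
    (∀ j, ∃ x : Idx X ℓ → ZMod r, ∀ p, ι j p = encv ψ Γ x (slot n (D + 2) p)) →
    (∀ e, frac (fun x : Pos q m c D ((D + 2) * n) r × Seed q m n Cw c D ((D + 2) * n) r =>
      eqn ψ Γ M md x.1 (iv Γ g ι x.1 x.2) e ≠ 0) ≤ 1 / 100) →
    ∀ τ, Cons0 ψ Γ M τ g → Cons ψ Γ M ι τ g

/-- S5: consistent tables are the tables of states. -/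
structure ConsP : Prop where
  stL : ∀ σ, M.WF σ → ∀ τ g, allowed false τ = true → Cons ψ Γ M (inpF ψ Γ M σ) τ g →
    ∃ x, LSt M σ τ x ∧ g = gS ψ Γ M τ x
  stE : ∀ τ g, allowed true τ = true → Cons ψ Γ M (fun _ _ => 0) τ g → ∃ σ, g = gSym ψ Γ M σ
  consL : ∀ σ τ x, LSt M σ τ x → Cons ψ Γ M (inpF ψ Γ M σ) τ (gS ψ Γ M τ x)
  consE : ∀ σ, Cons ψ Γ M (fun _ _ => 0) (some (mkCk _ 4 0)) (gSym ψ Γ M σ)

/-- S6: consistent tables satisfy all equations; the tables determine clock and vectors;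
decoding. -/
structure CompP : Prop where
  tests : ∀ md ι τ g, allowed md τ = true → Cons ψ Γ M ι τ g → ∀ x sd e,
    eqn ψ Γ M md x (iv Γ g ι x sd) e = 0
  word_inj : ∀ g g' : Pt q m → Hx c D ((D + 2) * n) → ZMod r, word g = word g' → g = g'
  inj : ∀ τ τ' x x', tabs ψ Γ M τ x = tabs ψ Γ M τ' x' →
    τ = τ' ∧ ∀ b, stage b τ ≠ 0 → x b = x' b
  congr : ∀ τ x x', (∀ b, stage b τ ≠ 0 → x b = x' b) → tabs ψ Γ M τ x = tabs ψ Γ M τ x'
  zero : ∀ x, word (tabs ψ Γ M none x) = fun _ => 0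
  decL : ∀ ph j x, ph = 1 ∨ ph = 2 ∨ ph = 3 → decL ψ Γ (word (gS ψ Γ M (some (ph, j)) x)) = x
  decS : ∀ σ, decS ψ Γ (symW ψ Γ M σ) = σ

/-- S7: successor, predecessor and output of a state. -/
structure StepP : Prop where
  suc : ∀ σ τ x, M.WF σ → LSt M σ τ x → ∀ y sd,
    stepv ψ Γ M true y (iv Γ (gS ψ Γ M τ x) (inpF ψ Γ M σ) y sd) =
      word (tabs ψ Γ M (nxt (x M.last) τ)
        (if τ = some (mkCk _ 1 ((D + 2) * n + 1)) then vecs M τ x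
          else vecs M (nxt (x M.last) τ) x)) y
  pre : ∀ σ τ x, M.WF σ → LSt M σ τ x → ∀ y sd,
    stepv ψ Γ M false y (iv Γ (gS ψ Γ M τ x) (inpF ψ Γ M σ) y sd) =
      word (tabs ψ Γ M (prv (x M.first) τ)
        (if τ = some (mkCk _ 2 ((D + 2) * n + 1)) then vecs M τ x
          else vecs M (prv (x M.first) τ) x)) y
  out : ∀ σ x y sd,
    outv y (iv Γ (gS ψ Γ M (some (mkCk _ 3 ((D + 2) * n + 1))) x) (inpF ψ Γ M σ) y sd) =
      symW ψ Γ M (outx M x) y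

/-- The valid words of the line system are the words of the states. -/
def ValidL (s : ℕ) (σ : Fin c → Sym ℓ) : Prop :=
  ∀ W, (sysL ψ Γ M (s1 D s)).Valid (fun j => symW ψ Γ M (σ j)) W ↔
    ∃ τ x, LSt M σ τ x ∧ W = word (gS ψ Γ M τ x)

/-- S8: the graph of the line system. -/
def GraphP (s : ℕ) : Prop :=
  ∀ σ, M.WF σ → ValidL ψ Γ M s σ →
    (sysL ψ Γ M (s1 D s)).Start (fun j => symW ψ Γ M (σ j)) ∧
    (∀ W, (sysL ψ Γ M (s1 D s)).End (fun j => symW ψ Γ M (σ j)) W → M.End σ (decL ψ Γ W)) ∧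
    ∀ τ, M.Evals σ τ →
      (sysL ψ Γ M (s1 D s)).Evals (fun j => symW ψ Γ M (σ j)) (symW ψ Γ M τ)

/-- S9 for one instance: distance, soundness, correction and the valid words. -/
structure GoodP (s : ℕ) (θ h : ℝ) : Prop where
  goodL : ∀ σ, M.WF σ → (sysL ψ Γ M (s1 D s)).Good (fun j => symW ψ Γ M (σ j)) (1 / 5) θ h
  validL : ∀ σ, M.WF σ → ValidL ψ Γ M s σ
  goodE : (codeE ψ Γ M (s1 D s)).Good noInp (1 / 5) θ h
  validE : ∀ W, (codeE ψ Γ M (s1 D s)).Valid noInp W ↔ ∃ σ, W = symW ψ Γ M σ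

end Inst

/-- S9: the constants do not depend on the instance. -/
def GoodStmt : Prop :=
  ∃ lam : ℝ, 0 < lam ∧ lam ≤ 1 / 100 ∧ ∀ (q r c D : ℕ) [Fact q.Prime] [Fact r.Prime],
    ∃ θ h : ℝ, 0 < θ ∧ 0 < h ∧ ∀ (m n Cw ℓ s : ℕ) (X : Type) [Fintype X] [DecidableEq X]
      (ψ : AddChar (ZMod q) (ZMod r)) (Γ : Geo q m n Cw (Idx X ℓ)) (M : LBL c ℓ D X),
      Cx ψ Γ M s lam → TabP ψ Γ M s → LiftP ψ Γ M s → Sound0P ψ Γ M s → Sound1P ψ Γ M s →
        ConsP ψ Γ M → CompP ψ Γ M → GoodP ψ Γ M s θ h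

/-! ### Polynomial time -/

section PT

variable {q r Cw c D : ℕ} [Fact q.Prime] [Fact r.Prime] {α : Type} [Enc α] {ℓ m n : α → ℕ}
  {X : TF α} (ψ : AddChar (ZMod q) (ZMod r)) (Γ : ∀ a, Geo q (m a) (n a) Cw (Idx (X.T a) (ℓ a)))
  (M : ∀ a, LBL c (ℓ a) D (X.T a))

/-- The standing assumptions on a family. -/
structure PTx : Prop where
  l : DPT ℓ
  lb : PBd ℓ
  lbl : LBL.IsPT M
  hm : DPT m
  hn : DPT n
  pw : ∀ b : ℕ, PBd fun a => b ^ m a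
  dim : ∀ a, m a + 1 = (D + 2 + 1) * n a
  ga : DPT fun a => (Γ a).a
  gw : ∀ j, DPT fun a => (Γ a).w j
  gal : DPT fun x : Σ a, Idx (X.T a) (ℓ a) => (Γ x.1).al x.2

/-- P1: the types and the positions of the reads. -/
structure PT1 (r c D : ℕ) [Fact r.Prime] : Prop where
  eIdx : DPT fun a => elems (Idx (X.T a) (ℓ a))
  eHx : DPT fun a => elems (Hx c D ((D + 2) * n a))
  ePt : DPT fun a => elems (Pt q (m a))
  eZs : DPT fun a => elems (Zs q (n a))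
  eYv : DPT fun a => elems (Yv c D ((D + 2) * n a) r)
  ePos : DPT fun a => elems (Pos q (m a) c D ((D + 2) * n a) r)
  eSeed : DPT fun a => elems (Seed q (m a) (n a) Cw c D ((D + 2) * n a) r)
  sgI : DPT fun x : Σ a, Pt q (m a) => sgI (Γ x.1) D x.2
  piD : ∀ d : ℕ, DPT fun x : Σ a, Pt q (m a) => piD (Γ x.1) D d x.2
  avP : ∀ t, DPT fun x : Σ a, Pt q (m a) => avP (Γ x.1) D x.2 t
  cv0 : ∀ i, DPT fun x : Σ a, Yv c D ((D + 2) * n a) r => cv x.2 i none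
  rd : ∀ i, DPT fun x : Σ a, Pos q (m a) c D ((D + 2) * n a) r ×
    Seed q (m a) (n a) Cw c D ((D + 2) * n a) r => rdP (Γ x.1) x.2.1 x.2.2 i

/-- P2: characters and kernels. -/
structure PT2 : Prop where
  chi : DPT fun x : Σ a, Idx (X.T a) (ℓ a) × Zs q (n a) => chi ψ (Γ x.1) x.2.1 x.2.2
  chib : DPT fun x : Σ a, Idx (X.T a) (ℓ a) × Zs q (n a) => chib ψ (Γ x.1) x.2.1 x.2.2
  kap : ∀ ch, DPT fun x : Σ a, Pt q (m a) => kap ψ (Γ x.1) (M x.1) ch x.2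

/-- P3: the rules. -/
structure PT3 : Prop where
  ptL : ∀ s, LRLS.IsPT fun a => sysL ψ (Γ a) (M a) s
  ptE : ∀ s, LCode.IsPT fun a => codeE ψ (Γ a) (M a) s

/-- P4: the words of the symbols and the decoders. -/
structure PT4 : Prop where
  sym : DPT fun x : Σ a, Sym (ℓ a) × Pos q (m a) c D ((D + 2) * n a) r =>
    symW ψ (Γ x.1) (M x.1) x.2.1 x.2.2
  decL : DPT fun x : Σ a, Vec (Pos q (m a) c D ((D + 2) * n a) r) (ZMod r) =>
    decL ψ (Γ x.1) x.2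
  decS : DPT fun x : Σ a, Vec (Pos q (m a) c D ((D + 2) * n a) r) (ZMod r) =>
    decS ψ (Γ x.1) x.2

end PT

end Vale.Agent.P330.Bohr
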