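import Vale.Agent.P330.Bohr.Stm

/-!
P330, inner system: Fourier coefficients and the iterated average of the top layer.
-/

namespace Vale.Agent.P330.Bohr

open Finset

set_option linter.unusedSectionVars false

variable {q r m n Cw c ℓ D : ℕ} {X : Type} [Fact q.Prime] [Fact r.Prime] [Fintype X]
  [DecidableEq X] {ψ : AddChar (ZMod q) (ZMod r)} {Γ : Geo q m n Cw (Idx X ℓ)} {M : LBL c ℓ D X}
  {s : ℕ} {lam : ℝ}

namespace TabA

theorem char_sum {ι : Type} (S : Finset ι) (f : ι → ZMod q) : ψ (∑ i ∈ S, f i) = ∏ i ∈ S, ψ (f i) := by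
  classical
  induction S using Finset.induction_on with
  | empty => simp
  | insert a S ha ih => rw [sum_insert ha, prod_insert ha, AddChar.map_add_eq_mul, ih]

theorem sum_char (hψ : ψ ≠ 1) (a : ZMod q) : ∑ t, ψ (a * t) = if a = 0 then (q : ZMod r) else 0 := by
  split_ifs with h
  · simp [h, ZMod.card]
  · exact (Fintype.sum_equiv (Equiv.mulLeft₀ a h) _ (fun t => ψ t) fun t => rfl).trans
      (AddChar.sum_eq_zero_of_ne_one hψ)

theorem sum_char_vec (hψ : ψ ≠ 1) (a : Zs q n) :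
    ∑ z : Zs q n, ψ (∑ i, a i * z i) = if a = 0 then (q : ZMod r) ^ n else 0 := by
  have h1 : ∑ z : Zs q n, ψ (∑ i, a i * z i) = ∏ i, ∑ t, ψ (a i * t) := by
    simp only [char_sum]
    rw [prod_univ_sum]
    rfl
  rw [h1]
  simp only [sum_char hψ]
  split_ifs with h
  · simp [h, vzero_ap]
  · obtain ⟨i, hi⟩ := Function.ne_iff.1 h
    exact prod_eq_zero (mem_univ i) (if_neg hi)

/-- orthogonality of the characters -/
theorem sum_chi_chib (hψ : ψ ≠ 1) (hi : Function.Injective Γ.al) (k k' : Idx X ℓ) :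
    ∑ z, chi ψ Γ k' z * chib ψ Γ k z = if k' = k then (q : ZMod r) ^ n else 0 := by
  have h1 : ∀ z, chi ψ Γ k' z * chib ψ Γ k z = ψ (∑ i, (Γ.al k' - Γ.al k) i * z i) := by
    intro z
    rw [chi, chib, ← AddChar.map_add_eq_mul, ← sub_eq_add_neg, ← sum_sub_distrib]
    simp only [vsub_ap, sub_mul]
  simp only [h1, sum_char_vec hψ, sub_eq_zero, hi.eq_iff]

theorem sum_encv_chib (hψ : ψ ≠ 1) (hi : Function.Injective Γ.al) (x : Idx X ℓ → ZMod r)
    (k : Idx X ℓ) : ∑ z, encv ψ Γ x z * chib ψ Γ k z = (q : ZMod r) ^ n * x k := by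
  simp only [encv, sum_mul, mul_assoc]
  rw [sum_comm]
  simp only [← mul_sum, sum_chi_chib hψ hi, mul_ite, mul_zero, sum_ite_eq', mem_univ, if_true]
  ring

theorem sum_phi_encv (hψ : ψ ≠ 1) (hi : Function.Injective Γ.al) (x : Idx X ℓ → ZMod r)
    (k : Idx X ℓ) (b : Bool) : ∑ z, phi ψ Γ k b z * encv ψ Γ x z =
      (q : ZMod r) ^ n * if b then x k else x none - x k := by
  cases b
  · simp only [phi, Bool.false_eq_true, if_false, sum_sub_distrib,
      mul_comm _ (encv ψ Γ x _), sum_encv_chib hψ hi, mul_sub]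
  · simp only [phi, if_true, mul_comm _ (encv ψ Γ x _), sum_encv_chib hψ hi]

/-- the first `l` coordinates of a point -/
def cut (l : ℕ) (δ : Pt q m) : Pt q m := fun k => if (k : ℕ) < l then δ k else 0

theorem cut_succ {l : ℕ} (hl : l < m + 1) (δ : Pt q m) (t : ZMod q) :
    cut (l + 1) (δ + t • unitV ⟨l, hl⟩) = (t + δ ⟨l, hl⟩) • unitV ⟨l, hl⟩ + cut l δ := by
  funext k
  simp only [cut, vadd_ap, vsmul_ap, unitV, smul_eq_mul]
  by_cases h : k = ⟨l, hl⟩
  · subst h; simp [add_comm]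
  · have h1 : (k : ℕ) ≠ l := fun h1 => h (Fin.ext h1)
    by_cases h2 : (k : ℕ) < l
    · simp [h, h2, Nat.lt_succ_of_lt h2]
    · simp [h, h2, show ¬ (k : ℕ) < l + 1 by omega]

theorem sum_cut_succ {l : ℕ} (hl : l < m + 1) (U : Pt q m → ZMod r) :
    ∑ t : ZMod q, ∑ δ, U (t • unitV ⟨l, hl⟩ + cut l δ) = q * ∑ δ, U (cut (l + 1) δ) := by
  have h1 : ∀ δ : Pt q m, ∑ t : ZMod q, U (t • unitV ⟨l, hl⟩ + cut l δ) =
      ∑ t : ZMod q, U (cut (l + 1) (δ + t • unitV ⟨l, hl⟩)) := fun δ =>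
    (Fintype.sum_equiv (Equiv.addRight (δ ⟨l, hl⟩)) _ _ fun t => by
      rw [cut_succ, Equiv.coe_addRight]).symm
  rw [sum_comm]
  simp only [h1]
  rw [sum_comm]
  have h2 : ∀ t : ZMod q, ∑ δ : Pt q m, U (cut (l + 1) (δ + t • unitV ⟨l, hl⟩)) =
      ∑ δ, U (cut (l + 1) δ) := fun t =>
    Fintype.sum_equiv (Equiv.addRight (t • unitV ⟨l, hl⟩)) _ _ fun δ => rfl
  simp only [h2, sum_const, card_univ, ZMod.card, nsmul_eq_mul]

theorem sgI_add (p p' : Pt q m) : sgI Γ D (p + p') = sgI Γ D p + sgI Γ D p' :=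
  compInv_iter_add _ _ _ _

theorem sgN_add (p p' : Pt q m) : sgN Γ D (p + p') = sgN Γ D p + sgN Γ D p' :=
  comp_iter_add _ _ _ _

theorem sgI_sgN (ha : Γ.a 0 ≠ 0) (p : Pt q m) : sgI Γ D (sgN Γ D p) = p := compInv_iter_comp ha _ _

theorem sgN_sgI (ha : Γ.a 0 ≠ 0) (p : Pt q m) : sgN Γ D (sgI Γ D p) = p := comp_iter_compInv ha _ _

/-- the iterated average is the average over the first coordinates -/
theorem aop_iter (hq : (q : ZMod r) ≠ 0) (ha : Γ.a 0 ≠ 0) (U : Pt q m → ZMod r) (l : ℕ)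
    (hl : l ≤ m + 1) (p : Pt q m) :
    (Aop Γ D)^[l] (fun p => U (sgI Γ D p)) p =
      ((q : ZMod r) ^ (m + 1))⁻¹ * ∑ δ, U (sgI Γ D ((comp Γ.a)^[l] p) + cut l δ) := by
  induction l generalizing p with
  | zero =>
    have h1 : ∀ δ : Pt q m, cut 0 δ = 0 := fun δ => funext fun k => if_neg (Nat.not_lt_zero _)
    simp only [h1, add_zero, Function.iterate_zero, id, sum_const, card_univ, card_vec, ZMod.card,
      Fintype.card_fin, nsmul_eq_mul, Nat.cast_pow]
    field_simp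
  | succ l ih =>
    have h1 : ∀ t : ZMod q, sgI Γ D ((comp Γ.a)^[l] (avP Γ D p t)) =
        sgI Γ D ((comp Γ.a)^[l + 1] p) + t • unitV ⟨l, hl⟩ := by
      intro t
      rw [avP, comp_iter_add, sgI_add, comp_iter_smul, Function.iterate_succ_apply, sgN,
        ← Function.iterate_add_apply, add_comm l, sgI, sgI, compInv_iter_smul,
        compInv_iter_comp_add ha, comp_iter_unitV]
    rw [Function.iterate_succ_apply', Aop]
    simp only [ih (by omega), h1, ← mul_sum, add_assoc]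
    rw [sum_cut_succ hl fun z => U (sgI Γ D ((comp Γ.a)^[l + 1] p) + z)]
    field_simp

theorem slot_cut_last (h : m + 1 = (D + 2 + 1) * n) (δ : Pt q m) :
    slot n (D + 2) (cut ((D + 2) * n) δ) = 0 := by
  funext i
  rw [slot_ap h le_rfl]
  exact if_neg (by simp)

theorem cut_add_inSlot (h : m + 1 = (D + 2 + 1) * n) (δ : Pt q m) :
    cut ((D + 2) * n) δ + inSlot m (D + 2) (slot n (D + 2) δ) = δ := by
  refine slot_ext h fun e he => ?_
  rw [slot_add, slot_inSlot h he]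
  split_ifs with h1
  · rw [h1, slot_cut_last h, zero_add]
  · rw [add_zero]
    funext i
    rw [slot_ap h he, slot_ap h he]
    refine if_pos ?_
    have h2 : (e + 1) * n ≤ (D + 2) * n := Nat.mul_le_mul_right _ (by omega)
    have h3 := i.2
    change e * n + i < _
    nlinarith

theorem slot_add_inSlot (h : m + 1 = (D + 2 + 1) * n) (d : Fin (D + 2)) (p : Pt q m)
    (z : Zs q n) : slot n d (p + inSlot m (D + 2) z) = slot n d p := by
  rw [slot_add, slot_inSlot h d.2.le, if_neg d.2.ne, add_zero]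

/-- the average of one term of the top layer -/
noncomputable def mu (ψ : AddChar (ZMod q) (ZMod r)) (Γ : Geo q m n Cw (Idx X ℓ))
    (F : Fin (D + 2) → Pt q m → ZMod r) (T : Term D (Idx X ℓ)) (y : Fin (D + 2) → Bool) : ZMod r :=
  ((q : ZMod r) ^ (m + 1))⁻¹ *
    ∑ δ : Pt q m, (∏ d, phi ψ Γ (T.rd d) (y d) (slot n d δ)) * ∏ d, F d (sgN Γ D δ)

theorem main (hC : Cx ψ Γ M s lam) (F : Fin (D + 2) → Pt q m → ZMod r)
    (hF : ∀ d p z, F d (ziP Γ D p z) = F d p) (ch : Ch c) (p : Pt q m) :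
    (Aop Γ D)^[(D + 2) * n] (topF ψ Γ M F ch) p =
      encv ψ Γ (fun k => ∑ k', if (term M ch k').tg = k then
        ∑ y, if (term M ch k').fn y then mu ψ Γ F (term M ch k') y else 0 else 0)
        (slot n (D + 2) p) := by
  have hd := hC.geo.dim
  have ha := hC.geo.unit
  have h1 : topF ψ Γ M F ch =
      fun p => (fun x => kap ψ Γ M ch x * ∏ d, F d (sgN Γ D x)) (sgI Γ D p) := by
    funext p
    simp only [topF, sgN_sgI ha]
  have h2 : ∀ (T : Term D (Idx X ℓ)) (y : Fin (D + 2) → Bool), ((q : ZMod r) ^ (m + 1))⁻¹ *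
      ∑ δ : Pt q m, (∏ d, phi ψ Γ (T.rd d) (y d) (slot n d (p + cut ((D + 2) * n) δ))) *
        ∏ d, F d (sgN Γ D (p + cut ((D + 2) * n) δ)) = mu ψ Γ F T y := by
    intro T y
    rw [mu]
    congr 1
    refine Fintype.sum_equiv (Equiv.addLeft p) _ _ fun δ => ?_
    simp only [Equiv.coe_addLeft]
    conv_rhs => rw [← cut_add_inSlot hd δ, ← add_assoc]
    simp only [slot_add_inSlot hd, sgN_add (p + _)]
    congr 1
    exact prod_congr rfl fun d _ => (hF d _ _).symm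
  rw [h1, aop_iter hC.hq ha (fun x => kap ψ Γ M ch x * ∏ d, F d (sgN Γ D x)) _
    (by rw [hd]; nlinarith), ← sgN, sgI_sgN ha, encv]
  simp only [sum_mul, ite_mul, zero_mul]
  rw [sum_comm]
  simp only [sum_ite_eq, mem_univ, if_true, kap, sum_mul, slot_add n (D + 2), slot_cut_last hd,
    add_zero]
  rw [sum_comm, mul_sum]
  refine sum_congr rfl fun k _ => ?_
  rw [sum_comm, mul_sum]
  refine sum_congr rfl fun y _ => ?_
  split_ifs
  · rw [← h2, mul_assoc, sum_mul]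
    congr 1
    exact sum_congr rfl fun δ _ => by ring
  · simp

theorem sum_slots (h : m + 1 = (D + 2 + 1) * n) (f : Fin (D + 2) → Zs q n → ZMod r) :
    ∑ δ : Pt q m, ∏ d : Fin (D + 2), f d (slot n d δ) = (q : ZMod r) ^ n * ∏ d, ∑ z, f d z := by
  let g : Fin (D + 2 + 1) → Zs q n → ZMod r := Fin.lastCases (fun _ => 1) f
  have h1 : ∑ δ : Pt q m, ∏ d : Fin (D + 2), f d (slot n d δ) =
      ∑ z : Fin (D + 2 + 1) → Zs q n, ∏ e, g e (z e) := by
    refine Fintype.sum_equiv (slotE h).toEquiv _ _ fun δ => ?_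
    rw [Fin.prod_univ_castSucc (n := D + 2)]
    simp only [g, Fin.lastCases_castSucc, Fin.lastCases_last, mul_one]
    rfl
  rw [h1, ← Fintype.piFinset_univ, ← prod_univ_sum, Fin.prod_univ_castSucc, mul_comm]
  simp only [g, Fin.lastCases_castSucc, Fin.lastCases_last, sum_const, card_univ, card_vec,
    ZMod.card, Fintype.card_fin, nsmul_eq_mul, Nat.cast_pow, mul_one]

theorem mu_facs (hC : Cx ψ Γ M s lam) (x : Idx X ℓ → ZMod r) (T : Term D (Idx X ℓ))
    (y : Fin (D + 2) → Bool) : mu ψ Γ (facs ψ Γ D x) T y =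
      ∏ d, if y d then x (T.rd d) else x none - x (T.rd d) := by
  simp only [mu, facs, sgI_sgN hC.geo.unit, ← prod_mul_distrib]
  rw [sum_slots hC.geo.dim fun d z => phi ψ Γ (T.rd d) (y d) z * encv ψ Γ x z]
  simp only [sum_phi_encv hC.hψ hC.geo.inj, prod_mul_distrib, prod_const, card_univ,
    Fintype.card_fin]
  rw [← mul_assoc, ← mul_assoc, ← pow_mul, mul_assoc _ _ (_ ^ _), ← pow_add, hC.geo.dim,
    show n + n * (D + 2) = (D + 2 + 1) * n by ring, inv_mul_cancel₀ (pow_ne_zero _ hC.hq), one_mul]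

end TabA

open TabA

theorem tab_coef_encv (hC : Cx ψ Γ M s lam) (x : Idx X ℓ → ZMod r) (k : Idx X ℓ) :
    coef ψ Γ (encv ψ Γ x) k = x k := by
  rw [coef, sum_encv_chib hC.hψ hC.geo.inj, inv_mul_cancel_left₀ (pow_ne_zero _ hC.hq)]

theorem tab_encv_inj (hC : Cx ψ Γ M s lam) (x x' : Idx X ℓ → ZMod r)
    (h : ∀ p : Pt q m, encv ψ Γ x (slot n (D + 2) p) = encv ψ Γ x' (slot n (D + 2) p)) : x = x' := by
  have h1 : encv ψ Γ x = encv ψ Γ x' := funext fun z => by
    have := h (inSlot m (D + 2) z)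
    rwa [slot_inSlot hC.geo.dim le_rfl, if_pos rfl] at this
  funext k
  rw [← tab_coef_encv hC x, h1, tab_coef_encv hC]

theorem tab_key (hC : Cx ψ Γ M s lam) (F : Fin (D + 2) → Pt q m → ZMod r)
    (hF : ∀ d p z, F d (ziP Γ D p z) = F d p) (ch : Ch c) : ∃ x : Idx X ℓ → ZMod r, ∀ p,
      (Aop Γ D)^[(D + 2) * n] (topF ψ Γ M F ch) p = encv ψ Γ x (slot n (D + 2) p) :=
  ⟨_, main hC F hF ch⟩

theorem tab_facs_zi' (hC : Cx ψ Γ M s lam) (x : Idx X ℓ → ZMod r) (d : Fin (D + 2)) (p : Pt q m)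
    (z : Zs q n) : facs ψ Γ D x d (ziP Γ D p z) = facs ψ Γ D x d p := by
  rw [facs, facs, ziP, sgI_add, sgI_sgN hC.geo.unit, slot_add_inSlot hC.geo.dim]

theorem tab_res (hC : Cx ψ Γ M s lam) (x : Idx X ℓ → ZMod r) (ch : Ch c) (p : Pt q m) :
    (Aop Γ D)^[(D + 2) * n] (topF ψ Γ M (facs ψ Γ D x) ch) p =
      encv ψ Γ (Oc M ch x) (slot n (D + 2) p) := by
  rw [main hC _ (tab_facs_zi' hC x)]
  simp only [mu_facs hC]
  rfl

end Vale.Agent.P330.Bohr
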